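import Vale.Agent.Lib.P302.NestT

/-!
# List versions of the nesting lemmas and the final certificate theorem (problem P302)
-/

namespace Vale.Agent.Lib.P302
open Multiset

theorem BB_of_chk (L : ℕ) (lA lC : List ℕ) (N fuel : ℕ) (hs : (lC ++ lA).Pairwise (· ≤ ·))
    (hchk : chk L fuel ((lC ++ lA).take (3 * (N + 1))).reverse = false) :
    BB L (lA : Multiset ℕ) (lC : Multiset ℕ) N := by
  apply BB_of_UB
  have := UB_of_chk L (lC ++ lA) N fuel hs hchk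
  rw [← coe_add, add_comm] at this
  exact this

theorem BB_nest_list (L d1 d2 e1 e2 lo : ℕ) (hA : ℕ) (lA0 lA1 lC1 : List ℕ) (hC : ℕ)
    (lC0 : List ℕ) (q1 g1 p0 N : ℕ)
    (h12 : d1 ≤ d2) (g12 : e1 ≤ e2)
    (k1 : L < (d2 + 1) + lo + (e2 + 1)) (k2 : L < (d2 + 1) + (d1 + 1) + (e1 + 1))
    (hHA : lo ≤ hA ∧ hA ≤ d1) (hA0 : ∀ y ∈ lA0, d1 < y ∧ y ≤ d2) (hA1 : ∀ y ∈ lA1, d2 < y)
    (hC1 : ∀ z ∈ lC1, z ≤ e1) (hHC : e1 < hC ∧ hC ≤ e2) (hC0 : ∀ z ∈ lC0, e2 < z)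
    (hq : lC1.length = q1) (hn : lA0.length ≤ 2 * p0 + 2 + g1) (hg : g1 ≤ q1)
    (hN : N = q1 + p0 + 1)
    (hB1 : BB L (lA1 : Multiset ℕ) (lC1 : Multiset ℕ) (q1 - g1))
    (hB0 : BB L (lA0 : Multiset ℕ) (lC0 : Multiset ℕ) p0) :
    BB L ((hA :: (lA0 ++ lA1) : List ℕ) : Multiset ℕ) ((lC1 ++ hC :: lC0 : List ℕ) : Multiset ℕ)
      N := by
  have key := BB_nest L d1 d2 e1 e2 lo h12 g12 k1 k2 ({hA} : Multiset ℕ) (lA0 : Multiset ℕ)
    (lA1 : Multiset ℕ) (lC1 : Multiset ℕ) ({hC} : Multiset ℕ) (lC0 : Multiset ℕ) q1 g1 p0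
    (by intro y hy; rw [mem_singleton] at hy; subst hy; exact hHA)
    (by intro y hy; exact hA0 y (mem_coe.1 hy)) (by intro y hy; exact hA1 y (mem_coe.1 hy))
    (by intro y hy; exact hC1 y (mem_coe.1 hy))
    (by intro y hy; rw [mem_singleton] at hy; subst hy; exact hHC)
    (by intro y hy; exact hC0 y (mem_coe.1 hy)) (by omega)
    (by rw [coe_card]; exact hq) (by simp) (by simp) (by rw [coe_card]; exact hn) hg hB1 hB0
  have e1' : ((hA :: (lA0 ++ lA1) : List ℕ) : Multiset ℕ)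
      = ({hA} : Multiset ℕ) + (lA0 : Multiset ℕ) + (lA1 : Multiset ℕ) := by
    rw [← cons_coe, ← coe_add, singleton_add, cons_add]
  have e2' : ((lC1 ++ hC :: lC0 : List ℕ) : Multiset ℕ)
      = (lC1 : Multiset ℕ) + ({hC} : Multiset ℕ) + (lC0 : Multiset ℕ) := by
    rw [← coe_add, ← cons_coe, add_assoc, singleton_add]
  rw [e1', e2', hN]
  exact key

theorem UB_nest_list (L c1 c2 c3 : ℕ) (lC lH lS lA : List ℕ) (q g τ0 N : ℕ)
    (h12 : c1 ≤ c2) (h23 : c2 ≤ c3)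
    (h1 : L < 2 * (c3 + 1) + (c1 + 1)) (h2 : L < (c3 + 1) + (c1 + 1) + (c2 + 1))
    (hC : ∀ y ∈ lC, y ≤ c1) (hH : ∀ y ∈ lH, c1 < y ∧ y ≤ c2)
    (hS : ∀ y ∈ lS, c2 < y ∧ y ≤ c3) (hA : ∀ y ∈ lA, c3 < y)
    (hq : lC.length = q) (hh : lH.length ≤ 2) (hn : lS.length ≤ 3 * τ0 + 3 + g) (hg : g ≤ q)
    (hN : N = q + τ0 + 1)
    (hB : BB L (lA : Multiset ℕ) (lC : Multiset ℕ) (q - g)) (hU : UB L (lS : Multiset ℕ) τ0) :
    UB L ((lC ++ lH ++ lS ++ lA : List ℕ) : Multiset ℕ) N := by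
  have key := UB_nest L c1 c2 c3 h12 h23 h1 h2 (lC : Multiset ℕ) (lH : Multiset ℕ)
    (lS : Multiset ℕ) (lA : Multiset ℕ) q g τ0
    (by intro y hy; exact hC y (mem_coe.1 hy)) (by intro y hy; exact hH y (mem_coe.1 hy))
    (by intro y hy; exact hS y (mem_coe.1 hy)) (by intro y hy; exact hA y (mem_coe.1 hy))
    (by rw [coe_card]; exact hq) (by rw [coe_card]; exact hh) (by rw [coe_card]; exact hn) hg hB hU
  rw [← coe_add, ← coe_add, ← coe_add, hN]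
  exact key

/-- If all sizes exceed `L/4` and at most `τ` disjoint triples fit, then `j` bins with
`2 j + τ < n` do not suffice. -/
theorem not_packable_UB (L : ℕ) (hL : 0 < L) (sizes : List ℕ) (j τ : ℕ)
    (h4 : ∀ s ∈ sizes, L < 4 * s) (hcount : 2 * j + τ < sizes.length)
    (hU : UB L (sizes : Multiset ℕ) τ) :
    ¬ Packable (toInst L sizes) j := by
  intro hp
  obtain ⟨bins, hlen, hsum, hb⟩ := packable_bins_nat L hL sizes j hp
  have hmem : ∀ b ∈ bins, ∀ x ∈ b, x ∈ sizes := by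
    intro b hbb x hx
    have h1 : b ≤ bins.sum := List.single_le_sum (fun _ _ => Multiset.zero_le _) b hbb
    have h2 : x ∈ bins.sum := Multiset.mem_of_le h1 hx
    rw [hsum] at h2
    exact Multiset.mem_coe.1 h2
  obtain ⟨s, hs1, hs2, hs3⟩ := extract L bins
    (fun b hbb => ⟨hb b hbb, fun x hx => h4 x (hmem b hbb x hx)⟩)
  rw [hsum] at hs2 hs3
  rw [Multiset.coe_card, hlen] at hs3
  have := hU s hs2 hs1
  omega

/-- The certificate theorem: sizes above a quarter of the capacity, at most `τ` disjoint triples,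
an explicit fractional cover. -/
theorem certificate_UB (L : ℕ) (sizes : List ℕ) (K τ q : ℕ) (P : List (List ℕ × ℕ))
    (hL : 0 < L) (h4 : ∀ s ∈ sizes, L < 4 * s)
    (h1 : ∀ s ∈ sizes, s ≤ L) (hcount : 2 * K + τ < sizes.length)
    (hU : UB L (sizes : Multiset ℕ) τ)
    (hq : 0 < q)
    (hc : ∀ p ∈ P, (∀ s ∈ p.1, s ∈ sizes) ∧ p.1.sum ≤ L)
    (hcov : ∀ s ∈ sizes, sizes.count s * q ≤ (P.map (fun p => p.1.count s * p.2)).sum) :
    IsInstance (toInst L sizes) ∧ K + 1 ≤ OPT (toInst L sizes) ∧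
      LP (toInst L sizes) ≤ (((P.map (fun p => p.2)).sum : ℕ) : ℝ) / (q : ℝ) := by
  have hinst : IsInstance (toInst L sizes) :=
    toInst_isInstance L sizes (fun s hs => by have := h4 s hs; omega) h1
  refine ⟨hinst, ?_, LP_le_nat L hL sizes P q hq hc hcov⟩
  by_contra hlt
  have hle : OPT (toInst L sizes) ≤ K := by omega
  exact not_packable_UB L hL sizes _ τ h4 (by omega) hU (OPT_packable _ hinst)

end Vale.Agent.Lib.P302
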