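import Vale.Agent.Lib.P302.MaxD

/-!
# A leaner certificate checker for the LP bound (problem P302)

Triple patterns are given as quadruples `(a, b, c, w)`, pair patterns `[a, a]` as `(a, w)`.
All checks are Boolean functions which the kernel evaluates quickly.
-/

namespace Vale.Agent.Lib.P302

/-- total weight with which the size `s` is covered by the triple patterns -/
def useT (s : ℕ) : List (ℕ × ℕ × ℕ × ℕ) → ℕ
  | [] => 0
  | p :: l => (cond (Nat.beq p.1 s) p.2.2.2 0 + cond (Nat.beq p.2.1 s) p.2.2.2 0
      + cond (Nat.beq p.2.2.1 s) p.2.2.2 0) + useT s l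

/-- total weight with which the size `s` is covered by the pair patterns `[a, a]` -/
def useD (s : ℕ) : List (ℕ × ℕ) → ℕ
  | [] => 0
  | p :: l => cond (Nat.beq p.1 s) (2 * p.2) 0 + useD s l

def memB (s : ℕ) : List ℕ → Bool
  | [] => false
  | x :: l => cond (Nat.beq x s) true (memB s l)

/-- every size of the chunk is covered with weight at least `q` -/
def covB (T : List (ℕ × ℕ × ℕ × ℕ)) (D : List (ℕ × ℕ)) (q : ℕ) : List ℕ → Bool
  | [] => true
  | s :: l => cond (Nat.ble q (useT s T + useD s D)) (covB T D q l) false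

/-- the triple patterns of the chunk consist of sizes of the instance and fit in a bin -/
def okT (L : ℕ) (sizes : List ℕ) : List (ℕ × ℕ × ℕ × ℕ) → Bool
  | [] => true
  | p :: l => cond (memB p.1 sizes) (cond (memB p.2.1 sizes) (cond (memB p.2.2.1 sizes)
      (cond (Nat.ble (p.1 + p.2.1 + p.2.2.1) L) (okT L sizes l) false) false) false) false

def okD (L : ℕ) (sizes : List ℕ) : List (ℕ × ℕ) → Bool
  | [] => true
  | p :: l => cond (memB p.1 sizes) (cond (Nat.ble (p.1 + p.1) L) (okD L sizes l) false) false

/-- strictly increasing -/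
def incB : List ℕ → Bool
  | [] => true
  | x :: l => match l with
    | [] => true
    | y :: _ => cond (Nat.blt x y) (incB l) false

def sumT : List (ℕ × ℕ × ℕ × ℕ) → ℕ
  | [] => 0
  | p :: l => p.2.2.2 + sumT l

def sumD : List (ℕ × ℕ) → ℕ
  | [] => 0
  | p :: l => p.2 + sumD l

theorem memB_iff (s : ℕ) (l : List ℕ) : memB s l = true ↔ s ∈ l := by
  induction l with
  | nil => simp [memB]
  | cons x l ih =>
    unfold memB
    by_cases h : x = s
    · subst h; simp
    · have : Nat.beq x s = false := by
        rw [← Bool.not_eq_true, Nat.beq_eq]; exact h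
      rw [this]
      simp only [cond_false, ih, List.mem_cons]
      constructor
      · intro h'; exact Or.inr h'
      · rintro (h' | h')
        · exact absurd h'.symm h
        · exact h'

theorem cond_beq (x s w : ℕ) : cond (Nat.beq x s) w 0 = if x = s then w else 0 := by
  by_cases h : x = s
  · subst h; simp
  · have : Nat.beq x s = false := by
      rw [← Bool.not_eq_true, Nat.beq_eq]; exact h
    rw [this]; simp [h]

theorem incB_pairwise : ∀ l : List ℕ, incB l = true → l.Pairwise (· < ·) := by
  intro l
  induction l with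
  | nil => intro _; exact List.Pairwise.nil
  | cons x l ih =>
    intro h
    cases l with
    | nil => simp
    | cons y l' =>
      simp only [incB] at h
      by_cases hxy : x < y
      · have hb : Nat.blt x y = true := by simpa [Nat.blt_eq] using hxy
        rw [hb] at h
        simp only [cond_true] at h
        have ih' := ih h
        refine List.pairwise_cons.2 ⟨?_, ih'⟩
        intro z hz
        rcases List.mem_cons.1 hz with rfl | hz
        · exact hxy
        · exact lt_trans hxy ((List.pairwise_cons.1 ih').1 z hz)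
      · have hb : Nat.blt x y = false := by
          rw [← Bool.not_eq_true]; simpa [Nat.blt_eq] using hxy
        rw [hb] at h
        simp at h

theorem covB_spec (T : List (ℕ × ℕ × ℕ × ℕ)) (D : List (ℕ × ℕ)) (q : ℕ) :
    ∀ l : List ℕ, covB T D q l = true → ∀ s ∈ l, q ≤ useT s T + useD s D := by
  intro l
  induction l with
  | nil => intro _ s hs; simp at hs
  | cons x l ih =>
    intro h s hs
    unfold covB at h
    by_cases hx : q ≤ useT x T + useD x D
    · have hb : Nat.ble q (useT x T + useD x D) = true := Nat.ble_eq_true_of_le hx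
      rw [hb] at h
      rcases List.mem_cons.1 hs with rfl | hs
      · exact hx
      · exact ih h s hs
    · have hb : Nat.ble q (useT x T + useD x D) = false := by
        rw [← Bool.not_eq_true, Nat.ble_eq]; exact hx
      rw [hb] at h
      simp at h

theorem okT_spec (L : ℕ) (sizes : List ℕ) : ∀ l : List (ℕ × ℕ × ℕ × ℕ), okT L sizes l = true →
    ∀ p ∈ l, p.1 ∈ sizes ∧ p.2.1 ∈ sizes ∧ p.2.2.1 ∈ sizes ∧ p.1 + p.2.1 + p.2.2.1 ≤ L := by
  intro l
  induction l with
  | nil => intro _ p hp; simp at hp
  | cons x l ih =>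
    intro h p hp
    unfold okT at h
    cases h1 : memB x.1 sizes <;> rw [h1] at h <;> simp only [cond_false, cond_true] at h
    · exact absurd h (by simp)
    cases h2 : memB x.2.1 sizes <;> rw [h2] at h <;> simp only [cond_false, cond_true] at h
    · exact absurd h (by simp)
    cases h3 : memB x.2.2.1 sizes <;> rw [h3] at h <;> simp only [cond_false, cond_true] at h
    · exact absurd h (by simp)
    cases h4 : Nat.ble (x.1 + x.2.1 + x.2.2.1) L <;> rw [h4] at h <;>
      simp only [cond_false, cond_true] at h
    · exact absurd h (by simp)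
    rcases List.mem_cons.1 hp with rfl | hp
    · exact ⟨(memB_iff _ _).1 h1, (memB_iff _ _).1 h2, (memB_iff _ _).1 h3, Nat.le_of_ble_eq_true h4⟩
    · exact ih h p hp

theorem okD_spec (L : ℕ) (sizes : List ℕ) : ∀ l : List (ℕ × ℕ), okD L sizes l = true →
    ∀ p ∈ l, p.1 ∈ sizes ∧ p.1 + p.1 ≤ L := by
  intro l
  induction l with
  | nil => intro _ p hp; simp at hp
  | cons x l ih =>
    intro h p hp
    unfold okD at h
    cases h1 : memB x.1 sizes <;> rw [h1] at h <;> simp only [cond_false, cond_true] at h
    · exact absurd h (by simp)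
    cases h4 : Nat.ble (x.1 + x.1) L <;> rw [h4] at h <;> simp only [cond_false, cond_true] at h
    · exact absurd h (by simp)
    rcases List.mem_cons.1 hp with rfl | hp
    · exact ⟨(memB_iff _ _).1 h1, Nat.le_of_ble_eq_true h4⟩
    · exact ih h p hp

/-- the patterns in the format of `LP_le_nat` -/
def toPats (T : List (ℕ × ℕ × ℕ × ℕ)) (D : List (ℕ × ℕ)) : List (List ℕ × ℕ) :=
  T.map (fun p => ([p.1, p.2.1, p.2.2.1], p.2.2.2)) ++ D.map (fun p => ([p.1, p.1], p.2))

theorem useT_cons (s : ℕ) (p : ℕ × ℕ × ℕ × ℕ) (l : List (ℕ × ℕ × ℕ × ℕ)) :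
    useT s (p :: l) = (cond (Nat.beq p.1 s) p.2.2.2 0 + cond (Nat.beq p.2.1 s) p.2.2.2 0
      + cond (Nat.beq p.2.2.1 s) p.2.2.2 0) + useT s l := rfl

theorem useD_cons (s : ℕ) (p : ℕ × ℕ) (l : List (ℕ × ℕ)) :
    useD s (p :: l) = cond (Nat.beq p.1 s) (2 * p.2) 0 + useD s l := rfl

theorem count3 (s a b c : ℕ) : List.count s [a, b, c]
    = (if a = s then 1 else 0) + (if b = s then 1 else 0) + (if c = s then 1 else 0) := by
  simp only [List.count_cons, List.count_nil, beq_iff_eq]
  omega

theorem count2 (s a : ℕ) : List.count s [a, a] = 2 * (if a = s then 1 else 0) := by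
  simp only [List.count_cons, List.count_nil, beq_iff_eq]
  omega

theorem toPats_use (s : ℕ) (T : List (ℕ × ℕ × ℕ × ℕ)) (D : List (ℕ × ℕ)) :
    ((toPats T D).map (fun p => p.1.count s * p.2)).sum = useT s T + useD s D := by
  unfold toPats
  rw [List.map_append, List.sum_append]
  congr 1
  · induction T with
    | nil => simp [useT]
    | cons p T ih =>
      simp only [List.map_cons, List.sum_cons] at ih ⊢
      rw [ih, useT_cons, cond_beq, cond_beq, cond_beq, count3]
      split_ifs <;> ring
  · induction D with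
    | nil => simp [useD]
    | cons p D ih =>
      simp only [List.map_cons, List.sum_cons] at ih ⊢
      rw [ih, useD_cons, cond_beq, count2]
      split_ifs <;> ring

theorem toPats_sum (T : List (ℕ × ℕ × ℕ × ℕ)) (D : List (ℕ × ℕ)) :
    ((toPats T D).map (fun p => p.2)).sum = sumT T + sumD D := by
  unfold toPats
  rw [List.map_append, List.sum_append]
  congr 1
  · induction T with
    | nil => simp [sumT]
    | cons p T ih =>
      simp only [List.map_cons, List.sum_cons] at ih ⊢
      rw [ih]; rfl
  · induction D with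
    | nil => simp [sumD]
    | cons p D ih =>
      simp only [List.map_cons, List.sum_cons] at ih ⊢
      rw [ih]; rfl

/-- The certificate theorem with the lean checks (sizes strictly increasing). -/
theorem certificate2 (L : ℕ) (sizes : List ℕ) (K τ q tot : ℕ)
    (T : List (ℕ × ℕ × ℕ × ℕ)) (D : List (ℕ × ℕ))
    (hL : 0 < L) (hinc : incB sizes = true) (h4 : ∀ s ∈ sizes, L < 4 * s)
    (h1 : ∀ s ∈ sizes, s ≤ L) (hcount : 2 * K + τ < sizes.length)
    (hU : UB L (sizes : Multiset ℕ) τ) (hq : 0 < q)
    (hT : ∀ p ∈ T, p.1 ∈ sizes ∧ p.2.1 ∈ sizes ∧ p.2.2.1 ∈ sizes ∧ p.1 + p.2.1 + p.2.2.1 ≤ L)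
    (hD : ∀ p ∈ D, p.1 ∈ sizes ∧ p.1 + p.1 ≤ L)
    (hcov : ∀ s ∈ sizes, q ≤ useT s T + useD s D)
    (htot : sumT T + sumD D = tot) :
    IsInstance (toInst L sizes) ∧ K + 1 ≤ OPT (toInst L sizes) ∧
      LP (toInst L sizes) ≤ (tot : ℝ) / (q : ℝ) := by
  have hnd : sizes.Nodup := (incB_pairwise sizes hinc).imp (fun h => ne_of_lt h)
  have key := certificate_UB L sizes K τ q (toPats T D) hL h4 h1 hcount hU hq ?_ ?_
  · rw [toPats_sum, htot] at key
    exact key
  · intro p hp
    unfold toPats at hp
    rcases List.mem_append.1 hp with hp | hp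
    · obtain ⟨p0, hp0, rfl⟩ := List.mem_map.1 hp
      obtain ⟨a1, a2, a3, a4⟩ := hT p0 hp0
      refine ⟨?_, ?_⟩
      · intro s hs
        simp only [List.mem_cons, List.not_mem_nil, or_false] at hs
        rcases hs with rfl | rfl | rfl
        · exact a1
        · exact a2
        · exact a3
      · simp only [List.sum_cons, List.sum_nil]; omega
    · obtain ⟨p0, hp0, rfl⟩ := List.mem_map.1 hp
      obtain ⟨a1, a4⟩ := hD p0 hp0
      refine ⟨?_, ?_⟩
      · intro s hs
        simp only [List.mem_cons, List.not_mem_nil, or_false] at hs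
        rcases hs with rfl | rfl
        · exact a1
        · exact a1
      · simp only [List.sum_cons, List.sum_nil]; omega
  · intro s hs
    rw [toPats_use, List.count_eq_one_of_mem hnd hs, one_mul]
    exact hcov s hs

end Vale.Agent.Lib.P302
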