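import Mathlib

/-!
# Bin packing, the optimum and the Gilmore-Gomory configuration LP (problem P302)
-/

namespace Vale.Agent.Lib.P302

/-- A bin packing instance: a finite list of rational item sizes, all in `(0,1]`. -/
def IsInstance (a : List ℚ) : Prop := ∀ s ∈ a, 0 < s ∧ s ≤ 1

/-- The items (the positions of the list) can be distributed over `k` bins so that the total
size in each bin is at most `1`. -/
def Packable (a : List ℚ) (k : ℕ) : Prop :=
  ∃ f : Fin a.length → Fin k,
    ∀ b : Fin k, ∑ i ∈ Finset.univ.filter (fun i => f i = b), a.get i ≤ 1

/-- The least number of bins. -/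
noncomputable def OPT (a : List ℚ) : ℕ := sInf {k | Packable a k}

/-- A configuration: a multiset `c` of sizes occurring in the instance (the vector
`σ ↦ c.count σ`), of total size at most `1`.  A size may be repeated more often than it
occurs in the instance. -/
def IsConfig (a : List ℚ) (c : Multiset ℚ) : Prop := (∀ s ∈ c, s ∈ a) ∧ c.sum ≤ 1

/-- Feasible solutions of the configuration LP: nonnegative weights on configurations which
cover each size `σ` at least as often as its multiplicity in the instance. -/
def IsFracCover (a : List ℚ) (z : Multiset ℚ →₀ ℝ) : Prop :=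
  (∀ c, 0 ≤ z c) ∧ (∀ c ∈ z.support, IsConfig a c) ∧
    ∀ s ∈ a, (a.count s : ℝ) ≤ z.sum (fun c w => (c.count s : ℝ) * w)

/-- The value of the configuration LP. -/
noncomputable def LP (a : List ℚ) : ℝ :=
  sInf {v | ∃ z, IsFracCover a z ∧ v = z.sum (fun _ w => w)}

end Vale.Agent.Lib.P302
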