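import Vale.Agent.Lib.P302.MaxD

namespace Vale.Agent.Lib.P302.Inst140
open Vale.Agent.Lib.P302

def cap : ℕ := 7605324

def it1 : List ℕ := [2851994, 2851995, 2851996, 2851998, 2851999, 2852000, 2852001, 2852002, 2852003]

def bn1 : List ℕ := [1901332, 1901334]

theorem bb1 : BB cap (it1 : Multiset ℕ) (bn1 : Multiset ℕ) 1 :=
  BB_of_maxD cap it1 bn1 1 (by decide +kernel)

def it2 : List ℕ := [2851930, 2851931, 2851932, 2851934, 2851935]

def bn2 : List ℕ := [1901460, 1901462, 1901464]

theorem bb2 : BB cap (it2 : Multiset ℕ) (bn2 : Multiset ℕ) 1 :=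
  BB_of_maxD cap it2 bn2 1 (by decide +kernel)

def it3 : List ℕ := 2851893 :: (it2 ++ it1)

def bn3 : List ℕ := bn1 ++ 1901428 :: bn2

theorem bb3 : BB cap (it3 : Multiset ℕ) (bn3 : Multiset ℕ) 4 :=
  BB_nest_list cap 2851929 2851993 1901427 1901459 2851893 2851893 it2 it1 bn1 1901428 bn2 2 1 1 4
    (by decide +kernel) (by decide +kernel) (by decide +kernel) (by decide +kernel) (by decide +kernel) (by decide +kernel) (by decide +kernel)
    (by decide +kernel) (by decide +kernel) (by decide +kernel) (by decide +kernel) (by decide +kernel) (by decide +kernel) (by decide +kernel) bb1 bb2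

def it4 : List ℕ := [2850938, 2850939, 2850940, 2850942, 2850943, 2850944]

def bn4 : List ℕ := [1903444, 1903446]

theorem bb4 : BB cap (it4 : Multiset ℕ) (bn4 : Multiset ℕ) 1 :=
  BB_of_maxD cap it4 bn4 1 (by decide +kernel)

def it5 : List ℕ := [2850898, 2850899, 2850900, 2850902, 2850903]

def bn5 : List ℕ := [1903524, 1903526, 1903528]

theorem bb5 : BB cap (it5 : Multiset ℕ) (bn5 : Multiset ℕ) 1 :=
  BB_of_maxD cap it5 bn5 1 (by decide +kernel)

def it6 : List ℕ := 2850876 :: (it5 ++ it4)

def bn6 : List ℕ := bn4 ++ 1903504 :: bn5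

theorem bb6 : BB cap (it6 : Multiset ℕ) (bn6 : Multiset ℕ) 4 :=
  BB_nest_list cap 2850897 2850937 1903503 1903523 2850876 2850876 it5 it4 bn4 1903504 bn5 2 1 1 4
    (by decide +kernel) (by decide +kernel) (by decide +kernel) (by decide +kernel) (by decide +kernel) (by decide +kernel) (by decide +kernel)
    (by decide +kernel) (by decide +kernel) (by decide +kernel) (by decide +kernel) (by decide +kernel) (by decide +kernel) (by decide +kernel) bb4 bb5

def it7 : List ℕ := 2850313 :: (it6 ++ it3)

def bn7 : List ℕ := bn3 ++ 1903008 :: bn6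

theorem bb7 : BB cap (it7 : Multiset ℕ) (bn7 : Multiset ℕ) 11 :=
  BB_nest_list cap 2850875 2851892 1903007 1903443 2850313 2850313 it6 it3 bn3 1903008 bn6 6 2 4 11
    (by decide +kernel) (by decide +kernel) (by decide +kernel) (by decide +kernel) (by decide +kernel) (by decide +kernel) (by decide +kernel)
    (by decide +kernel) (by decide +kernel) (by decide +kernel) (by decide +kernel) (by decide +kernel) (by decide +kernel) (by decide +kernel) bb3 bb6

def it8 : List ℕ := [2834178, 2834179, 2834180, 2834182, 2834183, 2834184, 2834185]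

def bn8 : List ℕ := [1936964, 1936966]

theorem bb8 : BB cap (it8 : Multiset ℕ) (bn8 : Multiset ℕ) 1 :=
  BB_of_maxD cap it8 bn8 1 (by decide +kernel)

def it9 : List ℕ := [2834130, 2834131, 2834132, 2834134, 2834135]

def bn9 : List ℕ := [1937060, 1937062, 1937064]

theorem bb9 : BB cap (it9 : Multiset ℕ) (bn9 : Multiset ℕ) 1 :=
  BB_of_maxD cap it9 bn9 1 (by decide +kernel)

def it10 : List ℕ := 2834103 :: (it9 ++ it8)

def bn10 : List ℕ := bn8 ++ 1937036 :: bn9

theorem bb10 : BB cap (it10 : Multiset ℕ) (bn10 : Multiset ℕ) 4 :=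
  BB_nest_list cap 2834129 2834177 1937035 1937059 2834103 2834103 it9 it8 bn8 1937036 bn9 2 1 1 4
    (by decide +kernel) (by decide +kernel) (by decide +kernel) (by decide +kernel) (by decide +kernel) (by decide +kernel) (by decide +kernel)
    (by decide +kernel) (by decide +kernel) (by decide +kernel) (by decide +kernel) (by decide +kernel) (by decide +kernel) (by decide +kernel) bb8 bb9

def it11 : List ℕ := [2833394, 2833395, 2833396, 2833398, 2833399, 2833400]

def bn11 : List ℕ := [1938532, 1938534]

theorem bb11 : BB cap (it11 : Multiset ℕ) (bn11 : Multiset ℕ) 1 :=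
  BB_of_maxD cap it11 bn11 1 (by decide +kernel)

def it12 : List ℕ := [2833354, 2833355, 2833356, 2833358, 2833359]

def bn12 : List ℕ := [1938612, 1938614, 1938616]

theorem bb12 : BB cap (it12 : Multiset ℕ) (bn12 : Multiset ℕ) 1 :=
  BB_of_maxD cap it12 bn12 1 (by decide +kernel)

def it13 : List ℕ := 2833332 :: (it12 ++ it11)

def bn13 : List ℕ := bn11 ++ 1938592 :: bn12

theorem bb13 : BB cap (it13 : Multiset ℕ) (bn13 : Multiset ℕ) 4 :=
  BB_nest_list cap 2833353 2833393 1938591 1938611 2833332 2833332 it12 it11 bn11 1938592 bn12 2 1 1 4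
    (by decide +kernel) (by decide +kernel) (by decide +kernel) (by decide +kernel) (by decide +kernel) (by decide +kernel) (by decide +kernel)
    (by decide +kernel) (by decide +kernel) (by decide +kernel) (by decide +kernel) (by decide +kernel) (by decide +kernel) (by decide +kernel) bb11 bb12

def it14 : List ℕ := 2832915 :: (it13 ++ it10)

def bn14 : List ℕ := bn10 ++ 1938224 :: bn13

theorem bb14 : BB cap (it14 : Multiset ℕ) (bn14 : Multiset ℕ) 11 :=
  BB_nest_list cap 2833331 2834102 1938223 1938531 2832915 2832915 it13 it10 bn10 1938224 bn13 6 2 4 11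
    (by decide +kernel) (by decide +kernel) (by decide +kernel) (by decide +kernel) (by decide +kernel) (by decide +kernel) (by decide +kernel)
    (by decide +kernel) (by decide +kernel) (by decide +kernel) (by decide +kernel) (by decide +kernel) (by decide +kernel) (by decide +kernel) bb10 bb13

def it15 : List ℕ := 2823481 :: (it14 ++ it7)

def bn15 : List ℕ := bn7 ++ 1929840 :: bn14

theorem bb15 : BB cap (it15 : Multiset ℕ) (bn15 : Multiset ℕ) 25 :=
  BB_nest_list cap 2832914 2850312 1929839 1936963 2823481 2823481 it14 it7 bn7 1929840 bn14 13 2 11 25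
    (by decide +kernel) (by decide +kernel) (by decide +kernel) (by decide +kernel) (by decide +kernel) (by decide +kernel) (by decide +kernel)
    (by decide +kernel) (by decide +kernel) (by decide +kernel) (by decide +kernel) (by decide +kernel) (by decide +kernel) (by decide +kernel) bb7 bb14

def it16 : List ℕ := [2551434, 2551435, 2551436, 2551438, 2551439, 2551440, 2551441, 2551442]

def bn16 : List ℕ := [2502452, 2502454]

theorem bb16 : BB cap (it16 : Multiset ℕ) (bn16 : Multiset ℕ) 1 :=
  BB_of_maxD cap it16 bn16 1 (by decide +kernel)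

def it17 : List ℕ := [2551378, 2551379, 2551380, 2551382, 2551383]

def bn17 : List ℕ := [2502564, 2502566, 2502568]

theorem bb17 : BB cap (it17 : Multiset ℕ) (bn17 : Multiset ℕ) 1 :=
  BB_of_maxD cap it17 bn17 1 (by decide +kernel)

def it18 : List ℕ := 2551346 :: (it17 ++ it16)

def bn18 : List ℕ := bn16 ++ 2502536 :: bn17

theorem bb18 : BB cap (it18 : Multiset ℕ) (bn18 : Multiset ℕ) 4 :=
  BB_nest_list cap 2551377 2551433 2502535 2502563 2551346 2551346 it17 it16 bn16 2502536 bn17 2 1 1 4
    (by decide +kernel) (by decide +kernel) (by decide +kernel) (by decide +kernel) (by decide +kernel) (by decide +kernel) (by decide +kernel)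
    (by decide +kernel) (by decide +kernel) (by decide +kernel) (by decide +kernel) (by decide +kernel) (by decide +kernel) (by decide +kernel) bb16 bb17

def it19 : List ℕ := [2550514, 2550515, 2550516, 2550518, 2550519, 2550520]

def bn19 : List ℕ := [2504292, 2504294]

theorem bb19 : BB cap (it19 : Multiset ℕ) (bn19 : Multiset ℕ) 1 :=
  BB_of_maxD cap it19 bn19 1 (by decide +kernel)

def it20 : List ℕ := [2550474, 2550475, 2550476, 2550478, 2550479]

def bn20 : List ℕ := [2504372, 2504374, 2504376]

theorem bb20 : BB cap (it20 : Multiset ℕ) (bn20 : Multiset ℕ) 1 :=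
  BB_of_maxD cap it20 bn20 1 (by decide +kernel)

def it21 : List ℕ := 2550452 :: (it20 ++ it19)

def bn21 : List ℕ := bn19 ++ 2504352 :: bn20

theorem bb21 : BB cap (it21 : Multiset ℕ) (bn21 : Multiset ℕ) 4 :=
  BB_nest_list cap 2550473 2550513 2504351 2504371 2550452 2550452 it20 it19 bn19 2504352 bn20 2 1 1 4
    (by decide +kernel) (by decide +kernel) (by decide +kernel) (by decide +kernel) (by decide +kernel) (by decide +kernel) (by decide +kernel)
    (by decide +kernel) (by decide +kernel) (by decide +kernel) (by decide +kernel) (by decide +kernel) (by decide +kernel) (by decide +kernel) bb19 bb20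

def it22 : List ℕ := 2549962 :: (it21 ++ it18)

def bn22 : List ℕ := bn18 ++ 2503920 :: bn21

theorem bb22 : BB cap (it22 : Multiset ℕ) (bn22 : Multiset ℕ) 11 :=
  BB_nest_list cap 2550451 2551345 2503919 2504291 2549962 2549962 it21 it18 bn18 2503920 bn21 6 2 4 11
    (by decide +kernel) (by decide +kernel) (by decide +kernel) (by decide +kernel) (by decide +kernel) (by decide +kernel) (by decide +kernel)
    (by decide +kernel) (by decide +kernel) (by decide +kernel) (by decide +kernel) (by decide +kernel) (by decide +kernel) (by decide +kernel) bb18 bb21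

def un23 : List ℕ := [2535070, 2535072, 2535095, 2535099, 2535106, 2535108, 2535111, 2535113, 2535125, 2535126, 2535127, 2535129, 2535130, 2535131]

theorem ub23 : UB cap (un23 : Multiset ℕ) 3 :=
  UB_of_chk cap un23 3 6 (by decide +kernel) (by decide +kernel)

def un24 : List ℕ := bn22 ++ [2526940, 2526942] ++ un23 ++ it22

theorem ub24 : UB cap (un24 : Multiset ℕ) 17 :=
  UB_nest_list cap 2526939 2535069 2549961 bn22 [2526940, 2526942] un23 it22 13 2 3 17
    (by decide +kernel) (by decide +kernel) (by decide +kernel) (by decide +kernel) (by decide +kernel) (by decide +kernel) (by decide +kernel)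
    (by decide +kernel) (by decide +kernel) (by decide +kernel) (by decide +kernel) (by decide +kernel) (by decide +kernel) bb22 ub23

def un25 : List ℕ := bn15 ++ [2376659, 2376662] ++ un24 ++ it15

theorem ub25 : UB cap (un25 : Multiset ℕ) 45 :=
  UB_nest_list cap 2376658 2502451 2823480 bn15 [2376659, 2376662] un24 it15 27 2 17 45
    (by decide +kernel) (by decide +kernel) (by decide +kernel) (by decide +kernel) (by decide +kernel) (by decide +kernel) (by decide +kernel)
    (by decide +kernel) (by decide +kernel) (by decide +kernel) (by decide +kernel) (by decide +kernel) (by decide +kernel) bb15 ub24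

def pats : List (List ℕ × ℕ) :=
  [([2851994, 2851998, 1901332], 3456),
   ([2851996, 2851996, 1901332], 1728),
   ([2851994, 2851996, 1901334], 1728),
   ([2851995, 2851995, 1901334], 2592),
   ([2851930, 2851934, 1901460], 3456),
   ([2851932, 2851932, 1901460], 1728),
   ([2851930, 2851932, 1901462], 1728),
   ([2851931, 2851931, 1901462], 2592),
   ([2851998, 2851934, 1901334], 864),
   ([2851998, 2851893, 1901428], 864),
   ([2851999, 2851893, 1901428], 2304),
   ([2851934, 2851934, 1901428], 432),
   ([2851935, 2851935, 1901428], 1584),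
   ([2851893, 2851935, 1901462], 864),
   ([2851893, 2851935, 1901464], 1152),
   ([2850938, 2850942, 1903444], 3456),
   ([2850940, 2850940, 1903444], 1728),
   ([2850938, 2850940, 1903446], 1728),
   ([2850939, 2850939, 1903446], 2592),
   ([2850898, 2850902, 1903524], 3456),
   ([2850900, 2850900, 1903524], 1728),
   ([2850898, 2850900, 1903526], 1728),
   ([2850899, 2850899, 1903526], 2592),
   ([2850942, 2850902, 1903446], 864),
   ([2850942, 2850876, 1903504], 864),
   ([2850943, 2850876, 1903504], 2304),
   ([2850902, 2850902, 1903504], 432),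
   ([2850903, 2850903, 1903504], 1584),
   ([2850876, 2850903, 1903526], 864),
   ([2850876, 2850903, 1903528], 1152),
   ([2851999, 2850943, 1901464], 2880),
   ([2852000, 2850944, 1901464], 1152),
   ([2852000, 2850313, 1903008], 3840),
   ([2850944, 2850944, 1903008], 1344),
   ([2850313, 2850944, 1903528], 1344),
   ([2834178, 2834182, 1936964], 3456),
   ([2834180, 2834180, 1936964], 1728),
   ([2834178, 2834180, 1936966], 1728),
   ([2834179, 2834179, 1936966], 2592),
   ([2834130, 2834134, 1937060], 3456),
   ([2834132, 2834132, 1937060], 1728),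
   ([2834130, 2834132, 1937062], 1728),
   ([2834131, 2834131, 1937062], 2592),
   ([2834182, 2834134, 1936966], 864),
   ([2834182, 2834103, 1937036], 864),
   ([2834183, 2834103, 1937036], 2304),
   ([2834134, 2834134, 1937036], 432),
   ([2834135, 2834135, 1937036], 1584),
   ([2834103, 2834135, 1937062], 864),
   ([2834103, 2834135, 1937064], 1152),
   ([2833394, 2833398, 1938532], 3456),
   ([2833396, 2833396, 1938532], 1728),
   ([2833394, 2833396, 1938534], 1728),
   ([2833395, 2833395, 1938534], 2592),
   ([2833354, 2833358, 1938612], 3456),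
   ([2833356, 2833356, 1938612], 1728),
   ([2833354, 2833356, 1938614], 1728),
   ([2833355, 2833355, 1938614], 2592),
   ([2833398, 2833358, 1938534], 864),
   ([2833398, 2833332, 1938592], 864),
   ([2833399, 2833332, 1938592], 2304),
   ([2833358, 2833358, 1938592], 432),
   ([2833359, 2833359, 1938592], 1584),
   ([2833332, 2833359, 1938614], 864),
   ([2833332, 2833359, 1938616], 1152),
   ([2834183, 2833399, 1937064], 2880),
   ([2834184, 2833400, 1937064], 1152),
   ([2834184, 2832915, 1938224], 3840),
   ([2833400, 2833400, 1938224], 1344),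
   ([2832915, 2833400, 1938616], 1344),
   ([2852000, 2834184, 1903528], 192),
   ([2852001, 2834185, 1903528], 2496),
   ([2852001, 2823481, 1929840], 2688),
   ([2852002, 2823481, 1929840], 1600),
   ([2834185, 2834185, 1929840], 896),
   ([2823481, 2834185, 1938616], 896),
   ([2551434, 2551438, 2502452], 3456),
   ([2551436, 2551436, 2502452], 1728),
   ([2551434, 2551436, 2502454], 1728),
   ([2551435, 2551435, 2502454], 2592),
   ([2551378, 2551382, 2502564], 3456),
   ([2551380, 2551380, 2502564], 1728),
   ([2551378, 2551380, 2502566], 1728),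
   ([2551379, 2551379, 2502566], 2592),
   ([2551438, 2551382, 2502454], 864),
   ([2551438, 2551346, 2502536], 864),
   ([2551439, 2551346, 2502536], 2304),
   ([2551382, 2551382, 2502536], 432),
   ([2551383, 2551383, 2502536], 1584),
   ([2551346, 2551383, 2502566], 864),
   ([2551346, 2551383, 2502568], 1152),
   ([2550514, 2550518, 2504292], 3456),
   ([2550516, 2550516, 2504292], 1728),
   ([2550514, 2550516, 2504294], 1728),
   ([2550515, 2550515, 2504294], 2592),
   ([2550474, 2550478, 2504372], 3456),
   ([2550476, 2550476, 2504372], 1728),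
   ([2550474, 2550476, 2504374], 1728),
   ([2550475, 2550475, 2504374], 2592),
   ([2550518, 2550478, 2504294], 864),
   ([2550518, 2550452, 2504352], 864),
   ([2550519, 2550452, 2504352], 2304),
   ([2550478, 2550478, 2504352], 432),
   ([2550479, 2550479, 2504352], 1584),
   ([2550452, 2550479, 2504374], 864),
   ([2550452, 2550479, 2504376], 1152),
   ([2551439, 2550519, 2502568], 2880),
   ([2551440, 2550520, 2502568], 1152),
   ([2551440, 2549962, 2503920], 3840),
   ([2550520, 2550520, 2503920], 1344),
   ([2549962, 2550520, 2504376], 1344),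
   ([2535072, 2535125, 2535127], 1728),
   ([2535106, 2535106, 2535111], 2592),
   ([2535072, 2535113, 2535129], 864),
   ([2535099, 2535111, 2535113], 864),
   ([2535108, 2535108, 2535108], 1728),
   ([2535070, 2535127, 2535127], 1728),
   ([2535072, 2535126, 2535126], 2592),
   ([2535095, 2535099, 2535130], 3456),
   ([2535099, 2535111, 2535111], 864),
   ([2535095, 2535113, 2535113], 1728),
   ([2535070, 2535125, 2535129], 3456),
   ([2551440, 2535129, 2504376], 192),
   ([2551441, 2535129, 2504376], 672),
   ([2551441, 2535130, 2504376], 1728),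
   ([2551441, 2535131, 2504376], 96),
   ([2551441, 2526940, 2526942], 2688),
   ([2551442, 2526940, 2526942], 1224),
   ([2535131, 2535131, 2526940], 1272),
   ([2535131, 2535131, 2526942], 1272),
   ([2852002, 2551442, 1938616], 1792),
   ([2852002, 2376659, 2376662], 1792),
   ([2852003, 2376659, 2376662], 2850),
   ([2551442, 2551442, 2376659], 542),
   ([2551442, 2551442, 2376662], 542),
   ([2852003, 2852003], 1167)]

theorem inst140 : ∃ a : List ℚ, IsInstance a ∧ (6523 : ℝ) / 5184 ≤ (OPT a : ℝ) - LP a := by
  obtain ⟨h1, h2, h3⟩ := certificate_UB cap un25 47 45 5184 pats (by decide +kernel) (by decide +kernel) (by decide +kernel) (by decide +kernel) ub25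
    (by decide +kernel) (by decide +kernel) (by decide +kernel)
  refine ⟨_, h1, ?_⟩
  have h4 : ((47 + 1 : ℕ) : ℝ) ≤ (OPT (toInst cap un25) : ℝ) := by exact_mod_cast h2
  have h5 : (pats.map (fun p => p.2)).sum = 242309 := by decide +kernel
  rw [h5] at h3
  push_cast at h3 h4
  linarith

end Vale.Agent.Lib.P302.Inst140
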