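import Vale.Agent.Lib.P302.MaxD

namespace Vale.Agent.Lib.P302.Inst56
open Vale.Agent.Lib.P302

def cap : ℕ := 391884

def it1 : List ℕ := [146954, 146955, 146956, 146958, 146959, 146960, 146961, 146962]

def bn1 : List ℕ := [97972, 97974]

theorem bb1 : BB cap (it1 : Multiset ℕ) (bn1 : Multiset ℕ) 1 :=
  BB_of_maxD cap it1 bn1 1 (by decide +kernel)

def it2 : List ℕ := [146898, 146899, 146900, 146902, 146903]

def bn2 : List ℕ := [98084, 98086, 98088]

theorem bb2 : BB cap (it2 : Multiset ℕ) (bn2 : Multiset ℕ) 1 :=
  BB_of_maxD cap it2 bn2 1 (by decide +kernel)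

def it3 : List ℕ := 146866 :: (it2 ++ it1)

def bn3 : List ℕ := bn1 ++ 98056 :: bn2

theorem bb3 : BB cap (it3 : Multiset ℕ) (bn3 : Multiset ℕ) 4 :=
  BB_nest_list cap 146897 146953 98055 98083 146866 146866 it2 it1 bn1 98056 bn2 2 1 1 4
    (by decide +kernel) (by decide +kernel) (by decide +kernel) (by decide +kernel) (by decide +kernel) (by decide +kernel) (by decide +kernel)
    (by decide +kernel) (by decide +kernel) (by decide +kernel) (by decide +kernel) (by decide +kernel) (by decide +kernel) (by decide +kernel) bb1 bb2

def it4 : List ℕ := [146034, 146035, 146036, 146038, 146039, 146040]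

def bn4 : List ℕ := [99812, 99814]

theorem bb4 : BB cap (it4 : Multiset ℕ) (bn4 : Multiset ℕ) 1 :=
  BB_of_maxD cap it4 bn4 1 (by decide +kernel)

def it5 : List ℕ := [145994, 145995, 145996, 145998, 145999]

def bn5 : List ℕ := [99892, 99894, 99896]

theorem bb5 : BB cap (it5 : Multiset ℕ) (bn5 : Multiset ℕ) 1 :=
  BB_of_maxD cap it5 bn5 1 (by decide +kernel)

def it6 : List ℕ := 145972 :: (it5 ++ it4)

def bn6 : List ℕ := bn4 ++ 99872 :: bn5

theorem bb6 : BB cap (it6 : Multiset ℕ) (bn6 : Multiset ℕ) 4 :=
  BB_nest_list cap 145993 146033 99871 99891 145972 145972 it5 it4 bn4 99872 bn5 2 1 1 4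
    (by decide +kernel) (by decide +kernel) (by decide +kernel) (by decide +kernel) (by decide +kernel) (by decide +kernel) (by decide +kernel)
    (by decide +kernel) (by decide +kernel) (by decide +kernel) (by decide +kernel) (by decide +kernel) (by decide +kernel) (by decide +kernel) bb4 bb5

def it7 : List ℕ := 145482 :: (it6 ++ it3)

def bn7 : List ℕ := bn3 ++ 99440 :: bn6

theorem bb7 : BB cap (it7 : Multiset ℕ) (bn7 : Multiset ℕ) 11 :=
  BB_nest_list cap 145971 146865 99439 99811 145482 145482 it6 it3 bn3 99440 bn6 6 2 4 11
    (by decide +kernel) (by decide +kernel) (by decide +kernel) (by decide +kernel) (by decide +kernel) (by decide +kernel) (by decide +kernel)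
    (by decide +kernel) (by decide +kernel) (by decide +kernel) (by decide +kernel) (by decide +kernel) (by decide +kernel) (by decide +kernel) bb3 bb6

def un8 : List ℕ := [130590, 130592, 130615, 130619, 130626, 130628, 130631, 130633, 130645, 130646, 130647, 130649, 130650, 130651]

theorem ub8 : UB cap (un8 : Multiset ℕ) 3 :=
  UB_of_chk cap un8 3 6 (by decide +kernel) (by decide +kernel)

def un9 : List ℕ := bn7 ++ [122461, 122461] ++ un8 ++ it7

theorem ub9 : UB cap (un9 : Multiset ℕ) 17 :=
  UB_nest_list cap 122460 130589 145481 bn7 [122461, 122461] un8 it7 13 2 3 17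
    (by decide +kernel) (by decide +kernel) (by decide +kernel) (by decide +kernel) (by decide +kernel) (by decide +kernel) (by decide +kernel)
    (by decide +kernel) (by decide +kernel) (by decide +kernel) (by decide +kernel) (by decide +kernel) (by decide +kernel) bb7 ub8

def pats : List (List ℕ × ℕ) :=
  [([97972, 146956, 146956], 144),
   ([122461, 130650, 130650], 32),
   ([97974, 146955, 146955], 216),
   ([98086, 146866, 146903], 72),
   ([130619, 130631, 130631], 72),
   ([98056, 146903, 146903], 168),
   ([97974, 146903, 146958], 8),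
   ([99896, 130650, 146961], 152),
   ([98084, 146900, 146900], 144),
   ([146959, 146959], 21),
   ([98084, 146898, 146902], 288),
   ([99896, 145972, 145999], 24),
   ([98088, 146039, 146962], 240),
   ([99440, 146040, 146040], 112),
   ([130626, 130626, 130631], 216),
   ([130615, 130633, 130633], 144),
   ([130592, 130645, 130647], 144),
   ([98086, 146899, 146899], 216),
   ([130619, 130631, 130633], 72),
   ([130628, 130628, 130628], 144),
   ([99892, 145994, 145998], 288),
   ([98056, 146866, 146960], 264),
   ([98086, 146898, 146900], 144),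
   ([97974, 146902, 146959], 48),
   ([99894, 145995, 145995], 216),
   ([99814, 146034, 146036], 144),
   ([130615, 130619, 130650], 144),
   ([99896, 145972, 145998], 144),
   ([99892, 145996, 145996], 144),
   ([99894, 145994, 145996], 144),
   ([97972, 146954, 146958], 288),
   ([97974, 146954, 146956], 144),
   ([99812, 146036, 146036], 144),
   ([99440, 145482, 146961], 280),
   ([130592, 130646, 130646], 216),
   ([99814, 146035, 146035], 216),
   ([99814, 145999, 146039], 72),
   ([146960, 146960], 48),
   ([98088, 146040, 146958], 96),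
   ([99872, 145972, 146038], 144),
   ([130590, 130645, 130649], 288),
   ([99440, 145482, 146958], 40),
   ([130592, 130633, 130651], 72),
   ([99894, 130650, 146960], 72),
   ([99872, 145999, 145999], 168),
   ([99812, 146034, 146038], 288),
   ([130590, 130647, 130647], 144),
   ([130615, 130619, 130649], 144),
   ([98088, 146866, 146902], 96),
   ([99872, 145972, 146039], 120),
   ([122461, 130651, 130651], 180),
   ([122461, 122461, 146959], 326),
   ([99896, 145482, 146040], 112),
   ([97974, 146903, 146959], 16),
   ([146962, 146962], 96)]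

theorem inst56 : ∃ a : List ℚ, IsInstance a ∧ (521 : ℝ) / 432 ≤ (OPT a : ℝ) - LP a := by
  obtain ⟨h1, h2, h3⟩ := certificate_UB cap un9 19 17 432 pats (by decide +kernel) (by decide +kernel) (by decide +kernel) (by decide +kernel) ub9
    (by decide +kernel) (by decide +kernel) (by decide +kernel)
  refine ⟨_, h1, ?_⟩
  have h4 : ((19 + 1 : ℕ) : ℝ) ≤ (OPT (toInst cap un9) : ℝ) := by exact_mod_cast h2
  have h5 : (pats.map (fun p => p.2)).sum = 8119 := by decide +kernel
  rw [h5] at h3
  push_cast at h3 h4
  linarith

end Vale.Agent.Lib.P302.Inst56
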