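import Vale.Agent.Lib.P302.Cert2

namespace Vale.Agent.Lib.P302.Inst644
open Vale.Agent.Lib.P302

def cap : ℕ := 2743163724

def it1 : List ℕ := [1028686394, 1028686395, 1028686396, 1028686398, 1028686399, 1028686400, 1028686401, 1028686402, 1028686403, 1028686404, 1028686405]

def bn1 : List ℕ := [685790932, 685790934]

theorem bb1 : BB cap (it1 : Multiset ℕ) (bn1 : Multiset ℕ) 1 :=
  BB_of_maxD cap it1 bn1 1 (by decide +kernel)

def it2 : List ℕ := [1028686314, 1028686315, 1028686316, 1028686318, 1028686319]

def bn2 : List ℕ := [685791092, 685791094, 685791096]

theorem bb2 : BB cap (it2 : Multiset ℕ) (bn2 : Multiset ℕ) 1 :=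
  BB_of_maxD cap it2 bn2 1 (by decide +kernel)

def it3 : List ℕ := 1028686267 :: (it2 ++ it1)

def bn3 : List ℕ := bn1 ++ 685791052 :: bn2

theorem bb3 : BB cap (it3 : Multiset ℕ) (bn3 : Multiset ℕ) 4 :=
  BB_nest_list cap 1028686313 1028686393 685791051 685791091 1028686267 1028686267 it2 it1 bn1 685791052 bn2 2 1 1 4
    (by decide +kernel) (by decide +kernel) (by decide +kernel) (by decide +kernel) (by decide +kernel) (by decide +kernel) (by decide +kernel)
    (by decide +kernel) (by decide +kernel) (by decide +kernel) (by decide +kernel) (by decide +kernel) (by decide +kernel) (by decide +kernel) bb1 bb2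

def it4 : List ℕ := [1028685066, 1028685067, 1028685068, 1028685070, 1028685071, 1028685072]

def bn4 : List ℕ := [685793588, 685793590]

theorem bb4 : BB cap (it4 : Multiset ℕ) (bn4 : Multiset ℕ) 1 :=
  BB_of_maxD cap it4 bn4 1 (by decide +kernel)

def it5 : List ℕ := [1028685026, 1028685027, 1028685028, 1028685030, 1028685031]

def bn5 : List ℕ := [685793668, 685793670, 685793672]

theorem bb5 : BB cap (it5 : Multiset ℕ) (bn5 : Multiset ℕ) 1 :=
  BB_of_maxD cap it5 bn5 1 (by decide +kernel)

def it6 : List ℕ := 1028685004 :: (it5 ++ it4)

def bn6 : List ℕ := bn4 ++ 685793648 :: bn5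

theorem bb6 : BB cap (it6 : Multiset ℕ) (bn6 : Multiset ℕ) 4 :=
  BB_nest_list cap 1028685025 1028685065 685793647 685793667 1028685004 1028685004 it5 it4 bn4 685793648 bn5 2 1 1 4
    (by decide +kernel) (by decide +kernel) (by decide +kernel) (by decide +kernel) (by decide +kernel) (by decide +kernel) (by decide +kernel)
    (by decide +kernel) (by decide +kernel) (by decide +kernel) (by decide +kernel) (by decide +kernel) (by decide +kernel) (by decide +kernel) bb4 bb5

def it7 : List ℕ := 1028684295 :: (it6 ++ it3)

def bn7 : List ℕ := bn3 ++ 685793024 :: bn6

theorem bb7 : BB cap (it7 : Multiset ℕ) (bn7 : Multiset ℕ) 11 :=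
  BB_nest_list cap 1028685003 1028686266 685793023 685793587 1028684295 1028684295 it6 it3 bn3 685793024 bn6 6 2 4 11
    (by decide +kernel) (by decide +kernel) (by decide +kernel) (by decide +kernel) (by decide +kernel) (by decide +kernel) (by decide +kernel)
    (by decide +kernel) (by decide +kernel) (by decide +kernel) (by decide +kernel) (by decide +kernel) (by decide +kernel) (by decide +kernel) bb3 bb6

def it8 : List ℕ := [1028663954, 1028663955, 1028663956, 1028663958, 1028663959, 1028663960, 1028663961]

def bn8 : List ℕ := [685835812, 685835814]

theorem bb8 : BB cap (it8 : Multiset ℕ) (bn8 : Multiset ℕ) 1 :=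
  BB_of_maxD cap it8 bn8 1 (by decide +kernel)

def it9 : List ℕ := [1028663906, 1028663907, 1028663908, 1028663910, 1028663911]

def bn9 : List ℕ := [685835908, 685835910, 685835912]

theorem bb9 : BB cap (it9 : Multiset ℕ) (bn9 : Multiset ℕ) 1 :=
  BB_of_maxD cap it9 bn9 1 (by decide +kernel)

def it10 : List ℕ := 1028663879 :: (it9 ++ it8)

def bn10 : List ℕ := bn8 ++ 685835884 :: bn9

theorem bb10 : BB cap (it10 : Multiset ℕ) (bn10 : Multiset ℕ) 4 :=
  BB_nest_list cap 1028663905 1028663953 685835883 685835907 1028663879 1028663879 it9 it8 bn8 685835884 bn9 2 1 1 4
    (by decide +kernel) (by decide +kernel) (by decide +kernel) (by decide +kernel) (by decide +kernel) (by decide +kernel) (by decide +kernel)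
    (by decide +kernel) (by decide +kernel) (by decide +kernel) (by decide +kernel) (by decide +kernel) (by decide +kernel) (by decide +kernel) bb8 bb9

def it11 : List ℕ := [1028663170, 1028663171, 1028663172, 1028663174, 1028663175, 1028663176]

def bn11 : List ℕ := [685837380, 685837382]

theorem bb11 : BB cap (it11 : Multiset ℕ) (bn11 : Multiset ℕ) 1 :=
  BB_of_maxD cap it11 bn11 1 (by decide +kernel)

def it12 : List ℕ := [1028663130, 1028663131, 1028663132, 1028663134, 1028663135]

def bn12 : List ℕ := [685837460, 685837462, 685837464]

theorem bb12 : BB cap (it12 : Multiset ℕ) (bn12 : Multiset ℕ) 1 :=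
  BB_of_maxD cap it12 bn12 1 (by decide +kernel)

def it13 : List ℕ := 1028663108 :: (it12 ++ it11)

def bn13 : List ℕ := bn11 ++ 685837440 :: bn12

theorem bb13 : BB cap (it13 : Multiset ℕ) (bn13 : Multiset ℕ) 4 :=
  BB_nest_list cap 1028663129 1028663169 685837439 685837459 1028663108 1028663108 it12 it11 bn11 685837440 bn12 2 1 1 4
    (by decide +kernel) (by decide +kernel) (by decide +kernel) (by decide +kernel) (by decide +kernel) (by decide +kernel) (by decide +kernel)
    (by decide +kernel) (by decide +kernel) (by decide +kernel) (by decide +kernel) (by decide +kernel) (by decide +kernel) (by decide +kernel) bb11 bb12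

def it14 : List ℕ := 1028662691 :: (it13 ++ it10)

def bn14 : List ℕ := bn10 ++ 685837072 :: bn13

theorem bb14 : BB cap (it14 : Multiset ℕ) (bn14 : Multiset ℕ) 11 :=
  BB_nest_list cap 1028663107 1028663878 685837071 685837379 1028662691 1028662691 it13 it10 bn10 685837072 bn13 6 2 4 11
    (by decide +kernel) (by decide +kernel) (by decide +kernel) (by decide +kernel) (by decide +kernel) (by decide +kernel) (by decide +kernel)
    (by decide +kernel) (by decide +kernel) (by decide +kernel) (by decide +kernel) (by decide +kernel) (by decide +kernel) (by decide +kernel) bb10 bb13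

def it15 : List ℕ := 1028650807 :: (it14 ++ it7)

def bn15 : List ℕ := bn7 ++ 685826512 :: bn14

theorem bb15 : BB cap (it15 : Multiset ℕ) (bn15 : Multiset ℕ) 25 :=
  BB_nest_list cap 1028662690 1028684294 685826511 685835811 1028650807 1028650807 it14 it7 bn7 685826512 bn14 13 2 11 25
    (by decide +kernel) (by decide +kernel) (by decide +kernel) (by decide +kernel) (by decide +kernel) (by decide +kernel) (by decide +kernel)
    (by decide +kernel) (by decide +kernel) (by decide +kernel) (by decide +kernel) (by decide +kernel) (by decide +kernel) (by decide +kernel) bb7 bb14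

def it16 : List ℕ := [1028307226, 1028307227, 1028307228, 1028307230, 1028307231, 1028307232, 1028307233, 1028307234]

def bn16 : List ℕ := [686549268, 686549270]

theorem bb16 : BB cap (it16 : Multiset ℕ) (bn16 : Multiset ℕ) 1 :=
  BB_of_maxD cap it16 bn16 1 (by decide +kernel)

def it17 : List ℕ := [1028307170, 1028307171, 1028307172, 1028307174, 1028307175]

def bn17 : List ℕ := [686549380, 686549382, 686549384]

theorem bb17 : BB cap (it17 : Multiset ℕ) (bn17 : Multiset ℕ) 1 :=
  BB_of_maxD cap it17 bn17 1 (by decide +kernel)

def it18 : List ℕ := 1028307138 :: (it17 ++ it16)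

def bn18 : List ℕ := bn16 ++ 686549352 :: bn17

theorem bb18 : BB cap (it18 : Multiset ℕ) (bn18 : Multiset ℕ) 4 :=
  BB_nest_list cap 1028307169 1028307225 686549351 686549379 1028307138 1028307138 it17 it16 bn16 686549352 bn17 2 1 1 4
    (by decide +kernel) (by decide +kernel) (by decide +kernel) (by decide +kernel) (by decide +kernel) (by decide +kernel) (by decide +kernel)
    (by decide +kernel) (by decide +kernel) (by decide +kernel) (by decide +kernel) (by decide +kernel) (by decide +kernel) (by decide +kernel) bb16 bb17

def it19 : List ℕ := [1028306306, 1028306307, 1028306308, 1028306310, 1028306311, 1028306312]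

def bn19 : List ℕ := [686551108, 686551110]

theorem bb19 : BB cap (it19 : Multiset ℕ) (bn19 : Multiset ℕ) 1 :=
  BB_of_maxD cap it19 bn19 1 (by decide +kernel)

def it20 : List ℕ := [1028306266, 1028306267, 1028306268, 1028306270, 1028306271]

def bn20 : List ℕ := [686551188, 686551190, 686551192]

theorem bb20 : BB cap (it20 : Multiset ℕ) (bn20 : Multiset ℕ) 1 :=
  BB_of_maxD cap it20 bn20 1 (by decide +kernel)

def it21 : List ℕ := 1028306244 :: (it20 ++ it19)

def bn21 : List ℕ := bn19 ++ 686551168 :: bn20

theorem bb21 : BB cap (it21 : Multiset ℕ) (bn21 : Multiset ℕ) 4 :=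
  BB_nest_list cap 1028306265 1028306305 686551167 686551187 1028306244 1028306244 it20 it19 bn19 686551168 bn20 2 1 1 4
    (by decide +kernel) (by decide +kernel) (by decide +kernel) (by decide +kernel) (by decide +kernel) (by decide +kernel) (by decide +kernel)
    (by decide +kernel) (by decide +kernel) (by decide +kernel) (by decide +kernel) (by decide +kernel) (by decide +kernel) (by decide +kernel) bb19 bb20

def it22 : List ℕ := 1028305754 :: (it21 ++ it18)

def bn22 : List ℕ := bn18 ++ 686550736 :: bn21

theorem bb22 : BB cap (it22 : Multiset ℕ) (bn22 : Multiset ℕ) 11 :=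
  BB_nest_list cap 1028306243 1028307137 686550735 686551107 1028305754 1028305754 it21 it18 bn18 686550736 bn21 6 2 4 11
    (by decide +kernel) (by decide +kernel) (by decide +kernel) (by decide +kernel) (by decide +kernel) (by decide +kernel) (by decide +kernel)
    (by decide +kernel) (by decide +kernel) (by decide +kernel) (by decide +kernel) (by decide +kernel) (by decide +kernel) (by decide +kernel) bb18 bb21

def it23 : List ℕ := [1028291722, 1028291723, 1028291724, 1028291726, 1028291727, 1028291728, 1028291729]

def bn23 : List ℕ := [686580276, 686580278]

theorem bb23 : BB cap (it23 : Multiset ℕ) (bn23 : Multiset ℕ) 1 :=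
  BB_of_maxD cap it23 bn23 1 (by decide +kernel)

def it24 : List ℕ := [1028291674, 1028291675, 1028291676, 1028291678, 1028291679]

def bn24 : List ℕ := [686580372, 686580374, 686580376]

theorem bb24 : BB cap (it24 : Multiset ℕ) (bn24 : Multiset ℕ) 1 :=
  BB_of_maxD cap it24 bn24 1 (by decide +kernel)

def it25 : List ℕ := 1028291647 :: (it24 ++ it23)

def bn25 : List ℕ := bn23 ++ 686580348 :: bn24

theorem bb25 : BB cap (it25 : Multiset ℕ) (bn25 : Multiset ℕ) 4 :=
  BB_nest_list cap 1028291673 1028291721 686580347 686580371 1028291647 1028291647 it24 it23 bn23 686580348 bn24 2 1 1 4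
    (by decide +kernel) (by decide +kernel) (by decide +kernel) (by decide +kernel) (by decide +kernel) (by decide +kernel) (by decide +kernel)
    (by decide +kernel) (by decide +kernel) (by decide +kernel) (by decide +kernel) (by decide +kernel) (by decide +kernel) (by decide +kernel) bb23 bb24

def it26 : List ℕ := [1028290938, 1028290939, 1028290940, 1028290942, 1028290943, 1028290944]

def bn26 : List ℕ := [686581844, 686581846]

theorem bb26 : BB cap (it26 : Multiset ℕ) (bn26 : Multiset ℕ) 1 :=
  BB_of_maxD cap it26 bn26 1 (by decide +kernel)

def it27 : List ℕ := [1028290898, 1028290899, 1028290900, 1028290902, 1028290903]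

def bn27 : List ℕ := [686581924, 686581926, 686581928]

theorem bb27 : BB cap (it27 : Multiset ℕ) (bn27 : Multiset ℕ) 1 :=
  BB_of_maxD cap it27 bn27 1 (by decide +kernel)

def it28 : List ℕ := 1028290876 :: (it27 ++ it26)

def bn28 : List ℕ := bn26 ++ 686581904 :: bn27

theorem bb28 : BB cap (it28 : Multiset ℕ) (bn28 : Multiset ℕ) 4 :=
  BB_nest_list cap 1028290897 1028290937 686581903 686581923 1028290876 1028290876 it27 it26 bn26 686581904 bn27 2 1 1 4
    (by decide +kernel) (by decide +kernel) (by decide +kernel) (by decide +kernel) (by decide +kernel) (by decide +kernel) (by decide +kernel)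
    (by decide +kernel) (by decide +kernel) (by decide +kernel) (by decide +kernel) (by decide +kernel) (by decide +kernel) (by decide +kernel) bb26 bb27

def it29 : List ℕ := 1028290459 :: (it28 ++ it25)

def bn29 : List ℕ := bn25 ++ 686581536 :: bn28

theorem bb29 : BB cap (it29 : Multiset ℕ) (bn29 : Multiset ℕ) 11 :=
  BB_nest_list cap 1028290875 1028291646 686581535 686581843 1028290459 1028290459 it28 it25 bn25 686581536 bn28 6 2 4 11
    (by decide +kernel) (by decide +kernel) (by decide +kernel) (by decide +kernel) (by decide +kernel) (by decide +kernel) (by decide +kernel)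
    (by decide +kernel) (by decide +kernel) (by decide +kernel) (by decide +kernel) (by decide +kernel) (by decide +kernel) (by decide +kernel) bb25 bb28

def it30 : List ℕ := 1028282250 :: (it29 ++ it22)

def bn30 : List ℕ := bn22 ++ 686574240 :: bn29

theorem bb30 : BB cap (it30 : Multiset ℕ) (bn30 : Multiset ℕ) 25 :=
  BB_nest_list cap 1028290458 1028305753 686574239 686580275 1028282250 1028282250 it29 it22 bn22 686574240 bn29 13 2 11 25
    (by decide +kernel) (by decide +kernel) (by decide +kernel) (by decide +kernel) (by decide +kernel) (by decide +kernel) (by decide +kernel)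
    (by decide +kernel) (by decide +kernel) (by decide +kernel) (by decide +kernel) (by decide +kernel) (by decide +kernel) (by decide +kernel) bb22 bb29

def it31 : List ℕ := 1028081511 :: (it30 ++ it15)

def bn31 : List ℕ := bn15 ++ 686395808 :: bn30

theorem bb31 : BB cap (it31 : Multiset ℕ) (bn31 : Multiset ℕ) 53 :=
  BB_nest_list cap 1028282249 1028650806 686395807 686549267 1028081511 1028081511 it30 it15 bn15 686395808 bn30 27 2 25 53
    (by decide +kernel) (by decide +kernel) (by decide +kernel) (by decide +kernel) (by decide +kernel) (by decide +kernel) (by decide +kernel)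
    (by decide +kernel) (by decide +kernel) (by decide +kernel) (by decide +kernel) (by decide +kernel) (by decide +kernel) (by decide +kernel) bb15 bb30

def it32 : List ℕ := [1022279842, 1022279843, 1022279844, 1022279846, 1022279847, 1022279848, 1022279849, 1022279850, 1022279851]

def bn32 : List ℕ := [698604036, 698604038]

theorem bb32 : BB cap (it32 : Multiset ℕ) (bn32 : Multiset ℕ) 1 :=
  BB_of_maxD cap it32 bn32 1 (by decide +kernel)

def it33 : List ℕ := [1022279778, 1022279779, 1022279780, 1022279782, 1022279783]

def bn33 : List ℕ := [698604164, 698604166, 698604168]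

theorem bb33 : BB cap (it33 : Multiset ℕ) (bn33 : Multiset ℕ) 1 :=
  BB_of_maxD cap it33 bn33 1 (by decide +kernel)

def it34 : List ℕ := 1022279741 :: (it33 ++ it32)

def bn34 : List ℕ := bn32 ++ 698604132 :: bn33

theorem bb34 : BB cap (it34 : Multiset ℕ) (bn34 : Multiset ℕ) 4 :=
  BB_nest_list cap 1022279777 1022279841 698604131 698604163 1022279741 1022279741 it33 it32 bn32 698604132 bn33 2 1 1 4
    (by decide +kernel) (by decide +kernel) (by decide +kernel) (by decide +kernel) (by decide +kernel) (by decide +kernel) (by decide +kernel)
    (by decide +kernel) (by decide +kernel) (by decide +kernel) (by decide +kernel) (by decide +kernel) (by decide +kernel) (by decide +kernel) bb32 bb33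

def it35 : List ℕ := [1022278786, 1022278787, 1022278788, 1022278790, 1022278791, 1022278792]

def bn35 : List ℕ := [698606148, 698606150]

theorem bb35 : BB cap (it35 : Multiset ℕ) (bn35 : Multiset ℕ) 1 :=
  BB_of_maxD cap it35 bn35 1 (by decide +kernel)

def it36 : List ℕ := [1022278746, 1022278747, 1022278748, 1022278750, 1022278751]

def bn36 : List ℕ := [698606228, 698606230, 698606232]

theorem bb36 : BB cap (it36 : Multiset ℕ) (bn36 : Multiset ℕ) 1 :=
  BB_of_maxD cap it36 bn36 1 (by decide +kernel)

def it37 : List ℕ := 1022278724 :: (it36 ++ it35)

def bn37 : List ℕ := bn35 ++ 698606208 :: bn36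

theorem bb37 : BB cap (it37 : Multiset ℕ) (bn37 : Multiset ℕ) 4 :=
  BB_nest_list cap 1022278745 1022278785 698606207 698606227 1022278724 1022278724 it36 it35 bn35 698606208 bn36 2 1 1 4
    (by decide +kernel) (by decide +kernel) (by decide +kernel) (by decide +kernel) (by decide +kernel) (by decide +kernel) (by decide +kernel)
    (by decide +kernel) (by decide +kernel) (by decide +kernel) (by decide +kernel) (by decide +kernel) (by decide +kernel) (by decide +kernel) bb35 bb36

def it38 : List ℕ := 1022278161 :: (it37 ++ it34)

def bn38 : List ℕ := bn34 ++ 698605712 :: bn37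

theorem bb38 : BB cap (it38 : Multiset ℕ) (bn38 : Multiset ℕ) 11 :=
  BB_nest_list cap 1022278723 1022279740 698605711 698606147 1022278161 1022278161 it37 it34 bn34 698605712 bn37 6 2 4 11
    (by decide +kernel) (by decide +kernel) (by decide +kernel) (by decide +kernel) (by decide +kernel) (by decide +kernel) (by decide +kernel)
    (by decide +kernel) (by decide +kernel) (by decide +kernel) (by decide +kernel) (by decide +kernel) (by decide +kernel) (by decide +kernel) bb34 bb37

def it39 : List ℕ := [1022262026, 1022262027, 1022262028, 1022262030, 1022262031, 1022262032, 1022262033]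

def bn39 : List ℕ := [698639668, 698639670]

theorem bb39 : BB cap (it39 : Multiset ℕ) (bn39 : Multiset ℕ) 1 :=
  BB_of_maxD cap it39 bn39 1 (by decide +kernel)

def it40 : List ℕ := [1022261978, 1022261979, 1022261980, 1022261982, 1022261983]

def bn40 : List ℕ := [698639764, 698639766, 698639768]

theorem bb40 : BB cap (it40 : Multiset ℕ) (bn40 : Multiset ℕ) 1 :=
  BB_of_maxD cap it40 bn40 1 (by decide +kernel)

def it41 : List ℕ := 1022261951 :: (it40 ++ it39)

def bn41 : List ℕ := bn39 ++ 698639740 :: bn40

theorem bb41 : BB cap (it41 : Multiset ℕ) (bn41 : Multiset ℕ) 4 :=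
  BB_nest_list cap 1022261977 1022262025 698639739 698639763 1022261951 1022261951 it40 it39 bn39 698639740 bn40 2 1 1 4
    (by decide +kernel) (by decide +kernel) (by decide +kernel) (by decide +kernel) (by decide +kernel) (by decide +kernel) (by decide +kernel)
    (by decide +kernel) (by decide +kernel) (by decide +kernel) (by decide +kernel) (by decide +kernel) (by decide +kernel) (by decide +kernel) bb39 bb40

def it42 : List ℕ := [1022261242, 1022261243, 1022261244, 1022261246, 1022261247, 1022261248]

def bn42 : List ℕ := [698641236, 698641238]

theorem bb42 : BB cap (it42 : Multiset ℕ) (bn42 : Multiset ℕ) 1 :=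
  BB_of_maxD cap it42 bn42 1 (by decide +kernel)

def it43 : List ℕ := [1022261202, 1022261203, 1022261204, 1022261206, 1022261207]

def bn43 : List ℕ := [698641316, 698641318, 698641320]

theorem bb43 : BB cap (it43 : Multiset ℕ) (bn43 : Multiset ℕ) 1 :=
  BB_of_maxD cap it43 bn43 1 (by decide +kernel)

def it44 : List ℕ := 1022261180 :: (it43 ++ it42)

def bn44 : List ℕ := bn42 ++ 698641296 :: bn43

theorem bb44 : BB cap (it44 : Multiset ℕ) (bn44 : Multiset ℕ) 4 :=
  BB_nest_list cap 1022261201 1022261241 698641295 698641315 1022261180 1022261180 it43 it42 bn42 698641296 bn43 2 1 1 4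
    (by decide +kernel) (by decide +kernel) (by decide +kernel) (by decide +kernel) (by decide +kernel) (by decide +kernel) (by decide +kernel)
    (by decide +kernel) (by decide +kernel) (by decide +kernel) (by decide +kernel) (by decide +kernel) (by decide +kernel) (by decide +kernel) bb42 bb43

def it45 : List ℕ := 1022260763 :: (it44 ++ it41)

def bn45 : List ℕ := bn41 ++ 698640928 :: bn44

theorem bb45 : BB cap (it45 : Multiset ℕ) (bn45 : Multiset ℕ) 11 :=
  BB_nest_list cap 1022261179 1022261950 698640927 698641235 1022260763 1022260763 it44 it41 bn41 698640928 bn44 6 2 4 11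
    (by decide +kernel) (by decide +kernel) (by decide +kernel) (by decide +kernel) (by decide +kernel) (by decide +kernel) (by decide +kernel)
    (by decide +kernel) (by decide +kernel) (by decide +kernel) (by decide +kernel) (by decide +kernel) (by decide +kernel) (by decide +kernel) bb41 bb44

def it46 : List ℕ := 1022251329 :: (it45 ++ it38)

def bn46 : List ℕ := bn38 ++ 698632544 :: bn45

theorem bb46 : BB cap (it46 : Multiset ℕ) (bn46 : Multiset ℕ) 25 :=
  BB_nest_list cap 1022260762 1022278160 698632543 698639667 1022251329 1022251329 it45 it38 bn38 698632544 bn45 13 2 11 25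
    (by decide +kernel) (by decide +kernel) (by decide +kernel) (by decide +kernel) (by decide +kernel) (by decide +kernel) (by decide +kernel)
    (by decide +kernel) (by decide +kernel) (by decide +kernel) (by decide +kernel) (by decide +kernel) (by decide +kernel) (by decide +kernel) bb38 bb45

def it47 : List ℕ := [1021979282, 1021979283, 1021979284, 1021979286, 1021979287, 1021979288, 1021979289, 1021979290]

def bn47 : List ℕ := [699205156, 699205158]

theorem bb47 : BB cap (it47 : Multiset ℕ) (bn47 : Multiset ℕ) 1 :=
  BB_of_maxD cap it47 bn47 1 (by decide +kernel)

def it48 : List ℕ := [1021979226, 1021979227, 1021979228, 1021979230, 1021979231]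

def bn48 : List ℕ := [699205268, 699205270, 699205272]

theorem bb48 : BB cap (it48 : Multiset ℕ) (bn48 : Multiset ℕ) 1 :=
  BB_of_maxD cap it48 bn48 1 (by decide +kernel)

def it49 : List ℕ := 1021979194 :: (it48 ++ it47)

def bn49 : List ℕ := bn47 ++ 699205240 :: bn48

theorem bb49 : BB cap (it49 : Multiset ℕ) (bn49 : Multiset ℕ) 4 :=
  BB_nest_list cap 1021979225 1021979281 699205239 699205267 1021979194 1021979194 it48 it47 bn47 699205240 bn48 2 1 1 4
    (by decide +kernel) (by decide +kernel) (by decide +kernel) (by decide +kernel) (by decide +kernel) (by decide +kernel) (by decide +kernel)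
    (by decide +kernel) (by decide +kernel) (by decide +kernel) (by decide +kernel) (by decide +kernel) (by decide +kernel) (by decide +kernel) bb47 bb48

def it50 : List ℕ := [1021978362, 1021978363, 1021978364, 1021978366, 1021978367, 1021978368]

def bn50 : List ℕ := [699206996, 699206998]

theorem bb50 : BB cap (it50 : Multiset ℕ) (bn50 : Multiset ℕ) 1 :=
  BB_of_maxD cap it50 bn50 1 (by decide +kernel)

def it51 : List ℕ := [1021978322, 1021978323, 1021978324, 1021978326, 1021978327]

def bn51 : List ℕ := [699207076, 699207078, 699207080]

theorem bb51 : BB cap (it51 : Multiset ℕ) (bn51 : Multiset ℕ) 1 :=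
  BB_of_maxD cap it51 bn51 1 (by decide +kernel)

def it52 : List ℕ := 1021978300 :: (it51 ++ it50)

def bn52 : List ℕ := bn50 ++ 699207056 :: bn51

theorem bb52 : BB cap (it52 : Multiset ℕ) (bn52 : Multiset ℕ) 4 :=
  BB_nest_list cap 1021978321 1021978361 699207055 699207075 1021978300 1021978300 it51 it50 bn50 699207056 bn51 2 1 1 4
    (by decide +kernel) (by decide +kernel) (by decide +kernel) (by decide +kernel) (by decide +kernel) (by decide +kernel) (by decide +kernel)
    (by decide +kernel) (by decide +kernel) (by decide +kernel) (by decide +kernel) (by decide +kernel) (by decide +kernel) (by decide +kernel) bb50 bb51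

def it53 : List ℕ := 1021977810 :: (it52 ++ it49)

def bn53 : List ℕ := bn49 ++ 699206624 :: bn52

theorem bb53 : BB cap (it53 : Multiset ℕ) (bn53 : Multiset ℕ) 11 :=
  BB_nest_list cap 1021978299 1021979193 699206623 699206995 1021977810 1021977810 it52 it49 bn49 699206624 bn52 6 2 4 11
    (by decide +kernel) (by decide +kernel) (by decide +kernel) (by decide +kernel) (by decide +kernel) (by decide +kernel) (by decide +kernel)
    (by decide +kernel) (by decide +kernel) (by decide +kernel) (by decide +kernel) (by decide +kernel) (by decide +kernel) (by decide +kernel) bb49 bb52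

def it54 : List ℕ := [1021963778, 1021963779, 1021963780, 1021963782, 1021963783, 1021963784, 1021963785]

def bn54 : List ℕ := [699236164, 699236166]

theorem bb54 : BB cap (it54 : Multiset ℕ) (bn54 : Multiset ℕ) 1 :=
  BB_of_maxD cap it54 bn54 1 (by decide +kernel)

def it55 : List ℕ := [1021963730, 1021963731, 1021963732, 1021963734, 1021963735]

def bn55 : List ℕ := [699236260, 699236262, 699236264]

theorem bb55 : BB cap (it55 : Multiset ℕ) (bn55 : Multiset ℕ) 1 :=
  BB_of_maxD cap it55 bn55 1 (by decide +kernel)

def it56 : List ℕ := 1021963703 :: (it55 ++ it54)

def bn56 : List ℕ := bn54 ++ 699236236 :: bn55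

theorem bb56 : BB cap (it56 : Multiset ℕ) (bn56 : Multiset ℕ) 4 :=
  BB_nest_list cap 1021963729 1021963777 699236235 699236259 1021963703 1021963703 it55 it54 bn54 699236236 bn55 2 1 1 4
    (by decide +kernel) (by decide +kernel) (by decide +kernel) (by decide +kernel) (by decide +kernel) (by decide +kernel) (by decide +kernel)
    (by decide +kernel) (by decide +kernel) (by decide +kernel) (by decide +kernel) (by decide +kernel) (by decide +kernel) (by decide +kernel) bb54 bb55

def it57 : List ℕ := [1021962994, 1021962995, 1021962996, 1021962998, 1021962999, 1021963000]

def bn57 : List ℕ := [699237732, 699237734]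

theorem bb57 : BB cap (it57 : Multiset ℕ) (bn57 : Multiset ℕ) 1 :=
  BB_of_maxD cap it57 bn57 1 (by decide +kernel)

def it58 : List ℕ := [1021962954, 1021962955, 1021962956, 1021962958, 1021962959]

def bn58 : List ℕ := [699237812, 699237814, 699237816]

theorem bb58 : BB cap (it58 : Multiset ℕ) (bn58 : Multiset ℕ) 1 :=
  BB_of_maxD cap it58 bn58 1 (by decide +kernel)

def it59 : List ℕ := 1021962932 :: (it58 ++ it57)

def bn59 : List ℕ := bn57 ++ 699237792 :: bn58

theorem bb59 : BB cap (it59 : Multiset ℕ) (bn59 : Multiset ℕ) 4 :=
  BB_nest_list cap 1021962953 1021962993 699237791 699237811 1021962932 1021962932 it58 it57 bn57 699237792 bn58 2 1 1 4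
    (by decide +kernel) (by decide +kernel) (by decide +kernel) (by decide +kernel) (by decide +kernel) (by decide +kernel) (by decide +kernel)
    (by decide +kernel) (by decide +kernel) (by decide +kernel) (by decide +kernel) (by decide +kernel) (by decide +kernel) (by decide +kernel) bb57 bb58

def it60 : List ℕ := 1021962515 :: (it59 ++ it56)

def bn60 : List ℕ := bn56 ++ 699237424 :: bn59

theorem bb60 : BB cap (it60 : Multiset ℕ) (bn60 : Multiset ℕ) 11 :=
  BB_nest_list cap 1021962931 1021963702 699237423 699237731 1021962515 1021962515 it59 it56 bn56 699237424 bn59 6 2 4 11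
    (by decide +kernel) (by decide +kernel) (by decide +kernel) (by decide +kernel) (by decide +kernel) (by decide +kernel) (by decide +kernel)
    (by decide +kernel) (by decide +kernel) (by decide +kernel) (by decide +kernel) (by decide +kernel) (by decide +kernel) (by decide +kernel) bb56 bb59

def it61 : List ℕ := 1021954306 :: (it60 ++ it53)

def bn61 : List ℕ := bn53 ++ 699230128 :: bn60

theorem bb61 : BB cap (it61 : Multiset ℕ) (bn61 : Multiset ℕ) 25 :=
  BB_nest_list cap 1021962514 1021977809 699230127 699236163 1021954306 1021954306 it60 it53 bn53 699230128 bn60 13 2 11 25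
    (by decide +kernel) (by decide +kernel) (by decide +kernel) (by decide +kernel) (by decide +kernel) (by decide +kernel) (by decide +kernel)
    (by decide +kernel) (by decide +kernel) (by decide +kernel) (by decide +kernel) (by decide +kernel) (by decide +kernel) (by decide +kernel) bb53 bb60

def it62 : List ℕ := 1021795185 :: (it61 ++ it46)

def bn62 : List ℕ := bn46 ++ 699088688 :: bn61

theorem bb62 : BB cap (it62 : Multiset ℕ) (bn62 : Multiset ℕ) 53 :=
  BB_nest_list cap 1021954305 1022251328 699088687 699205155 1021795185 1021795185 it61 it46 bn46 699088688 bn61 27 2 25 53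
    (by decide +kernel) (by decide +kernel) (by decide +kernel) (by decide +kernel) (by decide +kernel) (by decide +kernel) (by decide +kernel)
    (by decide +kernel) (by decide +kernel) (by decide +kernel) (by decide +kernel) (by decide +kernel) (by decide +kernel) (by decide +kernel) bb46 bb61

def it63 : List ℕ := 1018403479 :: (it62 ++ it31)

def bn63 : List ℕ := bn31 ++ 696073840 :: bn62

theorem bb63 : BB cap (it63 : Multiset ℕ) (bn63 : Multiset ℕ) 109 :=
  BB_nest_list cap 1021795184 1028081510 696073839 698604035 1018403479 1018403479 it62 it31 bn31 696073840 bn62 55 2 53 109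
    (by decide +kernel) (by decide +kernel) (by decide +kernel) (by decide +kernel) (by decide +kernel) (by decide +kernel) (by decide +kernel)
    (by decide +kernel) (by decide +kernel) (by decide +kernel) (by decide +kernel) (by decide +kernel) (by decide +kernel) (by decide +kernel) bb31 bb62

def it64 : List ℕ := [920443178, 920443179, 920443180, 920443182, 920443183, 920443184, 920443185, 920443186, 920443187, 920443188]

def bn64 : List ℕ := [902277364, 902277366]

theorem bb64 : BB cap (it64 : Multiset ℕ) (bn64 : Multiset ℕ) 1 :=
  BB_of_maxD cap it64 bn64 1 (by decide +kernel)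

def it65 : List ℕ := [920443106, 920443107, 920443108, 920443110, 920443111]

def bn65 : List ℕ := [902277508, 902277510, 902277512]

theorem bb65 : BB cap (it65 : Multiset ℕ) (bn65 : Multiset ℕ) 1 :=
  BB_of_maxD cap it65 bn65 1 (by decide +kernel)

def it66 : List ℕ := 920443064 :: (it65 ++ it64)

def bn66 : List ℕ := bn64 ++ 902277472 :: bn65

theorem bb66 : BB cap (it66 : Multiset ℕ) (bn66 : Multiset ℕ) 4 :=
  BB_nest_list cap 920443105 920443177 902277471 902277507 920443064 920443064 it65 it64 bn64 902277472 bn65 2 1 1 4
    (by decide +kernel) (by decide +kernel) (by decide +kernel) (by decide +kernel) (by decide +kernel) (by decide +kernel) (by decide +kernel)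
    (by decide +kernel) (by decide +kernel) (by decide +kernel) (by decide +kernel) (by decide +kernel) (by decide +kernel) (by decide +kernel) bb64 bb65

def it67 : List ℕ := [920441986, 920441987, 920441988, 920441990, 920441991, 920441992]

def bn67 : List ℕ := [902279748, 902279750]

theorem bb67 : BB cap (it67 : Multiset ℕ) (bn67 : Multiset ℕ) 1 :=
  BB_of_maxD cap it67 bn67 1 (by decide +kernel)

def it68 : List ℕ := [920441946, 920441947, 920441948, 920441950, 920441951]

def bn68 : List ℕ := [902279828, 902279830, 902279832]

theorem bb68 : BB cap (it68 : Multiset ℕ) (bn68 : Multiset ℕ) 1 :=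
  BB_of_maxD cap it68 bn68 1 (by decide +kernel)

def it69 : List ℕ := 920441924 :: (it68 ++ it67)

def bn69 : List ℕ := bn67 ++ 902279808 :: bn68

theorem bb69 : BB cap (it69 : Multiset ℕ) (bn69 : Multiset ℕ) 4 :=
  BB_nest_list cap 920441945 920441985 902279807 902279827 920441924 920441924 it68 it67 bn67 902279808 bn68 2 1 1 4
    (by decide +kernel) (by decide +kernel) (by decide +kernel) (by decide +kernel) (by decide +kernel) (by decide +kernel) (by decide +kernel)
    (by decide +kernel) (by decide +kernel) (by decide +kernel) (by decide +kernel) (by decide +kernel) (by decide +kernel) (by decide +kernel) bb67 bb68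

def it70 : List ℕ := 920441288 :: (it69 ++ it66)

def bn70 : List ℕ := bn66 ++ 902279248 :: bn69

theorem bb70 : BB cap (it70 : Multiset ℕ) (bn70 : Multiset ℕ) 11 :=
  BB_nest_list cap 920441923 920443063 902279247 902279747 920441288 920441288 it69 it66 bn66 902279248 bn69 6 2 4 11
    (by decide +kernel) (by decide +kernel) (by decide +kernel) (by decide +kernel) (by decide +kernel) (by decide +kernel) (by decide +kernel)
    (by decide +kernel) (by decide +kernel) (by decide +kernel) (by decide +kernel) (by decide +kernel) (by decide +kernel) (by decide +kernel) bb66 bb69

def it71 : List ℕ := [920423050, 920423051, 920423052, 920423054, 920423055, 920423056, 920423057]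

def bn71 : List ℕ := [902317620, 902317622]

theorem bb71 : BB cap (it71 : Multiset ℕ) (bn71 : Multiset ℕ) 1 :=
  BB_of_maxD cap it71 bn71 1 (by decide +kernel)

def it72 : List ℕ := [920423002, 920423003, 920423004, 920423006, 920423007]

def bn72 : List ℕ := [902317716, 902317718, 902317720]

theorem bb72 : BB cap (it72 : Multiset ℕ) (bn72 : Multiset ℕ) 1 :=
  BB_of_maxD cap it72 bn72 1 (by decide +kernel)

def it73 : List ℕ := 920422975 :: (it72 ++ it71)

def bn73 : List ℕ := bn71 ++ 902317692 :: bn72

theorem bb73 : BB cap (it73 : Multiset ℕ) (bn73 : Multiset ℕ) 4 :=
  BB_nest_list cap 920423001 920423049 902317691 902317715 920422975 920422975 it72 it71 bn71 902317692 bn72 2 1 1 4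
    (by decide +kernel) (by decide +kernel) (by decide +kernel) (by decide +kernel) (by decide +kernel) (by decide +kernel) (by decide +kernel)
    (by decide +kernel) (by decide +kernel) (by decide +kernel) (by decide +kernel) (by decide +kernel) (by decide +kernel) (by decide +kernel) bb71 bb72

def it74 : List ℕ := [920422266, 920422267, 920422268, 920422270, 920422271, 920422272]

def bn74 : List ℕ := [902319188, 902319190]

theorem bb74 : BB cap (it74 : Multiset ℕ) (bn74 : Multiset ℕ) 1 :=
  BB_of_maxD cap it74 bn74 1 (by decide +kernel)

def it75 : List ℕ := [920422226, 920422227, 920422228, 920422230, 920422231]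

def bn75 : List ℕ := [902319268, 902319270, 902319272]

theorem bb75 : BB cap (it75 : Multiset ℕ) (bn75 : Multiset ℕ) 1 :=
  BB_of_maxD cap it75 bn75 1 (by decide +kernel)

def it76 : List ℕ := 920422204 :: (it75 ++ it74)

def bn76 : List ℕ := bn74 ++ 902319248 :: bn75

theorem bb76 : BB cap (it76 : Multiset ℕ) (bn76 : Multiset ℕ) 4 :=
  BB_nest_list cap 920422225 920422265 902319247 902319267 920422204 920422204 it75 it74 bn74 902319248 bn75 2 1 1 4
    (by decide +kernel) (by decide +kernel) (by decide +kernel) (by decide +kernel) (by decide +kernel) (by decide +kernel) (by decide +kernel)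
    (by decide +kernel) (by decide +kernel) (by decide +kernel) (by decide +kernel) (by decide +kernel) (by decide +kernel) (by decide +kernel) bb74 bb75

def it77 : List ℕ := 920421787 :: (it76 ++ it73)

def bn77 : List ℕ := bn73 ++ 902318880 :: bn76

theorem bb77 : BB cap (it77 : Multiset ℕ) (bn77 : Multiset ℕ) 11 :=
  BB_nest_list cap 920422203 920422974 902318879 902319187 920421787 920421787 it76 it73 bn73 902318880 bn76 6 2 4 11
    (by decide +kernel) (by decide +kernel) (by decide +kernel) (by decide +kernel) (by decide +kernel) (by decide +kernel) (by decide +kernel)
    (by decide +kernel) (by decide +kernel) (by decide +kernel) (by decide +kernel) (by decide +kernel) (by decide +kernel) (by decide +kernel) bb73 bb76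

def it78 : List ℕ := 920411128 :: (it77 ++ it70)

def bn78 : List ℕ := bn70 ++ 902309408 :: bn77

theorem bb78 : BB cap (it78 : Multiset ℕ) (bn78 : Multiset ℕ) 25 :=
  BB_nest_list cap 920421786 920441287 902309407 902317619 920411128 920411128 it77 it70 bn70 902309408 bn77 13 2 11 25
    (by decide +kernel) (by decide +kernel) (by decide +kernel) (by decide +kernel) (by decide +kernel) (by decide +kernel) (by decide +kernel)
    (by decide +kernel) (by decide +kernel) (by decide +kernel) (by decide +kernel) (by decide +kernel) (by decide +kernel) (by decide +kernel) bb70 bb77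

def it79 : List ℕ := [920103314, 920103315, 920103316, 920103318, 920103319, 920103320, 920103321, 920103322]

def bn79 : List ℕ := [902957092, 902957094]

theorem bb79 : BB cap (it79 : Multiset ℕ) (bn79 : Multiset ℕ) 1 :=
  BB_of_maxD cap it79 bn79 1 (by decide +kernel)

def it80 : List ℕ := [920103258, 920103259, 920103260, 920103262, 920103263]

def bn80 : List ℕ := [902957204, 902957206, 902957208]

theorem bb80 : BB cap (it80 : Multiset ℕ) (bn80 : Multiset ℕ) 1 :=
  BB_of_maxD cap it80 bn80 1 (by decide +kernel)

def it81 : List ℕ := 920103226 :: (it80 ++ it79)

def bn81 : List ℕ := bn79 ++ 902957176 :: bn80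

theorem bb81 : BB cap (it81 : Multiset ℕ) (bn81 : Multiset ℕ) 4 :=
  BB_nest_list cap 920103257 920103313 902957175 902957203 920103226 920103226 it80 it79 bn79 902957176 bn80 2 1 1 4
    (by decide +kernel) (by decide +kernel) (by decide +kernel) (by decide +kernel) (by decide +kernel) (by decide +kernel) (by decide +kernel)
    (by decide +kernel) (by decide +kernel) (by decide +kernel) (by decide +kernel) (by decide +kernel) (by decide +kernel) (by decide +kernel) bb79 bb80

def it82 : List ℕ := [920102394, 920102395, 920102396, 920102398, 920102399, 920102400]

def bn82 : List ℕ := [902958932, 902958934]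

theorem bb82 : BB cap (it82 : Multiset ℕ) (bn82 : Multiset ℕ) 1 :=
  BB_of_maxD cap it82 bn82 1 (by decide +kernel)

def it83 : List ℕ := [920102354, 920102355, 920102356, 920102358, 920102359]

def bn83 : List ℕ := [902959012, 902959014, 902959016]

theorem bb83 : BB cap (it83 : Multiset ℕ) (bn83 : Multiset ℕ) 1 :=
  BB_of_maxD cap it83 bn83 1 (by decide +kernel)

def it84 : List ℕ := 920102332 :: (it83 ++ it82)

def bn84 : List ℕ := bn82 ++ 902958992 :: bn83

theorem bb84 : BB cap (it84 : Multiset ℕ) (bn84 : Multiset ℕ) 4 :=
  BB_nest_list cap 920102353 920102393 902958991 902959011 920102332 920102332 it83 it82 bn82 902958992 bn83 2 1 1 4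
    (by decide +kernel) (by decide +kernel) (by decide +kernel) (by decide +kernel) (by decide +kernel) (by decide +kernel) (by decide +kernel)
    (by decide +kernel) (by decide +kernel) (by decide +kernel) (by decide +kernel) (by decide +kernel) (by decide +kernel) (by decide +kernel) bb82 bb83

def it85 : List ℕ := 920101842 :: (it84 ++ it81)

def bn85 : List ℕ := bn81 ++ 902958560 :: bn84

theorem bb85 : BB cap (it85 : Multiset ℕ) (bn85 : Multiset ℕ) 11 :=
  BB_nest_list cap 920102331 920103225 902958559 902958931 920101842 920101842 it84 it81 bn81 902958560 bn84 6 2 4 11
    (by decide +kernel) (by decide +kernel) (by decide +kernel) (by decide +kernel) (by decide +kernel) (by decide +kernel) (by decide +kernel)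
    (by decide +kernel) (by decide +kernel) (by decide +kernel) (by decide +kernel) (by decide +kernel) (by decide +kernel) (by decide +kernel) bb81 bb84

def it86 : List ℕ := [920087810, 920087811, 920087812, 920087814, 920087815, 920087816, 920087817]

def bn86 : List ℕ := [902988100, 902988102]

theorem bb86 : BB cap (it86 : Multiset ℕ) (bn86 : Multiset ℕ) 1 :=
  BB_of_maxD cap it86 bn86 1 (by decide +kernel)

def it87 : List ℕ := [920087762, 920087763, 920087764, 920087766, 920087767]

def bn87 : List ℕ := [902988196, 902988198, 902988200]

theorem bb87 : BB cap (it87 : Multiset ℕ) (bn87 : Multiset ℕ) 1 :=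
  BB_of_maxD cap it87 bn87 1 (by decide +kernel)

def it88 : List ℕ := 920087735 :: (it87 ++ it86)

def bn88 : List ℕ := bn86 ++ 902988172 :: bn87

theorem bb88 : BB cap (it88 : Multiset ℕ) (bn88 : Multiset ℕ) 4 :=
  BB_nest_list cap 920087761 920087809 902988171 902988195 920087735 920087735 it87 it86 bn86 902988172 bn87 2 1 1 4
    (by decide +kernel) (by decide +kernel) (by decide +kernel) (by decide +kernel) (by decide +kernel) (by decide +kernel) (by decide +kernel)
    (by decide +kernel) (by decide +kernel) (by decide +kernel) (by decide +kernel) (by decide +kernel) (by decide +kernel) (by decide +kernel) bb86 bb87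

def it89 : List ℕ := [920087026, 920087027, 920087028, 920087030, 920087031, 920087032]

def bn89 : List ℕ := [902989668, 902989670]

theorem bb89 : BB cap (it89 : Multiset ℕ) (bn89 : Multiset ℕ) 1 :=
  BB_of_maxD cap it89 bn89 1 (by decide +kernel)

def it90 : List ℕ := [920086986, 920086987, 920086988, 920086990, 920086991]

def bn90 : List ℕ := [902989748, 902989750, 902989752]

theorem bb90 : BB cap (it90 : Multiset ℕ) (bn90 : Multiset ℕ) 1 :=
  BB_of_maxD cap it90 bn90 1 (by decide +kernel)

def it91 : List ℕ := 920086964 :: (it90 ++ it89)

def bn91 : List ℕ := bn89 ++ 902989728 :: bn90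

theorem bb91 : BB cap (it91 : Multiset ℕ) (bn91 : Multiset ℕ) 4 :=
  BB_nest_list cap 920086985 920087025 902989727 902989747 920086964 920086964 it90 it89 bn89 902989728 bn90 2 1 1 4
    (by decide +kernel) (by decide +kernel) (by decide +kernel) (by decide +kernel) (by decide +kernel) (by decide +kernel) (by decide +kernel)
    (by decide +kernel) (by decide +kernel) (by decide +kernel) (by decide +kernel) (by decide +kernel) (by decide +kernel) (by decide +kernel) bb89 bb90

def it92 : List ℕ := 920086547 :: (it91 ++ it88)

def bn92 : List ℕ := bn88 ++ 902989360 :: bn91

theorem bb92 : BB cap (it92 : Multiset ℕ) (bn92 : Multiset ℕ) 11 :=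
  BB_nest_list cap 920086963 920087734 902989359 902989667 920086547 920086547 it91 it88 bn88 902989360 bn91 6 2 4 11
    (by decide +kernel) (by decide +kernel) (by decide +kernel) (by decide +kernel) (by decide +kernel) (by decide +kernel) (by decide +kernel)
    (by decide +kernel) (by decide +kernel) (by decide +kernel) (by decide +kernel) (by decide +kernel) (by decide +kernel) (by decide +kernel) bb88 bb91

def it93 : List ℕ := 920078338 :: (it92 ++ it85)

def bn93 : List ℕ := bn85 ++ 902982064 :: bn92

theorem bb93 : BB cap (it93 : Multiset ℕ) (bn93 : Multiset ℕ) 25 :=
  BB_nest_list cap 920086546 920101841 902982063 902988099 920078338 920078338 it92 it85 bn85 902982064 bn92 13 2 11 25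
    (by decide +kernel) (by decide +kernel) (by decide +kernel) (by decide +kernel) (by decide +kernel) (by decide +kernel) (by decide +kernel)
    (by decide +kernel) (by decide +kernel) (by decide +kernel) (by decide +kernel) (by decide +kernel) (by decide +kernel) (by decide +kernel) bb85 bb92

def it94 : List ℕ := 919898408 :: (it93 ++ it78)

def bn94 : List ℕ := bn78 ++ 902822128 :: bn93

theorem bb94 : BB cap (it94 : Multiset ℕ) (bn94 : Multiset ℕ) 53 :=
  BB_nest_list cap 920078337 920411127 902822127 902957091 919898408 919898408 it93 it78 bn78 902822128 bn93 27 2 25 53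
    (by decide +kernel) (by decide +kernel) (by decide +kernel) (by decide +kernel) (by decide +kernel) (by decide +kernel) (by decide +kernel)
    (by decide +kernel) (by decide +kernel) (by decide +kernel) (by decide +kernel) (by decide +kernel) (by decide +kernel) (by decide +kernel) bb78 bb93

def it95 : List ℕ := [914704794, 914704795, 914704796, 914704798, 914704799, 914704800, 914704801, 914704802, 914704803]

def bn95 : List ℕ := [913754132, 913754134]

theorem bb95 : BB cap (it95 : Multiset ℕ) (bn95 : Multiset ℕ) 1 :=
  BB_of_maxD cap it95 bn95 1 (by decide +kernel)

def it96 : List ℕ := [914704730, 914704731, 914704732, 914704734, 914704735]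

def bn96 : List ℕ := [913754260, 913754262, 913754264]

theorem bb96 : BB cap (it96 : Multiset ℕ) (bn96 : Multiset ℕ) 1 :=
  BB_of_maxD cap it96 bn96 1 (by decide +kernel)

def it97 : List ℕ := 914704693 :: (it96 ++ it95)

def bn97 : List ℕ := bn95 ++ 913754228 :: bn96

theorem bb97 : BB cap (it97 : Multiset ℕ) (bn97 : Multiset ℕ) 4 :=
  BB_nest_list cap 914704729 914704793 913754227 913754259 914704693 914704693 it96 it95 bn95 913754228 bn96 2 1 1 4
    (by decide +kernel) (by decide +kernel) (by decide +kernel) (by decide +kernel) (by decide +kernel) (by decide +kernel) (by decide +kernel)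
    (by decide +kernel) (by decide +kernel) (by decide +kernel) (by decide +kernel) (by decide +kernel) (by decide +kernel) (by decide +kernel) bb95 bb96

def it98 : List ℕ := [914703738, 914703739, 914703740, 914703742, 914703743, 914703744]

def bn98 : List ℕ := [913756244, 913756246]

theorem bb98 : BB cap (it98 : Multiset ℕ) (bn98 : Multiset ℕ) 1 :=
  BB_of_maxD cap it98 bn98 1 (by decide +kernel)

def it99 : List ℕ := [914703698, 914703699, 914703700, 914703702, 914703703]

def bn99 : List ℕ := [913756324, 913756326, 913756328]

theorem bb99 : BB cap (it99 : Multiset ℕ) (bn99 : Multiset ℕ) 1 :=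
  BB_of_maxD cap it99 bn99 1 (by decide +kernel)

def it100 : List ℕ := 914703676 :: (it99 ++ it98)

def bn100 : List ℕ := bn98 ++ 913756304 :: bn99

theorem bb100 : BB cap (it100 : Multiset ℕ) (bn100 : Multiset ℕ) 4 :=
  BB_nest_list cap 914703697 914703737 913756303 913756323 914703676 914703676 it99 it98 bn98 913756304 bn99 2 1 1 4
    (by decide +kernel) (by decide +kernel) (by decide +kernel) (by decide +kernel) (by decide +kernel) (by decide +kernel) (by decide +kernel)
    (by decide +kernel) (by decide +kernel) (by decide +kernel) (by decide +kernel) (by decide +kernel) (by decide +kernel) (by decide +kernel) bb98 bb99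

def it101 : List ℕ := 914703113 :: (it100 ++ it97)

def bn101 : List ℕ := bn97 ++ 913755808 :: bn100

theorem bb101 : BB cap (it101 : Multiset ℕ) (bn101 : Multiset ℕ) 11 :=
  BB_nest_list cap 914703675 914704692 913755807 913756243 914703113 914703113 it100 it97 bn97 913755808 bn100 6 2 4 11
    (by decide +kernel) (by decide +kernel) (by decide +kernel) (by decide +kernel) (by decide +kernel) (by decide +kernel) (by decide +kernel)
    (by decide +kernel) (by decide +kernel) (by decide +kernel) (by decide +kernel) (by decide +kernel) (by decide +kernel) (by decide +kernel) bb97 bb100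

def it102 : List ℕ := [914686978, 914686979, 914686980, 914686982, 914686983, 914686984, 914686985]

def bn102 : List ℕ := [913789764, 913789766]

theorem bb102 : BB cap (it102 : Multiset ℕ) (bn102 : Multiset ℕ) 1 :=
  BB_of_maxD cap it102 bn102 1 (by decide +kernel)

def it103 : List ℕ := [914686930, 914686931, 914686932, 914686934, 914686935]

def bn103 : List ℕ := [913789860, 913789862, 913789864]

theorem bb103 : BB cap (it103 : Multiset ℕ) (bn103 : Multiset ℕ) 1 :=
  BB_of_maxD cap it103 bn103 1 (by decide +kernel)

def it104 : List ℕ := 914686903 :: (it103 ++ it102)

def bn104 : List ℕ := bn102 ++ 913789836 :: bn103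

theorem bb104 : BB cap (it104 : Multiset ℕ) (bn104 : Multiset ℕ) 4 :=
  BB_nest_list cap 914686929 914686977 913789835 913789859 914686903 914686903 it103 it102 bn102 913789836 bn103 2 1 1 4
    (by decide +kernel) (by decide +kernel) (by decide +kernel) (by decide +kernel) (by decide +kernel) (by decide +kernel) (by decide +kernel)
    (by decide +kernel) (by decide +kernel) (by decide +kernel) (by decide +kernel) (by decide +kernel) (by decide +kernel) (by decide +kernel) bb102 bb103

def it105 : List ℕ := [914686194, 914686195, 914686196, 914686198, 914686199, 914686200]

def bn105 : List ℕ := [913791332, 913791334]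

theorem bb105 : BB cap (it105 : Multiset ℕ) (bn105 : Multiset ℕ) 1 :=
  BB_of_maxD cap it105 bn105 1 (by decide +kernel)

def it106 : List ℕ := [914686154, 914686155, 914686156, 914686158, 914686159]

def bn106 : List ℕ := [913791412, 913791414, 913791416]

theorem bb106 : BB cap (it106 : Multiset ℕ) (bn106 : Multiset ℕ) 1 :=
  BB_of_maxD cap it106 bn106 1 (by decide +kernel)

def it107 : List ℕ := 914686132 :: (it106 ++ it105)

def bn107 : List ℕ := bn105 ++ 913791392 :: bn106

theorem bb107 : BB cap (it107 : Multiset ℕ) (bn107 : Multiset ℕ) 4 :=
  BB_nest_list cap 914686153 914686193 913791391 913791411 914686132 914686132 it106 it105 bn105 913791392 bn106 2 1 1 4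
    (by decide +kernel) (by decide +kernel) (by decide +kernel) (by decide +kernel) (by decide +kernel) (by decide +kernel) (by decide +kernel)
    (by decide +kernel) (by decide +kernel) (by decide +kernel) (by decide +kernel) (by decide +kernel) (by decide +kernel) (by decide +kernel) bb105 bb106

def it108 : List ℕ := 914685715 :: (it107 ++ it104)

def bn108 : List ℕ := bn104 ++ 913791024 :: bn107

theorem bb108 : BB cap (it108 : Multiset ℕ) (bn108 : Multiset ℕ) 11 :=
  BB_nest_list cap 914686131 914686902 913791023 913791331 914685715 914685715 it107 it104 bn104 913791024 bn107 6 2 4 11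
    (by decide +kernel) (by decide +kernel) (by decide +kernel) (by decide +kernel) (by decide +kernel) (by decide +kernel) (by decide +kernel)
    (by decide +kernel) (by decide +kernel) (by decide +kernel) (by decide +kernel) (by decide +kernel) (by decide +kernel) (by decide +kernel) bb104 bb107

def it109 : List ℕ := 914676281 :: (it108 ++ it101)

def bn109 : List ℕ := bn101 ++ 913782640 :: bn108

theorem bb109 : BB cap (it109 : Multiset ℕ) (bn109 : Multiset ℕ) 25 :=
  BB_nest_list cap 914685714 914703112 913782639 913789763 914676281 914676281 it108 it101 bn101 913782640 bn108 13 2 11 25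
    (by decide +kernel) (by decide +kernel) (by decide +kernel) (by decide +kernel) (by decide +kernel) (by decide +kernel) (by decide +kernel)
    (by decide +kernel) (by decide +kernel) (by decide +kernel) (by decide +kernel) (by decide +kernel) (by decide +kernel) (by decide +kernel) bb101 bb108

def it110 : List ℕ := [914404234, 914404235, 914404236, 914404238, 914404239, 914404240, 914404241, 914404242]

def bn110 : List ℕ := [914355252, 914355254]

theorem bb110 : BB cap (it110 : Multiset ℕ) (bn110 : Multiset ℕ) 1 :=
  BB_of_maxD cap it110 bn110 1 (by decide +kernel)

def it111 : List ℕ := [914404178, 914404179, 914404180, 914404182, 914404183]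

def bn111 : List ℕ := [914355364, 914355366, 914355368]

theorem bb111 : BB cap (it111 : Multiset ℕ) (bn111 : Multiset ℕ) 1 :=
  BB_of_maxD cap it111 bn111 1 (by decide +kernel)

def it112 : List ℕ := 914404146 :: (it111 ++ it110)

def bn112 : List ℕ := bn110 ++ 914355336 :: bn111

theorem bb112 : BB cap (it112 : Multiset ℕ) (bn112 : Multiset ℕ) 4 :=
  BB_nest_list cap 914404177 914404233 914355335 914355363 914404146 914404146 it111 it110 bn110 914355336 bn111 2 1 1 4
    (by decide +kernel) (by decide +kernel) (by decide +kernel) (by decide +kernel) (by decide +kernel) (by decide +kernel) (by decide +kernel)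
    (by decide +kernel) (by decide +kernel) (by decide +kernel) (by decide +kernel) (by decide +kernel) (by decide +kernel) (by decide +kernel) bb110 bb111

def it113 : List ℕ := [914403314, 914403315, 914403316, 914403318, 914403319, 914403320]

def bn113 : List ℕ := [914357092, 914357094]

theorem bb113 : BB cap (it113 : Multiset ℕ) (bn113 : Multiset ℕ) 1 :=
  BB_of_maxD cap it113 bn113 1 (by decide +kernel)

def it114 : List ℕ := [914403274, 914403275, 914403276, 914403278, 914403279]

def bn114 : List ℕ := [914357172, 914357174, 914357176]

theorem bb114 : BB cap (it114 : Multiset ℕ) (bn114 : Multiset ℕ) 1 :=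
  BB_of_maxD cap it114 bn114 1 (by decide +kernel)

def it115 : List ℕ := 914403252 :: (it114 ++ it113)

def bn115 : List ℕ := bn113 ++ 914357152 :: bn114

theorem bb115 : BB cap (it115 : Multiset ℕ) (bn115 : Multiset ℕ) 4 :=
  BB_nest_list cap 914403273 914403313 914357151 914357171 914403252 914403252 it114 it113 bn113 914357152 bn114 2 1 1 4
    (by decide +kernel) (by decide +kernel) (by decide +kernel) (by decide +kernel) (by decide +kernel) (by decide +kernel) (by decide +kernel)
    (by decide +kernel) (by decide +kernel) (by decide +kernel) (by decide +kernel) (by decide +kernel) (by decide +kernel) (by decide +kernel) bb113 bb114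

def it116 : List ℕ := 914402762 :: (it115 ++ it112)

def bn116 : List ℕ := bn112 ++ 914356720 :: bn115

theorem bb116 : BB cap (it116 : Multiset ℕ) (bn116 : Multiset ℕ) 11 :=
  BB_nest_list cap 914403251 914404145 914356719 914357091 914402762 914402762 it115 it112 bn112 914356720 bn115 6 2 4 11
    (by decide +kernel) (by decide +kernel) (by decide +kernel) (by decide +kernel) (by decide +kernel) (by decide +kernel) (by decide +kernel)
    (by decide +kernel) (by decide +kernel) (by decide +kernel) (by decide +kernel) (by decide +kernel) (by decide +kernel) (by decide +kernel) bb112 bb115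

def un117 : List ℕ := [914387870, 914387872, 914387895, 914387899, 914387906, 914387908, 914387911, 914387913, 914387925, 914387926, 914387927, 914387929, 914387930, 914387931]

theorem ub117 : UB cap (un117 : Multiset ℕ) 3 :=
  UB_of_chk cap un117 3 6 (by decide +kernel) (by decide +kernel)

def un118 : List ℕ := bn116 ++ [914379740, 914379742] ++ un117 ++ it116

theorem ub118 : UB cap (un118 : Multiset ℕ) 17 :=
  UB_nest_list cap 914379739 914387869 914402761 bn116 [914379740, 914379742] un117 it116 13 2 3 17
    (by decide +kernel) (by decide +kernel) (by decide +kernel) (by decide +kernel) (by decide +kernel) (by decide +kernel) (by decide +kernel)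
    (by decide +kernel) (by decide +kernel) (by decide +kernel) (by decide +kernel) (by decide +kernel) (by decide +kernel) bb116 ub117

def un119 : List ℕ := bn109 ++ [914229459, 914229462] ++ un118 ++ it109

theorem ub119 : UB cap (un119 : Multiset ℕ) 45 :=
  UB_nest_list cap 914229458 914355251 914676280 bn109 [914229459, 914229462] un118 it109 27 2 17 45
    (by decide +kernel) (by decide +kernel) (by decide +kernel) (by decide +kernel) (by decide +kernel) (by decide +kernel) (by decide +kernel)
    (by decide +kernel) (by decide +kernel) (by decide +kernel) (by decide +kernel) (by decide +kernel) (by decide +kernel) bb109 ub118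

def un120 : List ℕ := bn94 ++ [911360267, 911360269] ++ un119 ++ it94

theorem ub120 : UB cap (un120 : Multiset ℕ) 101 :=
  UB_nest_list cap 911360266 913754131 919898407 bn94 [911360267, 911360269] un119 it94 55 2 45 101
    (by decide +kernel) (by decide +kernel) (by decide +kernel) (by decide +kernel) (by decide +kernel) (by decide +kernel) (by decide +kernel)
    (by decide +kernel) (by decide +kernel) (by decide +kernel) (by decide +kernel) (by decide +kernel) (by decide +kernel) bb94 ub119

def un121 : List ℕ := bn63 ++ [857238658, 857238661] ++ un120 ++ it63

theorem ub121 : UB cap (un121 : Multiset ℕ) 213 :=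
  UB_nest_list cap 857238657 902277363 1018403478 bn63 [857238658, 857238661] un120 it63 111 2 101 213
    (by decide +kernel) (by decide +kernel) (by decide +kernel) (by decide +kernel) (by decide +kernel) (by decide +kernel) (by decide +kernel)
    (by decide +kernel) (by decide +kernel) (by decide +kernel) (by decide +kernel) (by decide +kernel) (by decide +kernel) bb63 ub120

theorem forall_app {α : Type} {p : α → Prop} {l1 l2 : List α} (h1 : ∀ s ∈ l1, p s)
    (h2 : ∀ s ∈ l2, p s) : ∀ s ∈ l1 ++ l2, p s := by
  intro s hs
  rcases List.mem_append.1 hs with h | h
  · exact h1 s h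
  · exact h2 s h

def tp0 : List (ℕ × ℕ × ℕ × ℕ) :=
  [(1028686394, 1028686398, 685790932, 497664),
   (1028686396, 1028686396, 685790932, 248832),
   (1028686394, 1028686396, 685790934, 248832),
   (1028686395, 1028686395, 685790934, 373248),
   (1028686314, 1028686318, 685791092, 497664),
   (1028686316, 1028686316, 685791092, 248832),
   (1028686314, 1028686316, 685791094, 248832),
   (1028686315, 1028686315, 685791094, 373248),
   (1028686398, 1028686318, 685790934, 124416),
   (1028686398, 1028686267, 685791052, 124416),
   (1028686399, 1028686267, 685791052, 331776),
   (1028686318, 1028686318, 685791052, 62208),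
   (1028686319, 1028686319, 685791052, 228096),
   (1028686267, 1028686319, 685791094, 124416),
   (1028686267, 1028686319, 685791096, 165888),
   (1028685066, 1028685070, 685793588, 497664),
   (1028685068, 1028685068, 685793588, 248832),
   (1028685066, 1028685068, 685793590, 248832),
   (1028685067, 1028685067, 685793590, 373248),
   (1028685026, 1028685030, 685793668, 497664),
   (1028685028, 1028685028, 685793668, 248832),
   (1028685026, 1028685028, 685793670, 248832),
   (1028685027, 1028685027, 685793670, 373248),
   (1028685070, 1028685030, 685793590, 124416),
   (1028685070, 1028685004, 685793648, 124416),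
   (1028685071, 1028685004, 685793648, 331776),
   (1028685030, 1028685030, 685793648, 62208),
   (1028685031, 1028685031, 685793648, 228096),
   (1028685004, 1028685031, 685793670, 124416),
   (1028685004, 1028685031, 685793672, 165888),
   (1028686399, 1028685071, 685791096, 414720),
   (1028686400, 1028685072, 685791096, 165888),
   (1028686400, 1028684295, 685793024, 552960),
   (1028685072, 1028685072, 685793024, 193536),
   (1028684295, 1028685072, 685793672, 193536),
   (1028663954, 1028663958, 685835812, 497664),
   (1028663956, 1028663956, 685835812, 248832),
   (1028663954, 1028663956, 685835814, 248832),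
   (1028663955, 1028663955, 685835814, 373248),
   (1028663906, 1028663910, 685835908, 497664),
   (1028663908, 1028663908, 685835908, 248832),
   (1028663906, 1028663908, 685835910, 248832),
   (1028663907, 1028663907, 685835910, 373248),
   (1028663958, 1028663910, 685835814, 124416),
   (1028663958, 1028663879, 685835884, 124416),
   (1028663959, 1028663879, 685835884, 331776),
   (1028663910, 1028663910, 685835884, 62208),
   (1028663911, 1028663911, 685835884, 228096),
   (1028663879, 1028663911, 685835910, 124416),
   (1028663879, 1028663911, 685835912, 165888),
   (1028663170, 1028663174, 685837380, 497664),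
   (1028663172, 1028663172, 685837380, 248832),
   (1028663170, 1028663172, 685837382, 248832),
   (1028663171, 1028663171, 685837382, 373248),
   (1028663130, 1028663134, 685837460, 497664),
   (1028663132, 1028663132, 685837460, 248832),
   (1028663130, 1028663132, 685837462, 248832),
   (1028663131, 1028663131, 685837462, 373248),
   (1028663174, 1028663134, 685837382, 124416),
   (1028663174, 1028663108, 685837440, 124416),
   (1028663175, 1028663108, 685837440, 331776),
   (1028663134, 1028663134, 685837440, 62208),
   (1028663135, 1028663135, 685837440, 228096),
   (1028663108, 1028663135, 685837462, 124416),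
   (1028663108, 1028663135, 685837464, 165888),
   (1028663959, 1028663175, 685835912, 414720),
   (1028663960, 1028663176, 685835912, 165888),
   (1028663960, 1028662691, 685837072, 552960),
   (1028663176, 1028663176, 685837072, 193536),
   (1028662691, 1028663176, 685837464, 193536),
   (1028686400, 1028663960, 685793672, 27648),
   (1028686401, 1028663961, 685793672, 359424),
   (1028686401, 1028650807, 685826512, 387072),
   (1028686402, 1028650807, 685826512, 230400),
   (1028663961, 1028663961, 685826512, 129024),
   (1028650807, 1028663961, 685837464, 129024),
   (1028307226, 1028307230, 686549268, 497664),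
   (1028307228, 1028307228, 686549268, 248832),
   (1028307226, 1028307228, 686549270, 248832),
   (1028307227, 1028307227, 686549270, 373248),
   (1028307170, 1028307174, 686549380, 497664),
   (1028307172, 1028307172, 686549380, 248832),
   (1028307170, 1028307172, 686549382, 248832),
   (1028307171, 1028307171, 686549382, 373248),
   (1028307230, 1028307174, 686549270, 124416),
   (1028307230, 1028307138, 686549352, 124416),
   (1028307231, 1028307138, 686549352, 331776),
   (1028307174, 1028307174, 686549352, 62208),
   (1028307175, 1028307175, 686549352, 228096),
   (1028307138, 1028307175, 686549382, 124416),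
   (1028307138, 1028307175, 686549384, 165888),
   (1028306306, 1028306310, 686551108, 497664),
   (1028306308, 1028306308, 686551108, 248832),
   (1028306306, 1028306308, 686551110, 248832),
   (1028306307, 1028306307, 686551110, 373248),
   (1028306266, 1028306270, 686551188, 497664),
   (1028306268, 1028306268, 686551188, 248832),
   (1028306266, 1028306268, 686551190, 248832),
   (1028306267, 1028306267, 686551190, 373248),
   (1028306310, 1028306270, 686551110, 124416)]

def tp1 : List (ℕ × ℕ × ℕ × ℕ) :=
  [(1028306310, 1028306244, 686551168, 124416),
   (1028306311, 1028306244, 686551168, 331776),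
   (1028306270, 1028306270, 686551168, 62208),
   (1028306271, 1028306271, 686551168, 228096),
   (1028306244, 1028306271, 686551190, 124416),
   (1028306244, 1028306271, 686551192, 165888),
   (1028307231, 1028306311, 686549384, 414720),
   (1028307232, 1028306312, 686549384, 165888),
   (1028307232, 1028305754, 686550736, 552960),
   (1028306312, 1028306312, 686550736, 193536),
   (1028305754, 1028306312, 686551192, 193536),
   (1028291722, 1028291726, 686580276, 497664),
   (1028291724, 1028291724, 686580276, 248832),
   (1028291722, 1028291724, 686580278, 248832),
   (1028291723, 1028291723, 686580278, 373248),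
   (1028291674, 1028291678, 686580372, 497664),
   (1028291676, 1028291676, 686580372, 248832),
   (1028291674, 1028291676, 686580374, 248832),
   (1028291675, 1028291675, 686580374, 373248),
   (1028291726, 1028291678, 686580278, 124416),
   (1028291726, 1028291647, 686580348, 124416),
   (1028291727, 1028291647, 686580348, 331776),
   (1028291678, 1028291678, 686580348, 62208),
   (1028291679, 1028291679, 686580348, 228096),
   (1028291647, 1028291679, 686580374, 124416),
   (1028291647, 1028291679, 686580376, 165888),
   (1028290938, 1028290942, 686581844, 497664),
   (1028290940, 1028290940, 686581844, 248832),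
   (1028290938, 1028290940, 686581846, 248832),
   (1028290939, 1028290939, 686581846, 373248),
   (1028290898, 1028290902, 686581924, 497664),
   (1028290900, 1028290900, 686581924, 248832),
   (1028290898, 1028290900, 686581926, 248832),
   (1028290899, 1028290899, 686581926, 373248),
   (1028290942, 1028290902, 686581846, 124416),
   (1028290942, 1028290876, 686581904, 124416),
   (1028290943, 1028290876, 686581904, 331776),
   (1028290902, 1028290902, 686581904, 62208),
   (1028290903, 1028290903, 686581904, 228096),
   (1028290876, 1028290903, 686581926, 124416),
   (1028290876, 1028290903, 686581928, 165888),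
   (1028291727, 1028290943, 686580376, 414720),
   (1028291728, 1028290944, 686580376, 165888),
   (1028291728, 1028290459, 686581536, 552960),
   (1028290944, 1028290944, 686581536, 193536),
   (1028290459, 1028290944, 686581928, 193536),
   (1028307232, 1028291728, 686551192, 27648),
   (1028307233, 1028291729, 686551192, 359424),
   (1028307233, 1028282250, 686574240, 387072),
   (1028307234, 1028282250, 686574240, 230400),
   (1028291729, 1028291729, 686574240, 129024),
   (1028282250, 1028291729, 686581928, 129024),
   (1028686402, 1028307234, 685837464, 258048),
   (1028686402, 1028081511, 686395808, 258048),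
   (1028686403, 1028081511, 686395808, 402432),
   (1028307234, 1028307234, 686395808, 86016),
   (1028081511, 1028307234, 686581928, 86016),
   (1022279842, 1022279846, 698604036, 497664),
   (1022279844, 1022279844, 698604036, 248832),
   (1022279842, 1022279844, 698604038, 248832),
   (1022279843, 1022279843, 698604038, 373248),
   (1022279778, 1022279782, 698604164, 497664),
   (1022279780, 1022279780, 698604164, 248832),
   (1022279778, 1022279780, 698604166, 248832),
   (1022279779, 1022279779, 698604166, 373248),
   (1022279846, 1022279782, 698604038, 124416),
   (1022279846, 1022279741, 698604132, 124416),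
   (1022279847, 1022279741, 698604132, 331776),
   (1022279782, 1022279782, 698604132, 62208),
   (1022279783, 1022279783, 698604132, 228096),
   (1022279741, 1022279783, 698604166, 124416),
   (1022279741, 1022279783, 698604168, 165888),
   (1022278786, 1022278790, 698606148, 497664),
   (1022278788, 1022278788, 698606148, 248832),
   (1022278786, 1022278788, 698606150, 248832),
   (1022278787, 1022278787, 698606150, 373248),
   (1022278746, 1022278750, 698606228, 497664),
   (1022278748, 1022278748, 698606228, 248832),
   (1022278746, 1022278748, 698606230, 248832),
   (1022278747, 1022278747, 698606230, 373248),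
   (1022278790, 1022278750, 698606150, 124416),
   (1022278790, 1022278724, 698606208, 124416),
   (1022278791, 1022278724, 698606208, 331776),
   (1022278750, 1022278750, 698606208, 62208),
   (1022278751, 1022278751, 698606208, 228096),
   (1022278724, 1022278751, 698606230, 124416),
   (1022278724, 1022278751, 698606232, 165888),
   (1022279847, 1022278791, 698604168, 414720),
   (1022279848, 1022278792, 698604168, 165888),
   (1022279848, 1022278161, 698605712, 552960),
   (1022278792, 1022278792, 698605712, 193536),
   (1022278161, 1022278792, 698606232, 193536),
   (1022262026, 1022262030, 698639668, 497664),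
   (1022262028, 1022262028, 698639668, 248832),
   (1022262026, 1022262028, 698639670, 248832),
   (1022262027, 1022262027, 698639670, 373248),
   (1022261978, 1022261982, 698639764, 497664),
   (1022261980, 1022261980, 698639764, 248832),
   (1022261978, 1022261980, 698639766, 248832),
   (1022261979, 1022261979, 698639766, 373248)]

def tp2 : List (ℕ × ℕ × ℕ × ℕ) :=
  [(1022262030, 1022261982, 698639670, 124416),
   (1022262030, 1022261951, 698639740, 124416),
   (1022262031, 1022261951, 698639740, 331776),
   (1022261982, 1022261982, 698639740, 62208),
   (1022261983, 1022261983, 698639740, 228096),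
   (1022261951, 1022261983, 698639766, 124416),
   (1022261951, 1022261983, 698639768, 165888),
   (1022261242, 1022261246, 698641236, 497664),
   (1022261244, 1022261244, 698641236, 248832),
   (1022261242, 1022261244, 698641238, 248832),
   (1022261243, 1022261243, 698641238, 373248),
   (1022261202, 1022261206, 698641316, 497664),
   (1022261204, 1022261204, 698641316, 248832),
   (1022261202, 1022261204, 698641318, 248832),
   (1022261203, 1022261203, 698641318, 373248),
   (1022261246, 1022261206, 698641238, 124416),
   (1022261246, 1022261180, 698641296, 124416),
   (1022261247, 1022261180, 698641296, 331776),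
   (1022261206, 1022261206, 698641296, 62208),
   (1022261207, 1022261207, 698641296, 228096),
   (1022261180, 1022261207, 698641318, 124416),
   (1022261180, 1022261207, 698641320, 165888),
   (1022262031, 1022261247, 698639768, 414720),
   (1022262032, 1022261248, 698639768, 165888),
   (1022262032, 1022260763, 698640928, 552960),
   (1022261248, 1022261248, 698640928, 193536),
   (1022260763, 1022261248, 698641320, 193536),
   (1022279848, 1022262032, 698606232, 27648),
   (1022279849, 1022262033, 698606232, 359424),
   (1022279849, 1022251329, 698632544, 387072),
   (1022279850, 1022251329, 698632544, 230400),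
   (1022262033, 1022262033, 698632544, 129024),
   (1022251329, 1022262033, 698641320, 129024),
   (1021979282, 1021979286, 699205156, 497664),
   (1021979284, 1021979284, 699205156, 248832),
   (1021979282, 1021979284, 699205158, 248832),
   (1021979283, 1021979283, 699205158, 373248),
   (1021979226, 1021979230, 699205268, 497664),
   (1021979228, 1021979228, 699205268, 248832),
   (1021979226, 1021979228, 699205270, 248832),
   (1021979227, 1021979227, 699205270, 373248),
   (1021979286, 1021979230, 699205158, 124416),
   (1021979286, 1021979194, 699205240, 124416),
   (1021979287, 1021979194, 699205240, 331776),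
   (1021979230, 1021979230, 699205240, 62208),
   (1021979231, 1021979231, 699205240, 228096),
   (1021979194, 1021979231, 699205270, 124416),
   (1021979194, 1021979231, 699205272, 165888),
   (1021978362, 1021978366, 699206996, 497664),
   (1021978364, 1021978364, 699206996, 248832),
   (1021978362, 1021978364, 699206998, 248832),
   (1021978363, 1021978363, 699206998, 373248),
   (1021978322, 1021978326, 699207076, 497664),
   (1021978324, 1021978324, 699207076, 248832),
   (1021978322, 1021978324, 699207078, 248832),
   (1021978323, 1021978323, 699207078, 373248),
   (1021978366, 1021978326, 699206998, 124416),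
   (1021978366, 1021978300, 699207056, 124416),
   (1021978367, 1021978300, 699207056, 331776),
   (1021978326, 1021978326, 699207056, 62208),
   (1021978327, 1021978327, 699207056, 228096),
   (1021978300, 1021978327, 699207078, 124416),
   (1021978300, 1021978327, 699207080, 165888),
   (1021979287, 1021978367, 699205272, 414720),
   (1021979288, 1021978368, 699205272, 165888),
   (1021979288, 1021977810, 699206624, 552960),
   (1021978368, 1021978368, 699206624, 193536),
   (1021977810, 1021978368, 699207080, 193536),
   (1021963778, 1021963782, 699236164, 497664),
   (1021963780, 1021963780, 699236164, 248832),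
   (1021963778, 1021963780, 699236166, 248832),
   (1021963779, 1021963779, 699236166, 373248),
   (1021963730, 1021963734, 699236260, 497664),
   (1021963732, 1021963732, 699236260, 248832),
   (1021963730, 1021963732, 699236262, 248832),
   (1021963731, 1021963731, 699236262, 373248),
   (1021963782, 1021963734, 699236166, 124416),
   (1021963782, 1021963703, 699236236, 124416),
   (1021963783, 1021963703, 699236236, 331776),
   (1021963734, 1021963734, 699236236, 62208),
   (1021963735, 1021963735, 699236236, 228096),
   (1021963703, 1021963735, 699236262, 124416),
   (1021963703, 1021963735, 699236264, 165888),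
   (1021962994, 1021962998, 699237732, 497664),
   (1021962996, 1021962996, 699237732, 248832),
   (1021962994, 1021962996, 699237734, 248832),
   (1021962995, 1021962995, 699237734, 373248),
   (1021962954, 1021962958, 699237812, 497664),
   (1021962956, 1021962956, 699237812, 248832),
   (1021962954, 1021962956, 699237814, 248832),
   (1021962955, 1021962955, 699237814, 373248),
   (1021962998, 1021962958, 699237734, 124416),
   (1021962998, 1021962932, 699237792, 124416),
   (1021962999, 1021962932, 699237792, 331776),
   (1021962958, 1021962958, 699237792, 62208),
   (1021962959, 1021962959, 699237792, 228096),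
   (1021962932, 1021962959, 699237814, 124416),
   (1021962932, 1021962959, 699237816, 165888),
   (1021963783, 1021962999, 699236264, 414720),
   (1021963784, 1021963000, 699236264, 165888)]

def tp3 : List (ℕ × ℕ × ℕ × ℕ) :=
  [(1021963784, 1021962515, 699237424, 552960),
   (1021963000, 1021963000, 699237424, 193536),
   (1021962515, 1021963000, 699237816, 193536),
   (1021979288, 1021963784, 699207080, 27648),
   (1021979289, 1021963785, 699207080, 359424),
   (1021979289, 1021954306, 699230128, 387072),
   (1021979290, 1021954306, 699230128, 230400),
   (1021963785, 1021963785, 699230128, 129024),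
   (1021954306, 1021963785, 699237816, 129024),
   (1022279850, 1021979290, 698641320, 258048),
   (1022279850, 1021795185, 699088688, 258048),
   (1022279851, 1021795185, 699088688, 402432),
   (1021979290, 1021979290, 699088688, 86016),
   (1021795185, 1021979290, 699237816, 86016),
   (1028686403, 1022279851, 686581928, 172032),
   (1028686403, 1018403479, 696073840, 172032),
   (1028686404, 1018403479, 696073840, 517120),
   (1022279851, 1022279851, 696073840, 57344),
   (1018403479, 1022279851, 699237816, 57344),
   (920443178, 920443182, 902277364, 497664),
   (920443180, 920443180, 902277364, 248832),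
   (920443178, 920443180, 902277366, 248832),
   (920443179, 920443179, 902277366, 373248),
   (920443106, 920443110, 902277508, 497664),
   (920443108, 920443108, 902277508, 248832),
   (920443106, 920443108, 902277510, 248832),
   (920443107, 920443107, 902277510, 373248),
   (920443182, 920443110, 902277366, 124416),
   (920443182, 920443064, 902277472, 124416),
   (920443183, 920443064, 902277472, 331776),
   (920443110, 920443110, 902277472, 62208),
   (920443111, 920443111, 902277472, 228096),
   (920443064, 920443111, 902277510, 124416),
   (920443064, 920443111, 902277512, 165888),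
   (920441986, 920441990, 902279748, 497664),
   (920441988, 920441988, 902279748, 248832),
   (920441986, 920441988, 902279750, 248832),
   (920441987, 920441987, 902279750, 373248),
   (920441946, 920441950, 902279828, 497664),
   (920441948, 920441948, 902279828, 248832),
   (920441946, 920441948, 902279830, 248832),
   (920441947, 920441947, 902279830, 373248),
   (920441990, 920441950, 902279750, 124416),
   (920441990, 920441924, 902279808, 124416),
   (920441991, 920441924, 902279808, 331776),
   (920441950, 920441950, 902279808, 62208),
   (920441951, 920441951, 902279808, 228096),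
   (920441924, 920441951, 902279830, 124416),
   (920441924, 920441951, 902279832, 165888),
   (920443183, 920441991, 902277512, 414720),
   (920443184, 920441992, 902277512, 165888),
   (920443184, 920441288, 902279248, 552960),
   (920441992, 920441992, 902279248, 193536),
   (920441288, 920441992, 902279832, 193536),
   (920423050, 920423054, 902317620, 497664),
   (920423052, 920423052, 902317620, 248832),
   (920423050, 920423052, 902317622, 248832),
   (920423051, 920423051, 902317622, 373248),
   (920423002, 920423006, 902317716, 497664),
   (920423004, 920423004, 902317716, 248832),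
   (920423002, 920423004, 902317718, 248832),
   (920423003, 920423003, 902317718, 373248),
   (920423054, 920423006, 902317622, 124416),
   (920423054, 920422975, 902317692, 124416),
   (920423055, 920422975, 902317692, 331776),
   (920423006, 920423006, 902317692, 62208),
   (920423007, 920423007, 902317692, 228096),
   (920422975, 920423007, 902317718, 124416),
   (920422975, 920423007, 902317720, 165888),
   (920422266, 920422270, 902319188, 497664),
   (920422268, 920422268, 902319188, 248832),
   (920422266, 920422268, 902319190, 248832),
   (920422267, 920422267, 902319190, 373248),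
   (920422226, 920422230, 902319268, 497664),
   (920422228, 920422228, 902319268, 248832),
   (920422226, 920422228, 902319270, 248832),
   (920422227, 920422227, 902319270, 373248),
   (920422270, 920422230, 902319190, 124416),
   (920422270, 920422204, 902319248, 124416),
   (920422271, 920422204, 902319248, 331776),
   (920422230, 920422230, 902319248, 62208),
   (920422231, 920422231, 902319248, 228096),
   (920422204, 920422231, 902319270, 124416),
   (920422204, 920422231, 902319272, 165888),
   (920423055, 920422271, 902317720, 414720),
   (920423056, 920422272, 902317720, 165888),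
   (920423056, 920421787, 902318880, 552960),
   (920422272, 920422272, 902318880, 193536),
   (920421787, 920422272, 902319272, 193536),
   (920443184, 920423056, 902279832, 27648),
   (920443185, 920423057, 902279832, 359424),
   (920443185, 920411128, 902309408, 387072),
   (920443186, 920411128, 902309408, 230400),
   (920423057, 920423057, 902309408, 129024),
   (920411128, 920423057, 902319272, 129024),
   (920103314, 920103318, 902957092, 497664),
   (920103316, 920103316, 902957092, 248832),
   (920103314, 920103316, 902957094, 248832),
   (920103315, 920103315, 902957094, 373248),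
   (920103258, 920103262, 902957204, 497664)]

def tp4 : List (ℕ × ℕ × ℕ × ℕ) :=
  [(920103260, 920103260, 902957204, 248832),
   (920103258, 920103260, 902957206, 248832),
   (920103259, 920103259, 902957206, 373248),
   (920103318, 920103262, 902957094, 124416),
   (920103318, 920103226, 902957176, 124416),
   (920103319, 920103226, 902957176, 331776),
   (920103262, 920103262, 902957176, 62208),
   (920103263, 920103263, 902957176, 228096),
   (920103226, 920103263, 902957206, 124416),
   (920103226, 920103263, 902957208, 165888),
   (920102394, 920102398, 902958932, 497664),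
   (920102396, 920102396, 902958932, 248832),
   (920102394, 920102396, 902958934, 248832),
   (920102395, 920102395, 902958934, 373248),
   (920102354, 920102358, 902959012, 497664),
   (920102356, 920102356, 902959012, 248832),
   (920102354, 920102356, 902959014, 248832),
   (920102355, 920102355, 902959014, 373248),
   (920102398, 920102358, 902958934, 124416),
   (920102398, 920102332, 902958992, 124416),
   (920102399, 920102332, 902958992, 331776),
   (920102358, 920102358, 902958992, 62208),
   (920102359, 920102359, 902958992, 228096),
   (920102332, 920102359, 902959014, 124416),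
   (920102332, 920102359, 902959016, 165888),
   (920103319, 920102399, 902957208, 414720),
   (920103320, 920102400, 902957208, 165888),
   (920103320, 920101842, 902958560, 552960),
   (920102400, 920102400, 902958560, 193536),
   (920101842, 920102400, 902959016, 193536),
   (920087810, 920087814, 902988100, 497664),
   (920087812, 920087812, 902988100, 248832),
   (920087810, 920087812, 902988102, 248832),
   (920087811, 920087811, 902988102, 373248),
   (920087762, 920087766, 902988196, 497664),
   (920087764, 920087764, 902988196, 248832),
   (920087762, 920087764, 902988198, 248832),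
   (920087763, 920087763, 902988198, 373248),
   (920087814, 920087766, 902988102, 124416),
   (920087814, 920087735, 902988172, 124416),
   (920087815, 920087735, 902988172, 331776),
   (920087766, 920087766, 902988172, 62208),
   (920087767, 920087767, 902988172, 228096),
   (920087735, 920087767, 902988198, 124416),
   (920087735, 920087767, 902988200, 165888),
   (920087026, 920087030, 902989668, 497664),
   (920087028, 920087028, 902989668, 248832),
   (920087026, 920087028, 902989670, 248832),
   (920087027, 920087027, 902989670, 373248),
   (920086986, 920086990, 902989748, 497664),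
   (920086988, 920086988, 902989748, 248832),
   (920086986, 920086988, 902989750, 248832),
   (920086987, 920086987, 902989750, 373248),
   (920087030, 920086990, 902989670, 124416),
   (920087030, 920086964, 902989728, 124416),
   (920087031, 920086964, 902989728, 331776),
   (920086990, 920086990, 902989728, 62208),
   (920086991, 920086991, 902989728, 228096),
   (920086964, 920086991, 902989750, 124416),
   (920086964, 920086991, 902989752, 165888),
   (920087815, 920087031, 902988200, 414720),
   (920087816, 920087032, 902988200, 165888),
   (920087816, 920086547, 902989360, 552960),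
   (920087032, 920087032, 902989360, 193536),
   (920086547, 920087032, 902989752, 193536),
   (920103320, 920087816, 902959016, 27648),
   (920103321, 920087817, 902959016, 359424),
   (920103321, 920078338, 902982064, 387072),
   (920103322, 920078338, 902982064, 230400),
   (920087817, 920087817, 902982064, 129024),
   (920078338, 920087817, 902989752, 129024),
   (920443186, 920103322, 902319272, 258048),
   (920443186, 919898408, 902822128, 258048),
   (920443187, 919898408, 902822128, 402432),
   (920103322, 920103322, 902822128, 86016),
   (919898408, 920103322, 902989752, 86016),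
   (914704794, 914704798, 913754132, 497664),
   (914704796, 914704796, 913754132, 248832),
   (914704794, 914704796, 913754134, 248832),
   (914704795, 914704795, 913754134, 373248),
   (914704730, 914704734, 913754260, 497664),
   (914704732, 914704732, 913754260, 248832),
   (914704730, 914704732, 913754262, 248832),
   (914704731, 914704731, 913754262, 373248),
   (914704798, 914704734, 913754134, 124416),
   (914704798, 914704693, 913754228, 124416),
   (914704799, 914704693, 913754228, 331776),
   (914704734, 914704734, 913754228, 62208),
   (914704735, 914704735, 913754228, 228096),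
   (914704693, 914704735, 913754262, 124416),
   (914704693, 914704735, 913754264, 165888),
   (914703738, 914703742, 913756244, 497664),
   (914703740, 914703740, 913756244, 248832),
   (914703738, 914703740, 913756246, 248832),
   (914703739, 914703739, 913756246, 373248),
   (914703698, 914703702, 913756324, 497664),
   (914703700, 914703700, 913756324, 248832),
   (914703698, 914703700, 913756326, 248832),
   (914703699, 914703699, 913756326, 373248),
   (914703742, 914703702, 913756246, 124416)]

def tp5 : List (ℕ × ℕ × ℕ × ℕ) :=
  [(914703742, 914703676, 913756304, 124416),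
   (914703743, 914703676, 913756304, 331776),
   (914703702, 914703702, 913756304, 62208),
   (914703703, 914703703, 913756304, 228096),
   (914703676, 914703703, 913756326, 124416),
   (914703676, 914703703, 913756328, 165888),
   (914704799, 914703743, 913754264, 414720),
   (914704800, 914703744, 913754264, 165888),
   (914704800, 914703113, 913755808, 552960),
   (914703744, 914703744, 913755808, 193536),
   (914703113, 914703744, 913756328, 193536),
   (914686978, 914686982, 913789764, 497664),
   (914686980, 914686980, 913789764, 248832),
   (914686978, 914686980, 913789766, 248832),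
   (914686979, 914686979, 913789766, 373248),
   (914686930, 914686934, 913789860, 497664),
   (914686932, 914686932, 913789860, 248832),
   (914686930, 914686932, 913789862, 248832),
   (914686931, 914686931, 913789862, 373248),
   (914686982, 914686934, 913789766, 124416),
   (914686982, 914686903, 913789836, 124416),
   (914686983, 914686903, 913789836, 331776),
   (914686934, 914686934, 913789836, 62208),
   (914686935, 914686935, 913789836, 228096),
   (914686903, 914686935, 913789862, 124416),
   (914686903, 914686935, 913789864, 165888),
   (914686194, 914686198, 913791332, 497664),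
   (914686196, 914686196, 913791332, 248832),
   (914686194, 914686196, 913791334, 248832),
   (914686195, 914686195, 913791334, 373248),
   (914686154, 914686158, 913791412, 497664),
   (914686156, 914686156, 913791412, 248832),
   (914686154, 914686156, 913791414, 248832),
   (914686155, 914686155, 913791414, 373248),
   (914686198, 914686158, 913791334, 124416),
   (914686198, 914686132, 913791392, 124416),
   (914686199, 914686132, 913791392, 331776),
   (914686158, 914686158, 913791392, 62208),
   (914686159, 914686159, 913791392, 228096),
   (914686132, 914686159, 913791414, 124416),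
   (914686132, 914686159, 913791416, 165888),
   (914686983, 914686199, 913789864, 414720),
   (914686984, 914686200, 913789864, 165888),
   (914686984, 914685715, 913791024, 552960),
   (914686200, 914686200, 913791024, 193536),
   (914685715, 914686200, 913791416, 193536),
   (914704800, 914686984, 913756328, 27648),
   (914704801, 914686985, 913756328, 359424),
   (914704801, 914676281, 913782640, 387072),
   (914704802, 914676281, 913782640, 230400),
   (914686985, 914686985, 913782640, 129024),
   (914676281, 914686985, 913791416, 129024),
   (914404234, 914404238, 914355252, 497664),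
   (914404236, 914404236, 914355252, 248832),
   (914404234, 914404236, 914355254, 248832),
   (914404235, 914404235, 914355254, 373248),
   (914404178, 914404182, 914355364, 497664),
   (914404180, 914404180, 914355364, 248832),
   (914404178, 914404180, 914355366, 248832),
   (914404179, 914404179, 914355366, 373248),
   (914404238, 914404182, 914355254, 124416),
   (914404238, 914404146, 914355336, 124416),
   (914404239, 914404146, 914355336, 331776),
   (914404182, 914404182, 914355336, 62208),
   (914404183, 914404183, 914355336, 228096),
   (914404146, 914404183, 914355366, 124416),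
   (914404146, 914404183, 914355368, 165888),
   (914403314, 914403318, 914357092, 497664),
   (914403316, 914403316, 914357092, 248832),
   (914403314, 914403316, 914357094, 248832),
   (914403315, 914403315, 914357094, 373248),
   (914403274, 914403278, 914357172, 497664),
   (914403276, 914403276, 914357172, 248832),
   (914403274, 914403276, 914357174, 248832),
   (914403275, 914403275, 914357174, 373248),
   (914403318, 914403278, 914357094, 124416),
   (914403318, 914403252, 914357152, 124416),
   (914403319, 914403252, 914357152, 331776),
   (914403278, 914403278, 914357152, 62208),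
   (914403279, 914403279, 914357152, 228096),
   (914403252, 914403279, 914357174, 124416),
   (914403252, 914403279, 914357176, 165888),
   (914404239, 914403319, 914355368, 414720),
   (914404240, 914403320, 914355368, 165888),
   (914404240, 914402762, 914356720, 552960),
   (914403320, 914403320, 914356720, 193536),
   (914402762, 914403320, 914357176, 193536),
   (914387872, 914387925, 914387927, 248832),
   (914387906, 914387906, 914387911, 373248),
   (914387872, 914387913, 914387929, 124416),
   (914387899, 914387911, 914387913, 124416),
   (914387908, 914387908, 914387908, 248832),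
   (914387870, 914387927, 914387927, 248832),
   (914387872, 914387926, 914387926, 373248),
   (914387895, 914387899, 914387930, 497664),
   (914387899, 914387911, 914387911, 124416),
   (914387895, 914387913, 914387913, 248832),
   (914387870, 914387925, 914387929, 497664),
   (914404240, 914387929, 914357176, 27648),
   (914404241, 914387929, 914357176, 96768)]

def tp6 : List (ℕ × ℕ × ℕ × ℕ) :=
  [(914404241, 914387930, 914357176, 248832),
   (914404241, 914387931, 914357176, 13824),
   (914404241, 914379740, 914379742, 387072),
   (914404242, 914379740, 914379742, 176256),
   (914387931, 914387931, 914379740, 183168),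
   (914387931, 914387931, 914379742, 183168),
   (914704802, 914404242, 913791416, 258048),
   (914704802, 914229459, 914229462, 258048),
   (914704803, 914229459, 914229462, 410400),
   (914404242, 914404242, 914229459, 78048),
   (914404242, 914404242, 914229462, 78048),
   (920443187, 914704803, 902989752, 172032),
   (920443187, 911360267, 911360269, 172032),
   (920443188, 911360267, 911360269, 533448),
   (914704803, 914704803, 911360267, 41016),
   (914704803, 914704803, 911360269, 41016),
   (1028686404, 920443188, 699237816, 114688),
   (1028686404, 857238658, 857238661, 114688),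
   (1028686405, 857238658, 857238661, 607218),
   (920443188, 920443188, 857238658, 24590),
   (920443188, 920443188, 857238661, 24590)]

def tpAll : List (ℕ × ℕ × ℕ × ℕ) := tp0 ++ (tp1 ++ (tp2 ++ (tp3 ++ (tp4 ++ (tp5 ++ (tp6))))))

def dpAll : List (ℕ × ℕ) := [(1028686405, 69639)]

def sz0 : List ℕ := [685790932, 685790934, 685791052, 685791092, 685791094, 685791096, 685793024, 685793588, 685793590, 685793648, 685793668, 685793670, 685793672, 685826512, 685835812, 685835814, 685835884, 685835908, 685835910, 685835912, 685837072, 685837380, 685837382, 685837440, 685837460, 685837462, 685837464, 686395808, 686549268, 686549270, 686549352, 686549380, 686549382, 686549384, 686550736, 686551108, 686551110, 686551168, 686551188, 686551190, 686551192, 686574240, 686580276, 686580278, 686580348, 686580372, 686580374, 686580376, 686581536, 686581844, 686581846, 686581904, 686581924, 686581926, 686581928, 696073840, 698604036, 698604038, 698604132, 698604164, 698604166, 698604168, 698605712, 698606148]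

def sz1 : List ℕ := [698606150, 698606208, 698606228, 698606230, 698606232, 698632544, 698639668, 698639670, 698639740, 698639764, 698639766, 698639768, 698640928, 698641236, 698641238, 698641296, 698641316, 698641318, 698641320, 699088688, 699205156, 699205158, 699205240, 699205268, 699205270, 699205272, 699206624, 699206996, 699206998, 699207056, 699207076, 699207078, 699207080, 699230128, 699236164, 699236166, 699236236, 699236260, 699236262, 699236264, 699237424, 699237732, 699237734, 699237792, 699237812, 699237814, 699237816, 857238658, 857238661, 902277364, 902277366, 902277472, 902277508, 902277510, 902277512, 902279248, 902279748, 902279750, 902279808, 902279828, 902279830, 902279832, 902309408, 902317620]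

def sz2 : List ℕ := [902317622, 902317692, 902317716, 902317718, 902317720, 902318880, 902319188, 902319190, 902319248, 902319268, 902319270, 902319272, 902822128, 902957092, 902957094, 902957176, 902957204, 902957206, 902957208, 902958560, 902958932, 902958934, 902958992, 902959012, 902959014, 902959016, 902982064, 902988100, 902988102, 902988172, 902988196, 902988198, 902988200, 902989360, 902989668, 902989670, 902989728, 902989748, 902989750, 902989752, 911360267, 911360269, 913754132, 913754134, 913754228, 913754260, 913754262, 913754264, 913755808, 913756244, 913756246, 913756304, 913756324, 913756326, 913756328, 913782640, 913789764, 913789766, 913789836, 913789860, 913789862, 913789864, 913791024, 913791332]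

def sz3 : List ℕ := [913791334, 913791392, 913791412, 913791414, 913791416, 914229459, 914229462, 914355252, 914355254, 914355336, 914355364, 914355366, 914355368, 914356720, 914357092, 914357094, 914357152, 914357172, 914357174, 914357176, 914379740, 914379742, 914387870, 914387872, 914387895, 914387899, 914387906, 914387908, 914387911, 914387913, 914387925, 914387926, 914387927, 914387929, 914387930, 914387931, 914402762, 914403252, 914403274, 914403275, 914403276, 914403278, 914403279, 914403314, 914403315, 914403316, 914403318, 914403319, 914403320, 914404146, 914404178, 914404179, 914404180, 914404182, 914404183, 914404234, 914404235, 914404236, 914404238, 914404239, 914404240, 914404241, 914404242, 914676281]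

def sz4 : List ℕ := [914685715, 914686132, 914686154, 914686155, 914686156, 914686158, 914686159, 914686194, 914686195, 914686196, 914686198, 914686199, 914686200, 914686903, 914686930, 914686931, 914686932, 914686934, 914686935, 914686978, 914686979, 914686980, 914686982, 914686983, 914686984, 914686985, 914703113, 914703676, 914703698, 914703699, 914703700, 914703702, 914703703, 914703738, 914703739, 914703740, 914703742, 914703743, 914703744, 914704693, 914704730, 914704731, 914704732, 914704734, 914704735, 914704794, 914704795, 914704796, 914704798, 914704799, 914704800, 914704801, 914704802, 914704803, 919898408, 920078338, 920086547, 920086964, 920086986, 920086987, 920086988, 920086990, 920086991, 920087026]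

def sz5 : List ℕ := [920087027, 920087028, 920087030, 920087031, 920087032, 920087735, 920087762, 920087763, 920087764, 920087766, 920087767, 920087810, 920087811, 920087812, 920087814, 920087815, 920087816, 920087817, 920101842, 920102332, 920102354, 920102355, 920102356, 920102358, 920102359, 920102394, 920102395, 920102396, 920102398, 920102399, 920102400, 920103226, 920103258, 920103259, 920103260, 920103262, 920103263, 920103314, 920103315, 920103316, 920103318, 920103319, 920103320, 920103321, 920103322, 920411128, 920421787, 920422204, 920422226, 920422227, 920422228, 920422230, 920422231, 920422266, 920422267, 920422268, 920422270, 920422271, 920422272, 920422975, 920423002, 920423003, 920423004, 920423006]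

def sz6 : List ℕ := [920423007, 920423050, 920423051, 920423052, 920423054, 920423055, 920423056, 920423057, 920441288, 920441924, 920441946, 920441947, 920441948, 920441950, 920441951, 920441986, 920441987, 920441988, 920441990, 920441991, 920441992, 920443064, 920443106, 920443107, 920443108, 920443110, 920443111, 920443178, 920443179, 920443180, 920443182, 920443183, 920443184, 920443185, 920443186, 920443187, 920443188, 1018403479, 1021795185, 1021954306, 1021962515, 1021962932, 1021962954, 1021962955, 1021962956, 1021962958, 1021962959, 1021962994, 1021962995, 1021962996, 1021962998, 1021962999, 1021963000, 1021963703, 1021963730, 1021963731, 1021963732, 1021963734, 1021963735, 1021963778, 1021963779, 1021963780, 1021963782, 1021963783]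

def sz7 : List ℕ := [1021963784, 1021963785, 1021977810, 1021978300, 1021978322, 1021978323, 1021978324, 1021978326, 1021978327, 1021978362, 1021978363, 1021978364, 1021978366, 1021978367, 1021978368, 1021979194, 1021979226, 1021979227, 1021979228, 1021979230, 1021979231, 1021979282, 1021979283, 1021979284, 1021979286, 1021979287, 1021979288, 1021979289, 1021979290, 1022251329, 1022260763, 1022261180, 1022261202, 1022261203, 1022261204, 1022261206, 1022261207, 1022261242, 1022261243, 1022261244, 1022261246, 1022261247, 1022261248, 1022261951, 1022261978, 1022261979, 1022261980, 1022261982, 1022261983, 1022262026, 1022262027, 1022262028, 1022262030, 1022262031, 1022262032, 1022262033, 1022278161, 1022278724, 1022278746, 1022278747, 1022278748, 1022278750, 1022278751, 1022278786]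

def sz8 : List ℕ := [1022278787, 1022278788, 1022278790, 1022278791, 1022278792, 1022279741, 1022279778, 1022279779, 1022279780, 1022279782, 1022279783, 1022279842, 1022279843, 1022279844, 1022279846, 1022279847, 1022279848, 1022279849, 1022279850, 1022279851, 1028081511, 1028282250, 1028290459, 1028290876, 1028290898, 1028290899, 1028290900, 1028290902, 1028290903, 1028290938, 1028290939, 1028290940, 1028290942, 1028290943, 1028290944, 1028291647, 1028291674, 1028291675, 1028291676, 1028291678, 1028291679, 1028291722, 1028291723, 1028291724, 1028291726, 1028291727, 1028291728, 1028291729, 1028305754, 1028306244, 1028306266, 1028306267, 1028306268, 1028306270, 1028306271, 1028306306, 1028306307, 1028306308, 1028306310, 1028306311, 1028306312, 1028307138, 1028307170, 1028307171]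

def sz9 : List ℕ := [1028307172, 1028307174, 1028307175, 1028307226, 1028307227, 1028307228, 1028307230, 1028307231, 1028307232, 1028307233, 1028307234, 1028650807, 1028662691, 1028663108, 1028663130, 1028663131, 1028663132, 1028663134, 1028663135, 1028663170, 1028663171, 1028663172, 1028663174, 1028663175, 1028663176, 1028663879, 1028663906, 1028663907, 1028663908, 1028663910, 1028663911, 1028663954, 1028663955, 1028663956, 1028663958, 1028663959, 1028663960, 1028663961, 1028684295, 1028685004, 1028685026, 1028685027, 1028685028, 1028685030, 1028685031, 1028685066, 1028685067, 1028685068, 1028685070, 1028685071, 1028685072, 1028686267, 1028686314, 1028686315, 1028686316, 1028686318, 1028686319, 1028686394, 1028686395, 1028686396, 1028686398, 1028686399, 1028686400, 1028686401]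

def sz10 : List ℕ := [1028686402, 1028686403, 1028686404, 1028686405]

def szAll : List ℕ := sz0 ++ (sz1 ++ (sz2 ++ (sz3 ++ (sz4 ++ (sz5 ++ (sz6 ++ (sz7 ++ (sz8 ++ (sz9 ++ (sz10))))))))))

theorem sz_eq : un121 = szAll := by decide +kernel

theorem okt0 : okT cap szAll tp0 = true := by decide +kernel

theorem okt1 : okT cap szAll tp1 = true := by decide +kernel

theorem okt2 : okT cap szAll tp2 = true := by decide +kernel

theorem okt3 : okT cap szAll tp3 = true := by decide +kernel

theorem okt4 : okT cap szAll tp4 = true := by decide +kernel

theorem okt5 : okT cap szAll tp5 = true := by decide +kernel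

theorem okt6 : okT cap szAll tp6 = true := by decide +kernel

theorem cov0 : covB tpAll dpAll 746496 sz0 = true := by decide +kernel

theorem cov1 : covB tpAll dpAll 746496 sz1 = true := by decide +kernel

theorem cov2 : covB tpAll dpAll 746496 sz2 = true := by decide +kernel

theorem cov3 : covB tpAll dpAll 746496 sz3 = true := by decide +kernel

theorem cov4 : covB tpAll dpAll 746496 sz4 = true := by decide +kernel

theorem cov5 : covB tpAll dpAll 746496 sz5 = true := by decide +kernel

theorem cov6 : covB tpAll dpAll 746496 sz6 = true := by decide +kernel

theorem cov7 : covB tpAll dpAll 746496 sz7 = true := by decide +kernel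

theorem cov8 : covB tpAll dpAll 746496 sz8 = true := by decide +kernel

theorem cov9 : covB tpAll dpAll 746496 sz9 = true := by decide +kernel

theorem cov10 : covB tpAll dpAll 746496 sz10 = true := by decide +kernel

theorem hT : ∀ p ∈ tpAll, p.1 ∈ szAll ∧ p.2.1 ∈ szAll ∧ p.2.2.1 ∈ szAll ∧ p.1 + p.2.1 + p.2.2.1 ≤ cap :=
  forall_app (okT_spec cap szAll tp0 okt0) (forall_app (okT_spec cap szAll tp1 okt1) (forall_app (okT_spec cap szAll tp2 okt2) (forall_app (okT_spec cap szAll tp3 okt3) (forall_app (okT_spec cap szAll tp4 okt4) (forall_app (okT_spec cap szAll tp5 okt5) ((okT_spec cap szAll tp6 okt6)))))))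

theorem hcov : ∀ s ∈ szAll, 746496 ≤ useT s tpAll + useD s dpAll :=
  forall_app (covB_spec tpAll dpAll 746496 sz0 cov0) (forall_app (covB_spec tpAll dpAll 746496 sz1 cov1) (forall_app (covB_spec tpAll dpAll 746496 sz2 cov2) (forall_app (covB_spec tpAll dpAll 746496 sz3 cov3) (forall_app (covB_spec tpAll dpAll 746496 sz4 cov4) (forall_app (covB_spec tpAll dpAll 746496 sz5 cov5) (forall_app (covB_spec tpAll dpAll 746496 sz6 cov6) (forall_app (covB_spec tpAll dpAll 746496 sz7 cov7) (forall_app (covB_spec tpAll dpAll 746496 sz8 cov8) (forall_app (covB_spec tpAll dpAll 746496 sz9 cov9) ((covB_spec tpAll dpAll 746496 sz10 cov10)))))))))))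

theorem ubAll : UB cap (szAll : Multiset ℕ) 213 := by
  rw [← sz_eq]; exact ub121

theorem inst644 : ∃ a : List ℚ, IsInstance a ∧ (972115 : ℝ) / 746496 ≤ (OPT a : ℝ) - LP a := by
  obtain ⟨h1, h2, h3⟩ := certificate2 cap szAll 215 213 746496 160271021 tpAll dpAll (by decide +kernel) (by decide +kernel) (by decide +kernel) (by decide +kernel) (by decide +kernel)
    ubAll (by decide +kernel) hT (okD_spec cap szAll dpAll (by decide +kernel)) hcov (by decide +kernel)
  refine ⟨_, h1, ?_⟩
  have h4 : ((215 + 1 : ℕ) : ℝ) ≤ (OPT (toInst cap szAll) : ℝ) := by exact_mod_cast h2
  push_cast at h3 h4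
  linarith

end Vale.Agent.Lib.P302.Inst644
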