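import Vale.Agent.Lib.P302.MaxD

namespace Vale.Agent.Lib.P302.Inst98
open Vale.Agent.Lib.P302

def cap : ℕ := 6293196

def it1 : List ℕ := [2359946, 2359947, 2359948, 2359950, 2359951, 2359952, 2359953, 2359954]

def bn1 : List ℕ := [1573300, 1573302]

theorem bb1 : BB cap (it1 : Multiset ℕ) (bn1 : Multiset ℕ) 1 :=
  BB_of_maxD cap it1 bn1 1 (by decide +kernel)

def it2 : List ℕ := [2359890, 2359891, 2359892, 2359894, 2359895]

def bn2 : List ℕ := [1573412, 1573414, 1573416]

theorem bb2 : BB cap (it2 : Multiset ℕ) (bn2 : Multiset ℕ) 1 :=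
  BB_of_maxD cap it2 bn2 1 (by decide +kernel)

def it3 : List ℕ := 2359858 :: (it2 ++ it1)

def bn3 : List ℕ := bn1 ++ 1573384 :: bn2

theorem bb3 : BB cap (it3 : Multiset ℕ) (bn3 : Multiset ℕ) 4 :=
  BB_nest_list cap 2359889 2359945 1573383 1573411 2359858 2359858 it2 it1 bn1 1573384 bn2 2 1 1 4
    (by decide +kernel) (by decide +kernel) (by decide +kernel) (by decide +kernel) (by decide +kernel) (by decide +kernel) (by decide +kernel)
    (by decide +kernel) (by decide +kernel) (by decide +kernel) (by decide +kernel) (by decide +kernel) (by decide +kernel) (by decide +kernel) bb1 bb2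

def it4 : List ℕ := [2359026, 2359027, 2359028, 2359030, 2359031, 2359032]

def bn4 : List ℕ := [1575140, 1575142]

theorem bb4 : BB cap (it4 : Multiset ℕ) (bn4 : Multiset ℕ) 1 :=
  BB_of_maxD cap it4 bn4 1 (by decide +kernel)

def it5 : List ℕ := [2358986, 2358987, 2358988, 2358990, 2358991]

def bn5 : List ℕ := [1575220, 1575222, 1575224]

theorem bb5 : BB cap (it5 : Multiset ℕ) (bn5 : Multiset ℕ) 1 :=
  BB_of_maxD cap it5 bn5 1 (by decide +kernel)

def it6 : List ℕ := 2358964 :: (it5 ++ it4)

def bn6 : List ℕ := bn4 ++ 1575200 :: bn5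

theorem bb6 : BB cap (it6 : Multiset ℕ) (bn6 : Multiset ℕ) 4 :=
  BB_nest_list cap 2358985 2359025 1575199 1575219 2358964 2358964 it5 it4 bn4 1575200 bn5 2 1 1 4
    (by decide +kernel) (by decide +kernel) (by decide +kernel) (by decide +kernel) (by decide +kernel) (by decide +kernel) (by decide +kernel)
    (by decide +kernel) (by decide +kernel) (by decide +kernel) (by decide +kernel) (by decide +kernel) (by decide +kernel) (by decide +kernel) bb4 bb5

def it7 : List ℕ := 2358474 :: (it6 ++ it3)

def bn7 : List ℕ := bn3 ++ 1574768 :: bn6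

theorem bb7 : BB cap (it7 : Multiset ℕ) (bn7 : Multiset ℕ) 11 :=
  BB_nest_list cap 2358963 2359857 1574767 1575139 2358474 2358474 it6 it3 bn3 1574768 bn6 6 2 4 11
    (by decide +kernel) (by decide +kernel) (by decide +kernel) (by decide +kernel) (by decide +kernel) (by decide +kernel) (by decide +kernel)
    (by decide +kernel) (by decide +kernel) (by decide +kernel) (by decide +kernel) (by decide +kernel) (by decide +kernel) (by decide +kernel) bb3 bb6

def it8 : List ℕ := [2114058, 2114059, 2114060, 2114062, 2114063, 2114064, 2114065, 2114066]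

def bn8 : List ℕ := [2065076, 2065078]

theorem bb8 : BB cap (it8 : Multiset ℕ) (bn8 : Multiset ℕ) 1 :=
  BB_of_maxD cap it8 bn8 1 (by decide +kernel)

def it9 : List ℕ := [2114002, 2114003, 2114004, 2114006, 2114007]

def bn9 : List ℕ := [2065188, 2065190, 2065192]

theorem bb9 : BB cap (it9 : Multiset ℕ) (bn9 : Multiset ℕ) 1 :=
  BB_of_maxD cap it9 bn9 1 (by decide +kernel)

def it10 : List ℕ := 2113970 :: (it9 ++ it8)

def bn10 : List ℕ := bn8 ++ 2065160 :: bn9

theorem bb10 : BB cap (it10 : Multiset ℕ) (bn10 : Multiset ℕ) 4 :=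
  BB_nest_list cap 2114001 2114057 2065159 2065187 2113970 2113970 it9 it8 bn8 2065160 bn9 2 1 1 4
    (by decide +kernel) (by decide +kernel) (by decide +kernel) (by decide +kernel) (by decide +kernel) (by decide +kernel) (by decide +kernel)
    (by decide +kernel) (by decide +kernel) (by decide +kernel) (by decide +kernel) (by decide +kernel) (by decide +kernel) (by decide +kernel) bb8 bb9

def it11 : List ℕ := [2113138, 2113139, 2113140, 2113142, 2113143, 2113144]

def bn11 : List ℕ := [2066916, 2066918]

theorem bb11 : BB cap (it11 : Multiset ℕ) (bn11 : Multiset ℕ) 1 :=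
  BB_of_maxD cap it11 bn11 1 (by decide +kernel)

def it12 : List ℕ := [2113098, 2113099, 2113100, 2113102, 2113103]

def bn12 : List ℕ := [2066996, 2066998, 2067000]

theorem bb12 : BB cap (it12 : Multiset ℕ) (bn12 : Multiset ℕ) 1 :=
  BB_of_maxD cap it12 bn12 1 (by decide +kernel)

def it13 : List ℕ := 2113076 :: (it12 ++ it11)

def bn13 : List ℕ := bn11 ++ 2066976 :: bn12

theorem bb13 : BB cap (it13 : Multiset ℕ) (bn13 : Multiset ℕ) 4 :=
  BB_nest_list cap 2113097 2113137 2066975 2066995 2113076 2113076 it12 it11 bn11 2066976 bn12 2 1 1 4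
    (by decide +kernel) (by decide +kernel) (by decide +kernel) (by decide +kernel) (by decide +kernel) (by decide +kernel) (by decide +kernel)
    (by decide +kernel) (by decide +kernel) (by decide +kernel) (by decide +kernel) (by decide +kernel) (by decide +kernel) (by decide +kernel) bb11 bb12

def it14 : List ℕ := 2112586 :: (it13 ++ it10)

def bn14 : List ℕ := bn10 ++ 2066544 :: bn13

theorem bb14 : BB cap (it14 : Multiset ℕ) (bn14 : Multiset ℕ) 11 :=
  BB_nest_list cap 2113075 2113969 2066543 2066915 2112586 2112586 it13 it10 bn10 2066544 bn13 6 2 4 11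
    (by decide +kernel) (by decide +kernel) (by decide +kernel) (by decide +kernel) (by decide +kernel) (by decide +kernel) (by decide +kernel)
    (by decide +kernel) (by decide +kernel) (by decide +kernel) (by decide +kernel) (by decide +kernel) (by decide +kernel) (by decide +kernel) bb10 bb13

def un15 : List ℕ := [2097694, 2097696, 2097719, 2097723, 2097730, 2097732, 2097735, 2097737, 2097749, 2097750, 2097751, 2097753, 2097754, 2097755]

theorem ub15 : UB cap (un15 : Multiset ℕ) 3 :=
  UB_of_chk cap un15 3 6 (by decide +kernel) (by decide +kernel)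

def un16 : List ℕ := bn14 ++ [2089565, 2089565] ++ un15 ++ it14

theorem ub16 : UB cap (un16 : Multiset ℕ) 17 :=
  UB_nest_list cap 2089564 2097693 2112585 bn14 [2089565, 2089565] un15 it14 13 2 3 17
    (by decide +kernel) (by decide +kernel) (by decide +kernel) (by decide +kernel) (by decide +kernel) (by decide +kernel) (by decide +kernel)
    (by decide +kernel) (by decide +kernel) (by decide +kernel) (by decide +kernel) (by decide +kernel) (by decide +kernel) bb14 ub15

def un17 : List ℕ := bn7 ++ [1966621, 1966621] ++ un16 ++ it7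

theorem ub17 : UB cap (un17 : Multiset ℕ) 31 :=
  UB_nest_list cap 1966620 2065075 2358473 bn7 [1966621, 1966621] un16 it7 13 2 17 31
    (by decide +kernel) (by decide +kernel) (by decide +kernel) (by decide +kernel) (by decide +kernel) (by decide +kernel) (by decide +kernel)
    (by decide +kernel) (by decide +kernel) (by decide +kernel) (by decide +kernel) (by decide +kernel) (by decide +kernel) bb7 ub16

def pats : List (List ℕ × ℕ) :=
  [([1575142, 2358990, 2359031], 288),
   ([1573300, 2359948, 2359948], 576),
   ([1573302, 2359947, 2359947], 864),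
   ([1573414, 2359032, 2359954], 288),
   ([1575224, 2114066, 2359952], 502),
   ([1573384, 2359895, 2359895], 672),
   ([1573416, 2359031, 2359952], 512),
   ([1573384, 2359858, 2359952], 714),
   ([1573412, 2359892, 2359892], 576),
   ([1573302, 2359946, 2359948], 576),
   ([1573412, 2359890, 2359894], 1152),
   ([1573416, 2359858, 2359895], 96),
   ([2065190, 2114002, 2114004], 576),
   ([1575142, 2359026, 2359028], 576),
   ([1573416, 2359858, 2359894], 576),
   ([2097730, 2097730, 2097735], 864),
   ([2065160, 2113970, 2114064], 1056),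
   ([2066976, 2113076, 2113143], 768),
   ([1573302, 2359895, 2359954], 288),
   ([1575222, 2358987, 2358987], 864),
   ([1575140, 2359026, 2359030], 1152),
   ([1575200, 2358964, 2359031], 928),
   ([1574768, 2358474, 2359953], 1280),
   ([2097694, 2097749, 2097753], 1152),
   ([1575140, 2359028, 2359028], 576),
   ([1573300, 2359946, 2359950], 1152),
   ([1575200, 2358964, 2359030], 128),
   ([1574768, 2359032, 2359032], 448),
   ([2065076, 2114058, 2114062], 1152),
   ([1575222, 2114066, 2359950], 288),
   ([2066998, 2113098, 2113100], 576),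
   ([2065190, 2113143, 2114064], 152),
   ([2097719, 2097723, 2097754], 1152),
   ([2097732, 2097732, 2097732], 576),
   ([1573416, 2359032, 2359950], 96),
   ([1575200, 2358990, 2358990], 144),
   ([1575220, 2358986, 2358990], 1152),
   ([1575224, 2358964, 2358991], 672),
   ([1575222, 2358986, 2358988], 576),
   ([1575220, 2358988, 2358988], 576),
   ([1573384, 2359858, 2359950], 192),
   ([2066544, 2112586, 2114065], 1280),
   ([2097723, 2097735, 2097735], 288),
   ([1573416, 2359032, 2359953], 448),
   ([1573414, 2359890, 2359892], 576),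
   ([2067000, 2112586, 2113144], 448),
   ([1575200, 2358991, 2358991], 528),
   ([1575224, 2114066, 2359951], 106),
   ([1575142, 2359027, 2359027], 864),
   ([1573384, 2359858, 2359954], 150),
   ([1966621, 2114066, 2114066], 128),
   ([2097696, 2097750, 2097750], 864),
   ([2065078, 2114059, 2114059], 864),
   ([2097719, 2097737, 2097737], 576),
   ([2089565, 2097754, 2097754], 288),
   ([2067000, 2097755, 2114062], 320),
   ([2097694, 2097751, 2097751], 576),
   ([2065190, 2113144, 2114063], 136),
   ([1966621, 1966621, 2359951], 1622),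
   ([2065190, 2114003, 2114003], 864),
   ([1573414, 2359891, 2359891], 864),
   ([1966621, 2114065, 2114065], 80),
   ([2066918, 2113103, 2113142], 288),
   ([2065076, 2114060, 2114060], 576),
   ([2089565, 2097755, 2097755], 560),
   ([2067000, 2113076, 2113102], 384),
   ([2066544, 2113144, 2113144], 448),
   ([1575224, 2358474, 2359030], 448),
   ([2065192, 2113143, 2114064], 520),
   ([2066996, 2113098, 2113102], 1152),
   ([2066998, 2113076, 2113103], 96),
   ([2066996, 2113100, 2113100], 576),
   ([2066998, 2113099, 2113099], 864),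
   ([2097696, 2097749, 2097751], 576),
   ([2065192, 2113970, 2114007], 672),
   ([2065160, 2114006, 2114006], 288),
   ([2089565, 2089565, 2114063], 1304),
   ([2066916, 2113138, 2113142], 1152),
   ([2065160, 2114007, 2114007], 384),
   ([2065078, 2114058, 2114060], 576),
   ([2066976, 2113103, 2113103], 672),
   ([2066998, 2113076, 2113102], 192),
   ([2065188, 2114002, 2114006], 1152),
   ([2065078, 2114007, 2114065], 288),
   ([2065188, 2114004, 2114004], 576),
   ([2066918, 2113138, 2113140], 576),
   ([2065192, 2113143, 2114063], 288),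
   ([2065192, 2113144, 2114062], 248),
   ([2066916, 2113140, 2113140], 576),
   ([2066918, 2113139, 2113139], 864),
   ([1966621, 2114062, 2114062], 4),
   ([2097696, 2097737, 2097755], 288),
   ([2067000, 2097753, 2114066], 576),
   ([2097723, 2097735, 2097737], 288),
   ([2066976, 2113076, 2113142], 288),
   ([2359954, 2359954], 501)]

theorem inst98 : ∃ a : List ℚ, IsInstance a ∧ (2137 : ℝ) / 1728 ≤ (OPT a : ℝ) - LP a := by
  obtain ⟨h1, h2, h3⟩ := certificate_UB cap un17 33 31 1728 pats (by decide +kernel) (by decide +kernel) (by decide +kernel) (by decide +kernel) ub17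
    (by decide +kernel) (by decide +kernel) (by decide +kernel)
  refine ⟨_, h1, ?_⟩
  have h4 : ((33 + 1 : ℕ) : ℝ) ≤ (OPT (toInst cap un17) : ℝ) := by exact_mod_cast h2
  have h5 : (pats.map (fun p => p.2)).sum = 56615 := by decide +kernel
  rw [h5] at h3
  push_cast at h3 h4
  linarith

end Vale.Agent.Lib.P302.Inst98
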