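import Vale.Agent.Lib.P302.Defs

namespace Vale.Agent.Lib.P302

open Finset

/-- the finitely supported weight function of a list of (configuration, weight) pairs -/
noncomputable def zOf (P : List (Multiset ℚ × ℝ)) : Multiset ℚ →₀ ℝ :=
  (P.map (fun p => Finsupp.single p.1 p.2)).sum

theorem zOf_nil : zOf [] = 0 := rfl

theorem zOf_cons (p : Multiset ℚ × ℝ) (P : List (Multiset ℚ × ℝ)) :
    zOf (p :: P) = Finsupp.single p.1 p.2 + zOf P := by
  simp [zOf]

theorem zOf_nonneg (P : List (Multiset ℚ × ℝ)) (hw : ∀ p ∈ P, 0 ≤ p.2) (c : Multiset ℚ) :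
    0 ≤ zOf P c := by
  induction P with
  | nil => simp [zOf_nil]
  | cons p P ih =>
    rw [zOf_cons, Finsupp.add_apply]
    have h1 : 0 ≤ (Finsupp.single p.1 p.2) c := by
      rw [Finsupp.single_apply]
      split_ifs
      · exact hw p (by simp)
      · exact le_refl _
    have h2 := ih (fun q hq => hw q (by simp [hq]))
    linarith

theorem zOf_support (P : List (Multiset ℚ × ℝ)) (c : Multiset ℚ) (hc : c ∈ (zOf P).support) :
    ∃ p ∈ P, p.1 = c := by
  induction P with
  | nil => simp [zOf_nil] at hc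
  | cons p P ih =>
    rw [zOf_cons] at hc
    have := Finsupp.support_add hc
    rcases Finset.mem_union.1 this with h | h
    · have h' := Finsupp.support_single_subset h
      refine ⟨p, by simp, ?_⟩
      exact (Finset.mem_singleton.1 h').symm
    · obtain ⟨q, hq, hqc⟩ := ih h
      exact ⟨q, by simp [hq], hqc⟩

theorem zOf_sum (P : List (Multiset ℚ × ℝ)) (g : Multiset ℚ → ℝ) :
    (zOf P).sum (fun c w => g c * w) = (P.map (fun p => g p.1 * p.2)).sum := by
  induction P with
  | nil => simp [zOf_nil]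
  | cons p P ih =>
    rw [zOf_cons, Finsupp.sum_add_index' (by intro c; simp) (by intro c x y; ring), ih,
      Finsupp.sum_single_index (by simp)]
    simp

theorem LP_bddBelow (a : List ℚ) :
    BddBelow {v : ℝ | ∃ z, IsFracCover a z ∧ v = z.sum (fun _ w => w)} := by
  refine ⟨0, ?_⟩
  rintro v ⟨z, hz, rfl⟩
  exact Finset.sum_nonneg (fun c _ => hz.1 c)

/-- An explicit finite fractional cover bounds the LP value from above. -/
theorem LP_le_of_list (a : List ℚ) (P : List (Multiset ℚ × ℝ)) (hw : ∀ p ∈ P, 0 ≤ p.2)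
    (hc : ∀ p ∈ P, IsConfig a p.1)
    (hcov : ∀ s ∈ a, (a.count s : ℝ) ≤ (P.map (fun p => (p.1.count s : ℝ) * p.2)).sum) :
    LP a ≤ (P.map (fun p => p.2)).sum := by
  refine csInf_le (LP_bddBelow a) ⟨zOf P, ⟨zOf_nonneg P hw, ?_, ?_⟩, ?_⟩
  · intro c hcs
    obtain ⟨p, hp, rfl⟩ := zOf_support P c hcs
    exact hc p hp
  · intro s hs
    rw [zOf_sum P (fun c => (c.count s : ℝ))]
    exact hcov s hs
  · have := zOf_sum P (fun _ => 1)
    simp only [one_mul] at this
    exact this.symm

end Vale.Agent.Lib.P302
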