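import Vale.Agent.Lib.P302.Cert

/-!
# A brute force bound for small typed instances (problem P302)
-/

namespace Vale.Agent.Lib.P302
open Multiset

/-- all ways of picking one entry of a list, with the remaining entries -/
def pick1 : List ℕ → List (ℕ × List ℕ)
  | [] => []
  | x :: l => (x, l) :: (pick1 l).map (fun p => (p.1, x :: p.2))

theorem pick1_complete : ∀ (l : List ℕ) (a : ℕ) (s : Multiset ℕ), (l : Multiset ℕ) = a ::ₘ s →
    ∃ r, (a, r) ∈ pick1 l ∧ (r : Multiset ℕ) = s := by
  intro l
  induction l with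
  | nil =>
    intro a s h
    have : a ∈ ((([] : List ℕ) : Multiset ℕ)) := by rw [h]; exact mem_cons_self _ _
    simp at this
  | cons x l ih =>
    intro a s h
    rw [← cons_coe] at h
    rcases cons_eq_cons.1 h with ⟨rfl, rfl⟩ | ⟨_, cs, h1, h2⟩
    · exact ⟨l, by simp [pick1], rfl⟩
    · obtain ⟨r, hr1, hr2⟩ := ih a cs h1
      refine ⟨x :: r, ?_, ?_⟩
      · simp only [pick1, List.mem_cons, List.mem_map]
        right
        exact ⟨(a, r), hr1, rfl⟩
      · rw [← cons_coe, hr2, h2]

/-- the largest number of disjoint typed triples (bins processed one after the other) -/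
def maxD (L : ℕ) : List ℕ → List ℕ → ℕ
  | [], _ => 0
  | c :: bins, items =>
    max (maxD L bins items)
      (((pick1 items).flatMap (fun p => (pick1 p.2).map (fun r =>
        if p.1 + r.1 + c ≤ L then maxD L bins r.2 + 1 else 0))).foldr max 0)

theorem le_foldr_max (l : List ℕ) (x : ℕ) (h : x ∈ l) : x ≤ l.foldr max 0 := by
  induction l with
  | nil => simp at h
  | cons y l ih =>
    simp only [List.foldr_cons]
    rcases List.mem_cons.1 h with rfl | h
    · exact le_max_left _ _
    · exact le_trans (ih h) (le_max_right _ _)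

theorem DP_mem_bin (L : ℕ) (s t : Multiset ℕ) (h : DP L s t) :
    ∀ c ∈ t, ∃ a b s' t', s = a ::ₘ b ::ₘ s' ∧ t = c ::ₘ t' ∧ a + b + c ≤ L ∧ DP L s' t' := by
  induction h with
  | zero => intro c hc; simp at hc
  | cons a b c0 s t habc hd ih =>
    intro c hc
    by_cases hct : c ∈ t
    · obtain ⟨a', b', s', t', h1, h2, h3, h4⟩ := ih c hct
      refine ⟨a', b', a ::ₘ b ::ₘ s', c0 ::ₘ t', ?_, ?_, h3, DP.cons a b c0 s' t' habc h4⟩
      · rw [h1]
        simp only [← singleton_add]
        abel
      · rw [h2]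
        exact cons_swap _ _ _
    · rcases mem_cons.1 hc with rfl | hc
      · exact ⟨a, b, s, t, rfl, rfl, habc, hd⟩
      · exact absurd hc hct

theorem maxD_complete (L : ℕ) : ∀ (bins items : List ℕ) (s t : Multiset ℕ), DP L s t →
    s ≤ (items : Multiset ℕ) → t ≤ (bins : Multiset ℕ) → card t ≤ maxD L bins items := by
  intro bins
  induction bins with
  | nil =>
    intro items s t _ _ ht
    have : t = 0 := by simpa using ht
    simp [this]
  | cons c bins ih =>
    intro items s t hd hs ht
    rw [← cons_coe] at ht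
    unfold maxD
    by_cases hc : c ∈ t
    · obtain ⟨a, b, s', t', h1, h2, h3, h4⟩ := DP_mem_bin L s t hd c hc
      subst h1 h2
      have ht' : t' ≤ (bins : Multiset ℕ) := (cons_le_cons_iff c).1 ht
      obtain ⟨u, hu⟩ := Multiset.le_iff_exists_add.1 hs
      obtain ⟨r1, hr1, hr1'⟩ := pick1_complete items a (b ::ₘ (s' + u)) (by rw [hu]; simp)
      obtain ⟨r2, hr2, hr2'⟩ := pick1_complete r1 b (s' + u) hr1'
      have hih := ih r2 s' t' h4 (by rw [hr2']; exact Multiset.le_add_right _ _) ht'
      refine le_trans ?_ (le_max_right _ _)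
      refine le_trans ?_ (le_foldr_max _ (maxD L bins r2 + 1) ?_)
      · rw [card_cons]; omega
      · rw [List.mem_flatMap]
        refine ⟨(a, r1), hr1, ?_⟩
        rw [List.mem_map]
        exact ⟨(b, r2), hr2, by simp [h3]⟩
    · exact le_trans (ih items s t hd hs ((le_cons_of_notMem hc).1 ht)) (le_max_left _ _)

theorem BB_of_maxD (L : ℕ) (lA lC : List ℕ) (N : ℕ) (h : maxD L lC lA ≤ N) :
    BB L (lA : Multiset ℕ) (lC : Multiset ℕ) N := by
  intro s hs t ht hd
  exact le_trans (maxD_complete L lC lA s t hd hs ht) h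

end Vale.Agent.Lib.P302
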