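import Vale.Agent.Lib.P302.LPBound

namespace Vale.Agent.Lib.P302

/-- the size `s / L` -/
def sc (L s : ℕ) : ℚ := (s : ℚ) / (L : ℚ)

/-- the instance with integer sizes `sizes` and integer bin capacity `L`, normalised -/
def toInst (L : ℕ) (sizes : List ℕ) : List ℚ := sizes.map (sc L)

theorem sc_injective (L : ℕ) (hL : 0 < L) : Function.Injective (sc L) := by
  intro x y hxy
  have hL' : (L : ℚ) ≠ 0 := by positivity
  have : (x : ℚ) = y := by
    have h := hxy
    simp only [sc] at h
    field_simp at h
    exact h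
  exact_mod_cast this

theorem toInst_isInstance (L : ℕ) (sizes : List ℕ) (h0 : ∀ s ∈ sizes, 0 < s)
    (h1 : ∀ s ∈ sizes, s ≤ L) : IsInstance (toInst L sizes) := by
  intro x hx
  obtain ⟨s, hs, rfl⟩ := List.mem_map.1 hx
  have hs0 := h0 s hs
  have hs1 := h1 s hs
  have hL : (0 : ℚ) < L := by exact_mod_cast lt_of_lt_of_le hs0 hs1
  constructor
  · have : (0 : ℚ) < s := by exact_mod_cast hs0
    unfold sc
    positivity
  · unfold sc
    rw [div_le_one hL]
    exact_mod_cast hs1

theorem sum_map_sc (L : ℕ) (l : List ℕ) :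
    (l.map (sc L)).sum = (l.sum : ℚ) / (L : ℚ) := by
  induction l with
  | nil => simp
  | cons x l ih => simp [ih, add_div, sc]

theorem LP_le_nat (L : ℕ) (hL : 0 < L) (sizes : List ℕ) (P : List (List ℕ × ℕ)) (q : ℕ)
    (hq : 0 < q)
    (hc : ∀ p ∈ P, (∀ s ∈ p.1, s ∈ sizes) ∧ p.1.sum ≤ L)
    (hcov : ∀ s ∈ sizes, sizes.count s * q ≤ (P.map (fun p => p.1.count s * p.2)).sum) :
    LP (toInst L sizes) ≤ (((P.map (fun p => p.2)).sum : ℕ) : ℝ) / (q : ℝ) := by
  have hq' : (0 : ℝ) < q := by exact_mod_cast hq
  have hLq : (0 : ℚ) < L := by exact_mod_cast hL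
  have key := LP_le_of_list (toInst L sizes)
    (P.map (fun p => (((p.1.map (sc L) : List ℚ) : Multiset ℚ), (p.2 : ℝ) / (q : ℝ)))) ?_ ?_ ?_
  · refine le_trans key (le_of_eq ?_)
    rw [List.map_map]
    clear key hc hcov
    induction P with
    | nil => simp
    | cons p P ih =>
      simp only [List.map_cons, List.sum_cons, Function.comp] at ih ⊢
      rw [ih]
      push_cast
      ring
  · intro p hp
    obtain ⟨p0, _, rfl⟩ := List.mem_map.1 hp
    positivity
  · intro p hp
    obtain ⟨p0, hp0, rfl⟩ := List.mem_map.1 hp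
    obtain ⟨h1, h2⟩ := hc p0 hp0
    constructor
    · intro s hs
      simp only [Multiset.mem_coe] at hs
      obtain ⟨s0, hs0, rfl⟩ := List.mem_map.1 hs
      exact List.mem_map.2 ⟨s0, h1 s0 hs0, rfl⟩
    · simp only [Multiset.sum_coe]
      rw [sum_map_sc, div_le_one hLq]
      exact_mod_cast h2
  · intro x hx
    obtain ⟨s, hs, rfl⟩ := List.mem_map.1 hx
    have h := hcov s hs
    have hcnt : (toInst L sizes).count (sc L s) = sizes.count s :=
      List.count_map_of_injective sizes _ (sc_injective L hL) s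
    rw [hcnt, List.map_map]
    have hsum : (List.map ((fun p : Multiset ℚ × ℝ =>
        ((Multiset.count (sc L s) p.1 : ℕ) : ℝ) * p.2) ∘
        fun p : List ℕ × ℕ => (((p.1.map (sc L) : List ℚ) : Multiset ℚ),
          (p.2 : ℝ) / (q : ℝ))) P).sum
        = (((P.map (fun p => p.1.count s * p.2)).sum : ℕ) : ℝ) / (q : ℝ) := by
      clear hc hcov h
      induction P with
      | nil => simp
      | cons p P ih =>
        simp only [List.map_cons, List.sum_cons, Function.comp] at ih ⊢
        rw [ih]
        have : Multiset.count (sc L s)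
            ((p.1.map (sc L) : List ℚ) : Multiset ℚ) = p.1.count s := by
          rw [Multiset.coe_count]
          exact List.count_map_of_injective p.1 _ (sc_injective L hL) s
        rw [this]
        push_cast
        ring
    rw [hsum, le_div_iff₀ hq']
    exact_mod_cast h

end Vale.Agent.Lib.P302
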