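import Vale.Agent.Lib.P302.Triples

/-!
# Counting lemmas for nested instances (problem P302)

`UB L M N`   : the multiset `M` of sizes contains at most `N` disjoint triples of size `≤ L`.
`BB L A C N` : at most `N` disjoint typed triples (two items of `A`, one of `C`) of size `≤ L`.
-/

namespace Vale.Agent.Lib.P302
open Multiset

/-- at most `N` disjoint triples of total size at most `L` -/
def UB (L : ℕ) (M : Multiset ℕ) (N : ℕ) : Prop := ∀ s ≤ M, TP L s → card s ≤ 3 * N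

/-- `DP L s t`: the items `s` are split in pairs, each pair matched with one element of `t`,
every such typed triple of total size at most `L`. -/
inductive DP (L : ℕ) : Multiset ℕ → Multiset ℕ → Prop
  | zero : DP L 0 0
  | cons (a b c : ℕ) (s t : Multiset ℕ) :
      a + b + c ≤ L → DP L s t → DP L (a ::ₘ b ::ₘ s) (c ::ₘ t)

/-- at most `N` disjoint typed triples -/
def BB (L : ℕ) (A C : Multiset ℕ) (N : ℕ) : Prop :=
  ∀ s ≤ A, ∀ t ≤ C, DP L s t → card t ≤ N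

theorem DP_TP (L : ℕ) (s t : Multiset ℕ) (h : DP L s t) : TP L (s + t) ∧ card (s + t) = 3 * card t := by
  induction h with
  | zero => exact ⟨by simpa using TP.zero, by simp⟩
  | cons a b c s t habc _ ih =>
    constructor
    · have : a ::ₘ b ::ₘ s + c ::ₘ t = a ::ₘ b ::ₘ c ::ₘ (s + t) := by
        simp only [← singleton_add]
        abel
      rw [this]
      exact TP.cons a b c _ habc ih.1
    · have := ih.2
      simp only [card_add, card_cons] at this ⊢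
      omega

theorem BB_of_UB (L : ℕ) (A C : Multiset ℕ) (N : ℕ) (h : UB L (A + C) N) : BB L A C N := by
  intro s hs t ht hd
  obtain ⟨h1, h2⟩ := DP_TP L s t hd
  have := h (s + t) (add_le_add hs ht) h1
  omega

theorem UB_of_chk (L : ℕ) (l : List ℕ) (N fuel : ℕ) (hs : l.Pairwise (· ≤ ·))
    (hchk : chk L fuel (l.take (3 * (N + 1))).reverse = false) : UB L (l : Multiset ℕ) N := by
  intro s hle hTP
  by_contra hc
  obtain ⟨u, hu⟩ := TP_card L s hTP
  obtain ⟨s', h1, h2, h3⟩ := TP_sub L s hTP (N + 1) (by omega)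
  have h5 := TP_take L l hs s' (le_trans h1 hle) h2
  rw [h3] at h5
  have h6 := chk_complete L fuel (l.take (3 * (N + 1))).reverse (by rw [coe_reverse]; exact h5)
  rw [h6] at hchk
  exact Bool.noConfusion hchk

section untyped

variable (L c1 c2 c3 : ℕ)

/-- the book-keeping of a family of disjoint triples, by the classes
`C : y ≤ c1`, `H : c1 < y ≤ c2`, `S : c2 < y ≤ c3`, `A : c3 < y` -/
def Ledger (s : Multiset ℕ) : Prop :=
  ∃ (x v R1 R2 eC eH eS k2 sT : ℕ) (pa pc ps : Multiset ℕ),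
    DP L pa pc ∧ card pc = x ∧ TP L ps ∧ card ps = 3 * v ∧
    pa ≤ s ∧ (∀ y ∈ pa, c3 < y) ∧ pc ≤ s ∧ (∀ y ∈ pc, y ≤ c1) ∧
    ps ≤ s ∧ (∀ y ∈ ps, c2 < y ∧ y ≤ c3) ∧
    countP (fun y => y ≤ c1) s = x + R1 + eC ∧
    countP (fun y => c1 < y ∧ y ≤ c2) s = R2 + k2 + eH ∧
    countP (fun y => c2 < y ∧ y ≤ c3) s = 3 * v + eS + sT ∧
    2 * R2 ≤ sT + 2 * k2 ∧ R1 ≤ eC + eH + eS ∧ card s = 3 * (x + v + R1 + R2)

def iC (y : ℕ) : ℕ := if y ≤ c1 then 1 else 0
def iH (y : ℕ) : ℕ := if c1 < y ∧ y ≤ c2 then 1 else 0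
def iS (y : ℕ) : ℕ := if c2 < y ∧ y ≤ c3 then 1 else 0

theorem cls (h12 : c1 ≤ c2) (h23 : c2 ≤ c3) (y : ℕ) :
    (y ≤ c1 ∧ iC c1 y = 1 ∧ iH c1 c2 y = 0 ∧ iS c2 c3 y = 0) ∨
    (c1 < y ∧ y ≤ c2 ∧ iC c1 y = 0 ∧ iH c1 c2 y = 1 ∧ iS c2 c3 y = 0) ∨
    (c2 < y ∧ y ≤ c3 ∧ iC c1 y = 0 ∧ iH c1 c2 y = 0 ∧ iS c2 c3 y = 1) ∨
    (c3 < y ∧ iC c1 y = 0 ∧ iH c1 c2 y = 0 ∧ iS c2 c3 y = 0) := by
  unfold iC iH iS
  split_ifs <;> omega

theorem countP3 (p : ℕ → Prop) [DecidablePred p] (a b c : ℕ) (s : Multiset ℕ) :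
    countP p (a ::ₘ b ::ₘ c ::ₘ s) = countP p s + ((if p a then 1 else 0) + (if p b then 1 else 0)
      + (if p c then 1 else 0)) := by
  rw [countP_cons, countP_cons, countP_cons]
  omega

theorem le_cons3 (a b c : ℕ) (s : Multiset ℕ) : s ≤ a ::ₘ b ::ₘ c ::ₘ s :=
  le_trans (le_cons_self _ _) (le_trans (le_cons_self _ _) (le_cons_self _ _))

theorem step_gen (a b c : ℕ) (s : Multiset ℕ) (led : Ledger L c1 c2 c3 s)
    (hcond : (1 ≤ iC c1 a + iC c1 b + iC c1 c ∧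
        2 ≤ (iC c1 a + iC c1 b + iC c1 c) + (iH c1 c2 a + iH c1 c2 b + iH c1 c2 c)
          + (iS c2 c3 a + iS c2 c3 b + iS c2 c3 c)) ∨
      (iC c1 a + iC c1 b + iC c1 c = 0 ∧ 1 ≤ iH c1 c2 a + iH c1 c2 b + iH c1 c2 c ∧
        4 ≤ (iS c2 c3 a + iS c2 c3 b + iS c2 c3 c)
          + 2 * (iH c1 c2 a + iH c1 c2 b + iH c1 c2 c))) :
    Ledger L c1 c2 c3 (a ::ₘ b ::ₘ c ::ₘ s) := by
  obtain ⟨x, v, R1, R2, eC, eH, eS, k2, sT, pa, pc, ps, g1, g2, g3, g4, g5, g6, g7, g8, g9, g10,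
    g11, g12, g13, g14, g15, g16⟩ := led
  have hC := countP3 (fun y => y ≤ c1) a b c s
  have hH := countP3 (fun y => c1 < y ∧ y ≤ c2) a b c s
  have hS := countP3 (fun y => c2 < y ∧ y ≤ c3) a b c s
  have hle := le_cons3 a b c s
  rcases hcond with ⟨k1, k3⟩ | ⟨k1, k3, k4⟩
  · refine ⟨x, v, R1 + 1, R2, eC + (iC c1 a + iC c1 b + iC c1 c - 1),
      eH + (iH c1 c2 a + iH c1 c2 b + iH c1 c2 c), eS + (iS c2 c3 a + iS c2 c3 b + iS c2 c3 c),
      k2, sT, pa, pc, ps, g1, g2, g3, g4, le_trans g5 hle, g6, le_trans g7 hle, g8,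
      le_trans g9 hle, g10, ?_, ?_, ?_, g14, ?_, ?_⟩
    · rw [hC, g11]; unfold iC at *; omega
    · rw [hH, g12]; unfold iH at *; omega
    · rw [hS, g13]; unfold iS at *; omega
    · omega
    · simp only [card_cons]; omega
  · refine ⟨x, v, R1, R2 + 1, eC, eH, eS,
      k2 + (iH c1 c2 a + iH c1 c2 b + iH c1 c2 c - 1),
      sT + (iS c2 c3 a + iS c2 c3 b + iS c2 c3 c), pa, pc, ps, g1, g2, g3, g4,
      le_trans g5 hle, g6, le_trans g7 hle, g8, le_trans g9 hle, g10, ?_, ?_, ?_, ?_, g15, ?_⟩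
    · rw [hC, g11]; unfold iC at *; omega
    · rw [hH, g12]; unfold iH at *; omega
    · rw [hS, g13]; unfold iS at *; omega
    · omega
    · simp only [card_cons]; omega

theorem step_CAA (h12 : c1 ≤ c2) (h23 : c2 ≤ c3) (a b c : ℕ) (s : Multiset ℕ)
    (led : Ledger L c1 c2 c3 s)
    (ha : c3 < a) (hb : c3 < b) (hc : c ≤ c1) (habc : a + b + c ≤ L) :
    Ledger L c1 c2 c3 (a ::ₘ b ::ₘ c ::ₘ s) := by
  obtain ⟨x, v, R1, R2, eC, eH, eS, k2, sT, pa, pc, ps, g1, g2, g3, g4, g5, g6, g7, g8, g9, g10,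
    g11, g12, g13, g14, g15, g16⟩ := led
  have hC := countP3 (fun y => y ≤ c1) a b c s
  have hH := countP3 (fun y => c1 < y ∧ y ≤ c2) a b c s
  have hS := countP3 (fun y => c2 < y ∧ y ≤ c3) a b c s
  have hle := le_cons3 a b c s
  refine ⟨x + 1, v, R1, R2, eC, eH, eS, k2, sT, a ::ₘ b ::ₘ pa, c ::ₘ pc, ps,
    DP.cons a b c pa pc habc g1, by simp [g2], g3, g4, ?_, ?_, ?_, ?_, le_trans g9 hle, g10,
    ?_, ?_, ?_, g14, g15, ?_⟩
  · exact cons_le_cons a (cons_le_cons b (le_trans g5 (le_cons_self _ _)))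
  · intro y hy
    simp only [mem_cons] at hy
    rcases hy with rfl | rfl | hy
    · exact ha
    · exact hb
    · exact g6 y hy
  · have : a ::ₘ b ::ₘ c ::ₘ s = c ::ₘ a ::ₘ b ::ₘ s := by
      simp only [← singleton_add]
      abel
    rw [this]
    exact cons_le_cons c (le_trans g7 (le_trans (le_cons_self _ _) (le_cons_self _ _)))
  · intro y hy
    simp only [mem_cons] at hy
    rcases hy with rfl | hy
    · exact hc
    · exact g8 y hy
  · rw [hC, g11, if_neg (by omega), if_neg (by omega), if_pos hc]; omega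
  · rw [hH, g12, if_neg (by omega), if_neg (by omega), if_neg (by omega)]; omega
  · rw [hS, g13, if_neg (by omega), if_neg (by omega), if_neg (by omega)]; omega
  · simp only [card_cons]; omega

theorem step_SSS (h12 : c1 ≤ c2) (a b c : ℕ) (s : Multiset ℕ)
    (led : Ledger L c1 c2 c3 s)
    (ha : c2 < a ∧ a ≤ c3) (hb : c2 < b ∧ b ≤ c3) (hc : c2 < c ∧ c ≤ c3) (habc : a + b + c ≤ L) :
    Ledger L c1 c2 c3 (a ::ₘ b ::ₘ c ::ₘ s) := by
  obtain ⟨x, v, R1, R2, eC, eH, eS, k2, sT, pa, pc, ps, g1, g2, g3, g4, g5, g6, g7, g8, g9, g10,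
    g11, g12, g13, g14, g15, g16⟩ := led
  have hC := countP3 (fun y => y ≤ c1) a b c s
  have hH := countP3 (fun y => c1 < y ∧ y ≤ c2) a b c s
  have hS := countP3 (fun y => c2 < y ∧ y ≤ c3) a b c s
  have hle := le_cons3 a b c s
  refine ⟨x, v + 1, R1, R2, eC, eH, eS, k2, sT, pa, pc, a ::ₘ b ::ₘ c ::ₘ ps,
    g1, g2, TP.cons a b c ps habc g3, by simp only [card_cons]; omega, le_trans g5 hle, g6,
    le_trans g7 hle, g8, ?_, ?_, ?_, ?_, ?_, g14, g15, ?_⟩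
  · exact cons_le_cons a (cons_le_cons b (cons_le_cons c g9))
  · intro y hy
    simp only [mem_cons] at hy
    rcases hy with rfl | rfl | rfl | hy
    · exact ha
    · exact hb
    · exact hc
    · exact g10 y hy
  · rw [hC, g11, if_neg (by omega), if_neg (by omega), if_neg (by omega)]; omega
  · rw [hH, g12, if_neg (by omega), if_neg (by omega), if_neg (by omega)]; omega
  · rw [hS, g13, if_pos ha, if_pos hb, if_pos hc]; omega
  · simp only [card_cons]; omega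

theorem ledger (h12 : c1 ≤ c2) (h23 : c2 ≤ c3)
    (h1 : L < 2 * (c3 + 1) + (c1 + 1)) (h2 : L < (c3 + 1) + (c1 + 1) + (c2 + 1))
    (s : Multiset ℕ) (h : TP L s) : Ledger L c1 c2 c3 s := by
  induction h with
  | zero =>
    exact ⟨0, 0, 0, 0, 0, 0, 0, 0, 0, 0, 0, 0, DP.zero, by simp, TP.zero, by simp, le_refl _,
      by simp, le_refl _, by simp, le_refl _, by simp, by simp, by simp, by simp, by simp,
      by simp, by simp⟩
  | cons a b c s habc _ ih =>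
    by_cases t1 : c3 < a ∧ c3 < b ∧ c ≤ c1
    · exact step_CAA L c1 c2 c3 h12 h23 a b c s ih t1.1 t1.2.1 t1.2.2 habc
    by_cases t2 : c3 < a ∧ b ≤ c1 ∧ c3 < c
    · have : a ::ₘ b ::ₘ c ::ₘ s = a ::ₘ c ::ₘ b ::ₘ s := by
        simp only [← singleton_add]
        abel
      rw [this]
      exact step_CAA L c1 c2 c3 h12 h23 a c b s ih t2.1 t2.2.2 t2.2.1 (by omega)
    by_cases t3 : a ≤ c1 ∧ c3 < b ∧ c3 < c
    · have : a ::ₘ b ::ₘ c ::ₘ s = b ::ₘ c ::ₘ a ::ₘ s := by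
        simp only [← singleton_add]
        abel
      rw [this]
      exact step_CAA L c1 c2 c3 h12 h23 b c a s ih t3.2.1 t3.2.2 t3.1 (by omega)
    by_cases t4 : (c2 < a ∧ a ≤ c3) ∧ (c2 < b ∧ b ≤ c3) ∧ (c2 < c ∧ c ≤ c3)
    · exact step_SSS L c1 c2 c3 h12 a b c s ih t4.1 t4.2.1 t4.2.2 habc
    apply step_gen L c1 c2 c3 a b c s ih
    rcases cls c1 c2 c3 h12 h23 a with ⟨p1, p2, p3, p4⟩ | ⟨p0, p1, p2, p3, p4⟩ |
        ⟨p0, p1, p2, p3, p4⟩ | ⟨p1, p2, p3, p4⟩ <;>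
      rcases cls c1 c2 c3 h12 h23 b with ⟨q1, q2, q3, q4⟩ | ⟨q0, q1, q2, q3, q4⟩ |
        ⟨q0, q1, q2, q3, q4⟩ | ⟨q1, q2, q3, q4⟩ <;>
      rcases cls c1 c2 c3 h12 h23 c with ⟨r1, r2, r3, r4⟩ | ⟨r0, r1, r2, r3, r4⟩ |
        ⟨r0, r1, r2, r3, r4⟩ | ⟨r1, r2, r3, r4⟩ <;>
      rw [p2, p3, p4, q2, q3, q4, r2, r3, r4] <;> omega

theorem filter_four (p : ℕ → Prop) [DecidablePred p] (X1 X2 X3 Y : Multiset ℕ)
    (h1 : ∀ y ∈ X1, ¬ p y) (h2 : ∀ y ∈ X2, ¬ p y) (h3 : ∀ y ∈ X3, ¬ p y) (hY : ∀ y ∈ Y, p y) :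
    filter p X1 = 0 ∧ filter p X2 = 0 ∧ filter p X3 = 0 ∧ filter p Y = Y :=
  ⟨filter_eq_nil.2 h1, filter_eq_nil.2 h2, filter_eq_nil.2 h3, filter_eq_self.2 hY⟩

/-- **Nesting lemma (untyped).**  Items of four classes: `Cs` (very small sizes), `Hs` (at most
two), `Ss` (the inner instance), `As` (large).  If at most `q - g` disjoint typed triples
`(A, A, C)` fit, the inner instance has at most `τ0` disjoint triples and at most
`3 τ0 + 3 + g` items, then the whole instance has at most `q + τ0 + 1` disjoint triples. -/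
theorem UB_nest (h12 : c1 ≤ c2) (h23 : c2 ≤ c3)
    (h1 : L < 2 * (c3 + 1) + (c1 + 1)) (h2 : L < (c3 + 1) + (c1 + 1) + (c2 + 1))
    (Cs Hs Ss As : Multiset ℕ) (q g τ0 : ℕ)
    (hC : ∀ y ∈ Cs, y ≤ c1) (hH : ∀ y ∈ Hs, c1 < y ∧ y ≤ c2)
    (hS : ∀ y ∈ Ss, c2 < y ∧ y ≤ c3) (hA : ∀ y ∈ As, c3 < y)
    (hq : card Cs = q) (hh : card Hs ≤ 2) (hn : card Ss ≤ 3 * τ0 + 3 + g) (hg : g ≤ q)
    (hB : BB L As Cs (q - g)) (hU : UB L Ss τ0) :
    UB L (Cs + Hs + Ss + As) (q + τ0 + 1) := by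
  intro s hs hTP
  obtain ⟨x, v, R1, R2, eC, eH, eS, k2, sT, pa, pc, ps, g1, g2, g3, g4, g5, g6, g7, g8, g9, g10,
    g11, g12, g13, g14, g15, g16⟩ := ledger L c1 c2 c3 h12 h23 h1 h2 s hTP
  -- the class parts of the whole instance
  have fA : filter (fun y => c3 < y) (Cs + Hs + Ss + As) = As := by
    obtain ⟨e1, e2, e3, e4⟩ := filter_four (fun y => c3 < y) Cs Hs Ss As
      (fun y hy => by have := hC y hy; omega) (fun y hy => by have := hH y hy; omega)
      (fun y hy => by have := hS y hy; omega) hA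
    rw [filter_add, filter_add, filter_add, e1, e2, e3, e4]; simp
  have fC : filter (fun y => y ≤ c1) (Cs + Hs + Ss + As) = Cs := by
    obtain ⟨e1, e2, e3, e4⟩ := filter_four (fun y => y ≤ c1) Hs Ss As Cs
      (fun y hy => by have := hH y hy; omega) (fun y hy => by have := hS y hy; omega)
      (fun y hy => by have := hA y hy; omega) hC
    rw [filter_add, filter_add, filter_add, e1, e2, e3, e4]; simp
  have fS : filter (fun y => c2 < y ∧ y ≤ c3) (Cs + Hs + Ss + As) = Ss := by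
    obtain ⟨e1, e2, e3, e4⟩ := filter_four (fun y => c2 < y ∧ y ≤ c3) Cs Hs As Ss
      (fun y hy => by have := hC y hy; omega) (fun y hy => by have := hH y hy; omega)
      (fun y hy => by have := hA y hy; omega) hS
    rw [filter_add, filter_add, filter_add, e1, e2, e3, e4]; simp
  have fH : filter (fun y => c1 < y ∧ y ≤ c2) (Cs + Hs + Ss + As) = Hs := by
    obtain ⟨e1, e2, e3, e4⟩ := filter_four (fun y => c1 < y ∧ y ≤ c2) Cs Ss As Hs
      (fun y hy => by have := hC y hy; omega) (fun y hy => by have := hS y hy; omega)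
      (fun y hy => by have := hA y hy; omega) hH
    rw [filter_add, filter_add, filter_add, e1, e2, e3, e4]; simp
  have pa_le : pa ≤ As := by
    rw [← fA]; exact le_filter.2 ⟨le_trans g5 hs, g6⟩
  have pc_le : pc ≤ Cs := by
    rw [← fC]; exact le_filter.2 ⟨le_trans g7 hs, g8⟩
  have ps_le : ps ≤ Ss := by
    rw [← fS]; exact le_filter.2 ⟨le_trans g9 hs, g10⟩
  have b1 := hB pa pa_le pc pc_le g1
  have b2 := hU ps ps_le g3
  have nC : countP (fun y => y ≤ c1) s ≤ q := by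
    have := countP_le_of_le (fun y => y ≤ c1) hs
    rw [countP_eq_card_filter (fun y => y ≤ c1) (Cs + Hs + Ss + As), fC, hq] at this
    exact this
  have nH : countP (fun y => c1 < y ∧ y ≤ c2) s ≤ 2 := by
    have := countP_le_of_le (fun y => c1 < y ∧ y ≤ c2) hs
    rw [countP_eq_card_filter (fun y => c1 < y ∧ y ≤ c2) (Cs + Hs + Ss + As), fH] at this
    omega
  have nS : countP (fun y => c2 < y ∧ y ≤ c3) s ≤ 3 * τ0 + 3 + g := by
    have := countP_le_of_le (fun y => c2 < y ∧ y ≤ c3) hs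
    rw [countP_eq_card_filter (fun y => c2 < y ∧ y ≤ c3) (Cs + Hs + Ss + As), fS] at this
    omega
  rw [g16]
  omega

end untyped

end Vale.Agent.Lib.P302
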