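import Vale.Agent.Lib.P302.Nest

/-!
# The typed nesting lemma (pairs of items in bins), problem P302
-/

namespace Vale.Agent.Lib.P302
open Multiset

section typed

variable (L d1 d2 e1 e2 : ℕ)

/-- book-keeping for a family of disjoint typed triples.  Item classes:
`HA : y ≤ d1`, inner `d1 < y ≤ d2`, shell `d2 < y`; bin classes: shell `z ≤ e1`,
`HC : e1 < z ≤ e2`, inner `e2 < z`. -/
def LedgerT (s t : Multiset ℕ) : Prop :=
  ∃ (x1 R1 eH1 eS1 NH hHC sHC x0 R0 hR0 sR0 : ℕ) (pa1 pc1 pa0 pc0 : Multiset ℕ),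
    DP L pa1 pc1 ∧ card pc1 = x1 ∧ DP L pa0 pc0 ∧ card pc0 = x0 ∧
    pa1 ≤ s ∧ (∀ y ∈ pa1, d2 < y) ∧ pc1 ≤ t ∧ (∀ z ∈ pc1, z ≤ e1) ∧
    pa0 ≤ s ∧ (∀ y ∈ pa0, d1 < y ∧ y ≤ d2) ∧ pc0 ≤ t ∧ (∀ z ∈ pc0, e2 < z) ∧
    countP (fun z => z ≤ e1) t = x1 + R1 ∧
    countP (fun z => e1 < z ∧ z ≤ e2) t = NH ∧
    card t = x1 + R1 + NH + x0 + R0 ∧
    countP (fun y => y ≤ d1) s = eH1 + hHC + hR0 ∧
    countP (fun y => d1 < y ∧ y ≤ d2) s = eS1 + sHC + 2 * x0 + sR0 ∧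
    R1 ≤ eH1 + eS1 ∧ 2 * NH ≤ sHC + 2 * hHC ∧ R0 ≤ hR0 ∧ 3 * R0 ≤ sR0 + 2 * hR0

theorem countP2 (p : ℕ → Prop) [DecidablePred p] (a b : ℕ) (s : Multiset ℕ) :
    countP p (a ::ₘ b ::ₘ s) = countP p s + ((if p a then 1 else 0) + (if p b then 1 else 0)) := by
  rw [countP_cons, countP_cons]
  omega

theorem le_cons2 (a b : ℕ) (s : Multiset ℕ) : s ≤ a ::ₘ b ::ₘ s :=
  le_trans (le_cons_self _ _) (le_cons_self _ _)

theorem stepT_gen (h12 : d1 ≤ d2) (g12 : e1 ≤ e2) (a b c : ℕ) (s t : Multiset ℕ)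
    (led : LedgerT L d1 d2 e1 e2 s t)
    (hcond : (c ≤ e1 ∧ (a ≤ d2 ∨ b ≤ d2)) ∨
      ((e1 < c ∧ c ≤ e2) ∧ ((a ≤ d1 ∨ b ≤ d1) ∨ (a ≤ d2 ∧ b ≤ d2))) ∨
      (e2 < c ∧ ((a ≤ d1 ∧ b ≤ d2) ∨ (a ≤ d2 ∧ b ≤ d1)))) :
    LedgerT L d1 d2 e1 e2 (a ::ₘ b ::ₘ s) (c ::ₘ t) := by
  obtain ⟨x1, R1, eH1, eS1, NH, hHC, sHC, x0, R0, hR0, sR0, pa1, pc1, pa0, pc0, g1, g2, g3, g4,
    g5, g6, g7, g8, g9, g10, g11, g12', g13, g14, g15, g16, g17, g18, g19, g20, g21⟩ := led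
  have hH := countP2 (fun y => y ≤ d1) a b s
  have hS := countP2 (fun y => d1 < y ∧ y ≤ d2) a b s
  have hB1 := countP_cons (fun z => z ≤ e1) c t
  have hB2 := countP_cons (fun z => e1 < z ∧ z ≤ e2) c t
  have hle := le_cons2 a b s
  have hlt := le_cons_self t c
  set jH : ℕ := (if a ≤ d1 then 1 else 0) + (if b ≤ d1 then 1 else 0) with hjH
  set jS : ℕ := (if d1 < a ∧ a ≤ d2 then 1 else 0) + (if d1 < b ∧ b ≤ d2 then 1 else 0) with hjS
  rcases hcond with ⟨k1, k2⟩ | ⟨k1, k2⟩ | ⟨k1, k2⟩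
  · have hj : 1 ≤ jH + jS := by
      rw [hjH, hjS]; split_ifs <;> omega
    refine ⟨x1, R1 + 1, eH1 + jH, eS1 + jS, NH, hHC, sHC, x0, R0, hR0, sR0, pa1, pc1, pa0, pc0,
      g1, g2, g3, g4, le_trans g5 hle, g6, le_trans g7 hlt, g8, le_trans g9 hle, g10,
      le_trans g11 hlt, g12', ?_, ?_, ?_, ?_, ?_, ?_, g19, g20, g21⟩
    · rw [hB1, g13, if_pos k1]; omega
    · rw [hB2, g14, if_neg (by omega)]; omega
    · rw [card_cons, g15]; omega
    · rw [hH, g16]; omega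
    · rw [hS, g17]; omega
    · omega
  · have hj : 2 ≤ jS + 2 * jH := by
      rw [hjH, hjS]; split_ifs <;> omega
    refine ⟨x1, R1, eH1, eS1, NH + 1, hHC + jH, sHC + jS, x0, R0, hR0, sR0, pa1, pc1, pa0, pc0,
      g1, g2, g3, g4, le_trans g5 hle, g6, le_trans g7 hlt, g8, le_trans g9 hle, g10,
      le_trans g11 hlt, g12', ?_, ?_, ?_, ?_, ?_, g18, ?_, g20, g21⟩
    · rw [hB1, g13, if_neg (by omega)]; omega
    · rw [hB2, g14, if_pos k1]
    · rw [card_cons, g15]; omega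
    · rw [hH, g16]; omega
    · rw [hS, g17]; omega
    · omega
  · have hj : 1 ≤ jH ∧ 3 ≤ jS + 2 * jH := by
      rw [hjH, hjS]; split_ifs <;> omega
    refine ⟨x1, R1, eH1, eS1, NH, hHC, sHC, x0, R0 + 1, hR0 + jH, sR0 + jS, pa1, pc1, pa0, pc0,
      g1, g2, g3, g4, le_trans g5 hle, g6, le_trans g7 hlt, g8, le_trans g9 hle, g10,
      le_trans g11 hlt, g12', ?_, ?_, ?_, ?_, ?_, g18, g19, ?_, ?_⟩
    · rw [hB1, g13, if_neg (by omega)]; omega
    · rw [hB2, g14, if_neg (by omega)]; omega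
    · rw [card_cons, g15]; omega
    · rw [hH, g16]; omega
    · rw [hS, g17]; omega
    · omega
    · omega

theorem stepT_shell (h12 : d1 ≤ d2) (g12 : e1 ≤ e2) (a b c : ℕ) (s t : Multiset ℕ)
    (led : LedgerT L d1 d2 e1 e2 s t) (ha : d2 < a) (hb : d2 < b) (hc : c ≤ e1)
    (habc : a + b + c ≤ L) :
    LedgerT L d1 d2 e1 e2 (a ::ₘ b ::ₘ s) (c ::ₘ t) := by
  obtain ⟨x1, R1, eH1, eS1, NH, hHC, sHC, x0, R0, hR0, sR0, pa1, pc1, pa0, pc0, g1, g2, g3, g4,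
    g5, g6, g7, g8, g9, g10, g11, g12', g13, g14, g15, g16, g17, g18, g19, g20, g21⟩ := led
  have hH := countP2 (fun y => y ≤ d1) a b s
  have hS := countP2 (fun y => d1 < y ∧ y ≤ d2) a b s
  have hB1 := countP_cons (fun z => z ≤ e1) c t
  have hB2 := countP_cons (fun z => e1 < z ∧ z ≤ e2) c t
  have hle := le_cons2 a b s
  have hlt := le_cons_self t c
  refine ⟨x1 + 1, R1, eH1, eS1, NH, hHC, sHC, x0, R0, hR0, sR0, a ::ₘ b ::ₘ pa1, c ::ₘ pc1,
    pa0, pc0, DP.cons a b c pa1 pc1 habc g1, by simp [g2], g3, g4,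
    cons_le_cons a (cons_le_cons b g5), ?_, cons_le_cons c g7, ?_, le_trans g9 hle, g10,
    le_trans g11 hlt, g12', ?_, ?_, ?_, ?_, ?_, g18, g19, g20, g21⟩
  · intro y hy
    simp only [mem_cons] at hy
    rcases hy with rfl | rfl | hy
    · exact ha
    · exact hb
    · exact g6 y hy
  · intro y hy
    simp only [mem_cons] at hy
    rcases hy with rfl | hy
    · exact hc
    · exact g8 y hy
  · rw [hB1, g13, if_pos hc]; omega
  · rw [hB2, g14, if_neg (by omega)]; omega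
  · rw [card_cons, g15]; omega
  · rw [hH, g16, if_neg (by omega), if_neg (by omega)]; omega
  · rw [hS, g17, if_neg (by omega), if_neg (by omega)]; omega

theorem stepT_inner (h12 : d1 ≤ d2) (g12 : e1 ≤ e2) (a b c : ℕ) (s t : Multiset ℕ)
    (led : LedgerT L d1 d2 e1 e2 s t) (ha : d1 < a ∧ a ≤ d2) (hb : d1 < b ∧ b ≤ d2) (hc : e2 < c)
    (habc : a + b + c ≤ L) :
    LedgerT L d1 d2 e1 e2 (a ::ₘ b ::ₘ s) (c ::ₘ t) := by
  obtain ⟨x1, R1, eH1, eS1, NH, hHC, sHC, x0, R0, hR0, sR0, pa1, pc1, pa0, pc0, g1, g2, g3, g4,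
    g5, g6, g7, g8, g9, g10, g11, g12', g13, g14, g15, g16, g17, g18, g19, g20, g21⟩ := led
  have hH := countP2 (fun y => y ≤ d1) a b s
  have hS := countP2 (fun y => d1 < y ∧ y ≤ d2) a b s
  have hB1 := countP_cons (fun z => z ≤ e1) c t
  have hB2 := countP_cons (fun z => e1 < z ∧ z ≤ e2) c t
  have hle := le_cons2 a b s
  have hlt := le_cons_self t c
  refine ⟨x1, R1, eH1, eS1, NH, hHC, sHC, x0 + 1, R0, hR0, sR0, pa1, pc1, a ::ₘ b ::ₘ pa0,
    c ::ₘ pc0, g1, g2, DP.cons a b c pa0 pc0 habc g3, by simp [g4], le_trans g5 hle, g6,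
    le_trans g7 hlt, g8, cons_le_cons a (cons_le_cons b g9), ?_, cons_le_cons c g11, ?_,
    ?_, ?_, ?_, ?_, ?_, g18, g19, g20, g21⟩
  · intro y hy
    simp only [mem_cons] at hy
    rcases hy with rfl | rfl | hy
    · exact ha
    · exact hb
    · exact g10 y hy
  · intro y hy
    simp only [mem_cons] at hy
    rcases hy with rfl | hy
    · exact hc
    · exact g12' y hy
  · rw [hB1, g13, if_neg (by omega)]; omega
  · rw [hB2, g14, if_neg (by omega)]; omega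
  · rw [card_cons, g15]; omega
  · rw [hH, g16, if_neg (by omega), if_neg (by omega)]; omega
  · rw [hS, g17, if_pos ha, if_pos hb]; omega

theorem ledgerT (lo : ℕ) (h12 : d1 ≤ d2) (g12 : e1 ≤ e2)
    (k1 : L < (d2 + 1) + lo + (e2 + 1)) (k2 : L < (d2 + 1) + (d1 + 1) + (e1 + 1))
    (s t : Multiset ℕ) (h : DP L s t) (hlo : ∀ y ∈ s, lo ≤ y) : LedgerT L d1 d2 e1 e2 s t := by
  induction h with
  | zero =>
    exact ⟨0, 0, 0, 0, 0, 0, 0, 0, 0, 0, 0, 0, 0, 0, 0, DP.zero, by simp, DP.zero, by simp,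
      le_refl _, by simp, le_refl _, by simp, le_refl _, by simp, le_refl _, by simp, by simp,
      by simp, by simp, by simp, by simp, by simp, by simp, by simp, by simp⟩
  | cons a b c s t habc _ ih =>
    have ih' := ih (fun y hy => hlo y (by simp [hy]))
    have la := hlo a (by simp)
    have lb := hlo b (by simp)
    by_cases t1 : d2 < a ∧ d2 < b ∧ c ≤ e1
    · exact stepT_shell L d1 d2 e1 e2 h12 g12 a b c s t ih' t1.1 t1.2.1 t1.2.2 habc
    by_cases t2 : (d1 < a ∧ a ≤ d2) ∧ (d1 < b ∧ b ≤ d2) ∧ e2 < c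
    · exact stepT_inner L d1 d2 e1 e2 h12 g12 a b c s t ih' t2.1 t2.2.1 t2.2.2 habc
    apply stepT_gen L d1 d2 e1 e2 h12 g12 a b c s t ih'
    omega

/-- **Nesting lemma (typed).** -/
theorem BB_nest (lo : ℕ) (h12 : d1 ≤ d2) (g12 : e1 ≤ e2)
    (k1 : L < (d2 + 1) + lo + (e2 + 1)) (k2 : L < (d2 + 1) + (d1 + 1) + (e1 + 1))
    (HAs A0 A1 C1 HCs C0 : Multiset ℕ) (q1 g1 p0 : ℕ)
    (hHA : ∀ y ∈ HAs, lo ≤ y ∧ y ≤ d1) (hA0 : ∀ y ∈ A0, d1 < y ∧ y ≤ d2) (hA1 : ∀ y ∈ A1, d2 < y)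
    (hC1 : ∀ z ∈ C1, z ≤ e1) (hHC : ∀ z ∈ HCs, e1 < z ∧ z ≤ e2) (hC0 : ∀ z ∈ C0, e2 < z)
    (hlo : lo ≤ d1)
    (hq : card C1 = q1) (hh : card HAs ≤ 1) (hhc : card HCs ≤ 1)
    (hn : card A0 ≤ 2 * p0 + 2 + g1) (hg : g1 ≤ q1)
    (hB1 : BB L A1 C1 (q1 - g1)) (hB0 : BB L A0 C0 p0) :
    BB L (HAs + A0 + A1) (C1 + HCs + C0) (q1 + p0 + 1) := by
  intro s hs t ht hDP
  have hlo' : ∀ y ∈ s, lo ≤ y := by
    intro y hy
    have := mem_of_le hs hy
    simp only [mem_add] at this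
    rcases this with (h | h) | h
    · exact (hHA y h).1
    · have := hA0 y h; omega
    · have := hA1 y h; omega
  obtain ⟨x1, R1, eH1, eS1, NH, hHC', sHC, x0, R0, hR0, sR0, pa1, pc1, pa0, pc0, g1', g2, g3, g4,
    g5, g6, g7, g8, g9, g10, g11, g12', g13, g14, g15, g16, g17, g18, g19, g20, g21⟩ :=
    ledgerT L d1 d2 e1 e2 lo h12 g12 k1 k2 s t hDP hlo'
  have fA1 : filter (fun y => d2 < y) (HAs + A0 + A1) = A1 := by
    rw [filter_add, filter_add, filter_eq_nil.2 (fun y hy => by have := hHA y hy; omega),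
      filter_eq_nil.2 (fun y hy => by have := hA0 y hy; omega), filter_eq_self.2 hA1]; simp
  have fA0 : filter (fun y => d1 < y ∧ y ≤ d2) (HAs + A0 + A1) = A0 := by
    rw [filter_add, filter_add, filter_eq_nil.2 (fun y hy => by have := hHA y hy; omega),
      filter_eq_self.2 hA0, filter_eq_nil.2 (fun y hy => by have := hA1 y hy; omega)]; simp
  have fHA : filter (fun y => y ≤ d1) (HAs + A0 + A1) = HAs := by
    rw [filter_add, filter_add, filter_eq_self.2 (fun y hy => (hHA y hy).2),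
      filter_eq_nil.2 (fun y hy => by have := hA0 y hy; omega),
      filter_eq_nil.2 (fun y hy => by have := hA1 y hy; omega)]; simp
  have fC1 : filter (fun z => z ≤ e1) (C1 + HCs + C0) = C1 := by
    rw [filter_add, filter_add, filter_eq_self.2 hC1,
      filter_eq_nil.2 (fun y hy => by have := hHC y hy; omega),
      filter_eq_nil.2 (fun y hy => by have := hC0 y hy; omega)]; simp
  have fHC : filter (fun z => e1 < z ∧ z ≤ e2) (C1 + HCs + C0) = HCs := by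
    rw [filter_add, filter_add, filter_eq_nil.2 (fun y hy => by have := hC1 y hy; omega),
      filter_eq_self.2 hHC, filter_eq_nil.2 (fun y hy => by have := hC0 y hy; omega)]; simp
  have fC0 : filter (fun z => e2 < z) (C1 + HCs + C0) = C0 := by
    rw [filter_add, filter_add, filter_eq_nil.2 (fun y hy => by have := hC1 y hy; omega),
      filter_eq_nil.2 (fun y hy => by have := hHC y hy; omega), filter_eq_self.2 hC0]; simp
  have b1 := hB1 pa1 (by rw [← fA1]; exact le_filter.2 ⟨le_trans g5 hs, g6⟩) pc1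
    (by rw [← fC1]; exact le_filter.2 ⟨le_trans g7 ht, g8⟩) g1'
  have b0 := hB0 pa0 (by rw [← fA0]; exact le_filter.2 ⟨le_trans g9 hs, g10⟩) pc0
    (by rw [← fC0]; exact le_filter.2 ⟨le_trans g11 ht, g12'⟩) g3
  have n1 : countP (fun z => z ≤ e1) t ≤ q1 := by
    have := countP_le_of_le (fun z => z ≤ e1) ht
    rw [countP_eq_card_filter (fun z => z ≤ e1) (C1 + HCs + C0), fC1, hq] at this
    exact this
  have n2 : countP (fun z => e1 < z ∧ z ≤ e2) t ≤ 1 := by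
    have := countP_le_of_le (fun z => e1 < z ∧ z ≤ e2) ht
    rw [countP_eq_card_filter (fun z => e1 < z ∧ z ≤ e2) (C1 + HCs + C0), fHC] at this
    omega
  have n3 : countP (fun y => y ≤ d1) s ≤ 1 := by
    have := countP_le_of_le (fun y => y ≤ d1) hs
    rw [countP_eq_card_filter (fun y => y ≤ d1) (HAs + A0 + A1), fHA] at this
    omega
  have n4 : countP (fun y => d1 < y ∧ y ≤ d2) s ≤ 2 * p0 + 2 + g1 := by
    have := countP_le_of_le (fun y => d1 < y ∧ y ≤ d2) hs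
    rw [countP_eq_card_filter (fun y => d1 < y ∧ y ≤ d2) (HAs + A0 + A1), fA0] at this
    omega
  rw [g15]
  omega

end typed

end Vale.Agent.Lib.P302
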