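import Vale.Agent.Lib.P302.NatLP

namespace Vale.Agent.Lib.P302
open Finset


theorem sum_fibres_val {n k : ℕ} (f : Fin n → Fin k) :
    ∑ b : Fin k, (univ.filter (fun i => f i = b)).val = (univ : Finset (Fin n)).val := by
  ext i
  rw [Multiset.count_sum']
  have h1 : ∀ b : Fin k, Multiset.count i (univ.filter (fun i => f i = b)).val
      = if f i = b then 1 else 0 := by
    intro b
    rw [Multiset.count_eq_of_nodup (Finset.nodup _)]
    simp
  simp only [h1]
  rw [Multiset.count_eq_of_nodup (Finset.nodup _)]
  simp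

theorem get_map_cast {α β : Type} (g : α → β) (l : List α) (i : Fin (l.map g).length) :
    (l.map g).get i = g (l.get (i.cast (List.length_map g))) := by
  simp

theorem packable_bins_nat (L : ℕ) (hL : 0 < L) (sizes : List ℕ) (k : ℕ)
    (h : Packable (toInst L sizes) k) :
    ∃ bins : List (Multiset ℕ), bins.length = k ∧ bins.sum = (sizes : Multiset ℕ) ∧
      ∀ b ∈ bins, b.sum ≤ L := by
  obtain ⟨f, hf⟩ := h
  have hlen : (toInst L sizes).length = sizes.length := by simp [toInst]
  set e : Fin (toInst L sizes).length → ℕ := fun i => sizes.get (i.cast hlen) with he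
  have hget : ∀ i, (toInst L sizes).get i = sc L (e i) := by
    intro i
    exact get_map_cast (sc L) sizes i
  refine ⟨List.ofFn (fun b : Fin k => (univ.filter (fun i => f i = b)).val.map e), by simp, ?_, ?_⟩
  · rw [List.sum_ofFn]
    have h1 : ∑ b : Fin k, Multiset.map e (univ.filter (fun i => f i = b)).val
        = Multiset.map e (∑ b : Fin k, (univ.filter (fun i => f i = b)).val) := by
      exact (map_sum (Multiset.mapAddMonoidHom e)
        (fun b : Fin k => (univ.filter (fun i => f i = b)).val) univ).symm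
    rw [h1, sum_fibres_val, Fin.univ_val_map]
    congr 1
    apply List.ext_get
    · simp [hlen]
    · intro m h1 h2
      simp [he]
  · intro b hb
    obtain ⟨j, rfl⟩ := (List.mem_ofFn' _ _).1 hb
    have := hf j
    simp only [hget] at this
    have hLq : (0 : ℚ) < L := by exact_mod_cast hL
    have h2 : ∑ i ∈ univ.filter (fun i => f i = j), sc L (e i)
        = ((∑ i ∈ univ.filter (fun i => f i = j), e i : ℕ) : ℚ) / L := by
      simp only [sc]
      rw [← Finset.sum_div]
      push_cast
      rfl
    rw [h2, div_le_one hLq] at this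
    have h3 : (Multiset.map e (univ.filter (fun i => f i = j)).val).sum
        = ∑ i ∈ univ.filter (fun i => f i = j), e i := rfl
    rw [h3]
    exact_mod_cast this



/-- `TP L s`: the multiset `s` splits into triples, each of total size at most `L`. -/
inductive TP (L : ℕ) : Multiset ℕ → Prop
  | zero : TP L 0
  | cons (a b c : ℕ) (s : Multiset ℕ) : a + b + c ≤ L → TP L s → TP L (a ::ₘ b ::ₘ c ::ₘ s)

theorem card_bound (L : ℕ) (b : Multiset ℕ) (h : ∀ x ∈ b, L < 4 * x) :
    (L + 1) * Multiset.card b ≤ 4 * b.sum := by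
  induction b using Multiset.induction_on with
  | empty => simp
  | cons x b ih =>
    have h1 := ih (fun y hy => h y (Multiset.mem_cons_of_mem hy))
    have h2 := h x (Multiset.mem_cons_self x b)
    simp only [Multiset.card_cons, Multiset.sum_cons]
    nlinarith

theorem card_le_three (L : ℕ) (b : Multiset ℕ) (h : ∀ x ∈ b, L < 4 * x) (hs : b.sum ≤ L) :
    Multiset.card b ≤ 3 := by
  have := card_bound L b h
  by_contra hc
  have hc' : 4 ≤ Multiset.card b := by omega
  nlinarith

/-- From a packing into bins (all items larger than a quarter of the capacity) extract the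
bins holding three items. -/
theorem extract (L : ℕ) (bins : List (Multiset ℕ))
    (h : ∀ b ∈ bins, b.sum ≤ L ∧ ∀ x ∈ b, L < 4 * x) :
    ∃ s, TP L s ∧ s ≤ bins.sum ∧
      3 * Multiset.card bins.sum ≤ 6 * bins.length + Multiset.card s := by
  induction bins with
  | nil => exact ⟨0, TP.zero, by simp, by simp⟩
  | cons b bins ih =>
    obtain ⟨s, hs1, hs2, hs3⟩ := ih (fun c hc => h c (by simp [hc]))
    obtain ⟨hb1, hb2⟩ := h b (by simp)
    have hc := card_le_three L b hb2 hb1
    by_cases h3 : Multiset.card b = 3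
    · obtain ⟨x, y, z, rfl⟩ := Multiset.card_eq_three.1 h3
      refine ⟨x ::ₘ y ::ₘ z ::ₘ s, TP.cons x y z s ?_ hs1, ?_, ?_⟩
      · simp at hb1
        omega
      · simp only [List.sum_cons]
        have : x ::ₘ y ::ₘ z ::ₘ s = ({x, y, z} : Multiset ℕ) + s := by
          simp [Multiset.insert_eq_cons]
        rw [this]
        exact add_le_add_right hs2 _
      · simp only [List.sum_cons, Multiset.card_add, List.length_cons, Multiset.card_cons]
        simp at h3 ⊢
        omega
    · refine ⟨s, hs1, ?_, ?_⟩
      · simp only [List.sum_cons]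
        exact le_trans hs2 (Multiset.le_add_left _ _)
      · simp only [List.sum_cons, Multiset.card_add, List.length_cons]
        omega

theorem TP_card (L : ℕ) (s : Multiset ℕ) (h : TP L s) : ∃ t, Multiset.card s = 3 * t := by
  induction h with
  | zero => exact ⟨0, by simp⟩
  | cons a b c s _ _ ih =>
    obtain ⟨t, ht⟩ := ih
    exact ⟨t + 1, by simp [ht]; ring⟩

/-- fewer triples -/
theorem TP_sub (L : ℕ) (s : Multiset ℕ) (h : TP L s) (t : ℕ) (ht : 3 * t ≤ Multiset.card s) :
    ∃ s' ≤ s, TP L s' ∧ Multiset.card s' = 3 * t := by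
  induction h with
  | zero => exact ⟨0, le_refl _, TP.zero, by simp at ht; simp [ht]⟩
  | cons a b c s habc hs ih =>
    by_cases h1 : 3 * t ≤ Multiset.card s
    · obtain ⟨s', h1', h2', h3'⟩ := ih h1
      refine ⟨s', le_trans h1' ?_, h2', h3'⟩
      exact le_trans (Multiset.le_cons_self _ _) (le_trans (Multiset.le_cons_self _ _)
        (Multiset.le_cons_self _ _))
    · obtain ⟨u, hu⟩ := TP_card L s hs
      simp only [Multiset.card_cons] at ht
      refine ⟨_, le_refl _, TP.cons a b c s habc hs, ?_⟩
      simp only [Multiset.card_cons]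
      omega

/-- making the items smaller keeps a splitting into triples -/
theorem TP_mono (L : ℕ) (s : Multiset ℕ) (h : TP L s) :
    ∀ s', Multiset.Rel (· ≤ ·) s' s → TP L s' := by
  induction h with
  | zero =>
    intro s' hs'
    rw [Multiset.rel_zero_right] at hs'
    subst hs'
    exact TP.zero
  | cons a b c s habc _ ih =>
    intro s' hs'
    obtain ⟨a', s1, ha, h1, rfl⟩ := Multiset.rel_cons_right.1 hs'
    obtain ⟨b', s2, hb, h2, rfl⟩ := Multiset.rel_cons_right.1 h1
    obtain ⟨c', s3, hc, h3, rfl⟩ := Multiset.rel_cons_right.1 h2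
    exact TP.cons a' b' c' s3 (by omega) (ih s3 h3)

theorem rel_of_forall₂ (l1 l2 : List ℕ) (h : List.Forall₂ (· ≤ ·) l1 l2) :
    Multiset.Rel (· ≤ ·) (l1 : Multiset ℕ) (l2 : Multiset ℕ) := by
  induction h with
  | nil => exact Multiset.Rel.zero
  | cons hab _ ih => exact Multiset.Rel.cons hab ih

theorem take_shift (x : ℕ) (l : List ℕ) (hs : (x :: l).Pairwise (· ≤ ·)) :
    ∀ m, m ≤ l.length → List.Forall₂ (· ≤ ·) ((x :: l).take m) (l.take m) := by
  induction l generalizing x with
  | nil =>
    intro m hm
    simp at hm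
    subst hm
    simp
  | cons y l ih =>
    intro m hm
    cases m with
    | zero => simp
    | succ m =>
      simp only [List.take_succ_cons]
      refine List.Forall₂.cons ?_ ?_
      · exact (List.pairwise_cons.1 hs).1 y (by simp)
      · exact ih y (List.pairwise_cons.1 hs).2 m (by simpa using hm)

theorem forall₂_trans (l1 l2 l3 : List ℕ) (h12 : List.Forall₂ (· ≤ ·) l1 l2)
    (h23 : List.Forall₂ (· ≤ ·) l2 l3) : List.Forall₂ (· ≤ ·) l1 l3 := by
  induction h12 generalizing l3 with
  | nil => cases h23; exact List.Forall₂.nil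
  | cons hab _ ih =>
    cases h23 with
    | cons hbc h' => exact List.Forall₂.cons (le_trans hab hbc) (ih _ h')

/-- the first `m` entries of an ascending list are dominated by every sublist of length `m` -/
theorem take_le_sublist (l l' : List ℕ) (hsub : l'.Sublist l) (hs : l.Pairwise (· ≤ ·)) :
    List.Forall₂ (· ≤ ·) (l.take l'.length) l' := by
  induction hsub with
  | slnil => simp
  | @cons l1 l2 x h ih =>
    have hs2 := (List.pairwise_cons.1 hs).2
    exact forall₂_trans _ _ _ (take_shift x l2 hs l1.length h.length_le) (ih hs2)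
  | @cons_cons l1 l2 x h ih =>
    have hs2 := (List.pairwise_cons.1 hs).2
    simp only [List.length_cons, List.take_succ_cons]
    exact List.Forall₂.cons (le_refl _) (ih hs2)

/-- exchange: if some `t` disjoint triples fit, then the `3t` smallest items split into triples -/
theorem TP_take (L : ℕ) (l : List ℕ) (hs : l.Pairwise (· ≤ ·)) (s : Multiset ℕ)
    (hle : s ≤ (l : Multiset ℕ)) (h : TP L s) : TP L ((l.take (Multiset.card s) : List ℕ)) := by
  induction s using Quotient.inductionOn with
  | h l0 =>
    obtain ⟨l', hperm, hsub⟩ := (Multiset.coe_le.1 hle)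
    have h1 := take_le_sublist l l' hsub hs
    have h2 : ((l' : List ℕ) : Multiset ℕ) = (l0 : Multiset ℕ) := Multiset.coe_eq_coe.2 hperm
    have h3 : Multiset.card (Quotient.mk _ l0 : Multiset ℕ) = l'.length := by
      have : Multiset.card ((l0 : List ℕ) : Multiset ℕ) = l0.length := Multiset.coe_card l0
      rw [hperm.length_eq]
      exact this
    rw [h3]
    refine TP_mono L _ h _ ?_
    have := rel_of_forall₂ _ _ h1
    rw [h2] at this
    exact this

/-- the triple containing a given element -/
theorem TP_mem (L : ℕ) (m : Multiset ℕ) (h : TP L m) :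
    ∀ x ∈ m, ∃ b c s', m = x ::ₘ b ::ₘ c ::ₘ s' ∧ x + b + c ≤ L ∧ TP L s' := by
  induction h with
  | zero => intro x hx; simp at hx
  | cons a b c s habc hs ih =>
    intro x hx
    by_cases hxs : x ∈ s
    · obtain ⟨b', c', s', h1, h2, h3⟩ := ih x hxs
      refine ⟨b', c', a ::ₘ b ::ₘ c ::ₘ s', ?_, h2, TP.cons a b c s' habc h3⟩
      rw [h1]
      simp only [← Multiset.singleton_add]
      abel
    · simp only [Multiset.mem_cons] at hx
      rcases hx with rfl | rfl | rfl | hx
      · exact ⟨b, c, s, rfl, habc, hs⟩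
      · refine ⟨a, c, s, ?_, by omega, hs⟩
        simp only [← Multiset.singleton_add]
        abel
      · refine ⟨a, b, s, ?_, by omega, hs⟩
        simp only [← Multiset.singleton_add]
        abel
      · exact absurd hx hxs

theorem TP_cons_inv (L x : ℕ) (s : Multiset ℕ) (h : TP L (x ::ₘ s)) :
    ∃ b c s', s = b ::ₘ c ::ₘ s' ∧ x + b + c ≤ L ∧ TP L s' := by
  obtain ⟨b, c, s', h1, h2, h3⟩ := TP_mem L _ h x (Multiset.mem_cons_self x s)
  exact ⟨b, c, s', (Multiset.cons_inj_right x).1 h1, h2, h3⟩

/-- choose the third item `k` of the triple (only items at least `bd` are tried; after a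
failed try with `k` only larger items are tried) -/
def loopK (rec : List ℕ → Bool) (L hj : ℕ) : ℕ → List ℕ → List ℕ → Bool
  | _, _, [] => false
  | bd, acc, k :: post =>
    if Nat.ble bd k && Nat.ble (hj + k) L then
      rec (acc.reverseAux post) || loopK rec L hj (k + 1) (k :: acc) post
    else loopK rec L hj bd (k :: acc) post

/-- choose the second item `j` of the triple -/
def loopJ (rec : List ℕ → Bool) (L h : ℕ) : List ℕ → List ℕ → Bool
  | _, [] => false
  | acc, j :: post => loopK rec L (h + j) 0 acc post || loopJ rec L h (j :: acc) post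

/-- depth first search for a splitting into triples (`true` when the fuel runs out) -/
def chk (L : ℕ) : ℕ → List ℕ → Bool
  | 0, _ => true
  | _ + 1, [] => true
  | f + 1, h :: rest => loopJ (chk L f) L h [] rest

theorem coe_reverseAux (acc post : List ℕ) :
    ((acc.reverseAux post : List ℕ) : Multiset ℕ) = (acc : Multiset ℕ) + (post : Multiset ℕ) := by
  rw [List.reverseAux_eq, ← Multiset.coe_add, Multiset.coe_reverse]

theorem coe_cons_add (x : ℕ) (acc : List ℕ) (cs : Multiset ℕ) :
    ((x :: acc : List ℕ) : Multiset ℕ) + cs = (acc : Multiset ℕ) + x ::ₘ cs := by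
  rw [← Multiset.cons_coe, Multiset.cons_add, Multiset.add_cons]

theorem rel_refl_le (s : Multiset ℕ) : Multiset.Rel (· ≤ ·) s s := by
  induction s using Multiset.induction_on with
  | empty => exact Multiset.Rel.zero
  | cons a s ih => exact Multiset.Rel.cons (le_refl a) ih

theorem loopK_complete (rec : List ℕ → Bool) (L hj : ℕ)
    (hrec : ∀ l : List ℕ, TP L (l : Multiset ℕ) → rec l = true) :
    ∀ (post acc : List ℕ) (bd : ℕ),
      (∃ k s', (post : Multiset ℕ) = k ::ₘ s' ∧ hj + k ≤ L ∧ bd ≤ k ∧
        TP L ((acc : Multiset ℕ) + s')) → loopK rec L hj bd acc post = true := by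
  intro post
  induction post with
  | nil =>
    rintro acc bd ⟨k, s', h1, _⟩
    have : k ∈ ((([] : List ℕ) : Multiset ℕ)) := by rw [h1]; exact Multiset.mem_cons_self _ _
    simp at this
  | cons x post ih =>
    rintro acc bd ⟨k, s', h1, h2, h3, h4⟩
    rw [← Multiset.cons_coe] at h1
    unfold loopK
    rcases Multiset.cons_eq_cons.1 h1 with ⟨rfl, rfl⟩ | ⟨hne, cs, hcs1, hcs2⟩
    · have ht : (Nat.ble bd x && Nat.ble (hj + x) L) = true := by
        simp [Nat.ble_eq, h2, h3]
      rw [if_pos ht, hrec _ (by rw [coe_reverseAux]; exact h4)]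
      rfl
    · split_ifs with ht
      · by_cases hkx : x + 1 ≤ k
        · rw [ih (x :: acc) (x + 1) ⟨k, cs, hcs1, h2, hkx, ?_⟩]
          · simp
          · rw [coe_cons_add, ← hcs2]
            exact h4
        · have hle : k ≤ x := by omega
          have : TP L ((acc : Multiset ℕ) + (post : Multiset ℕ)) := by
            refine TP_mono L _ h4 _ ?_
            rw [hcs1, hcs2]
            simp only [Multiset.add_cons]
            exact Multiset.Rel.cons hle (rel_refl_le _)
          rw [hrec _ (by rw [coe_reverseAux]; exact this)]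
          rfl
      · refine ih (x :: acc) bd ⟨k, cs, hcs1, h2, h3, ?_⟩
        rw [coe_cons_add, ← hcs2]
        exact h4

theorem loopJ_complete (rec : List ℕ → Bool) (L h : ℕ)
    (hrec : ∀ l : List ℕ, TP L (l : Multiset ℕ) → rec l = true) :
    ∀ (post acc : List ℕ),
      (∃ j k s', (post : Multiset ℕ) = j ::ₘ k ::ₘ s' ∧ h + j + k ≤ L ∧
        TP L ((acc : Multiset ℕ) + s')) → loopJ rec L h acc post = true := by
  intro post
  induction post with
  | nil =>
    rintro acc ⟨j, k, s', h1, _⟩
    have : j ∈ ((([] : List ℕ) : Multiset ℕ)) := by rw [h1]; exact Multiset.mem_cons_self _ _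
    simp at this
  | cons x post ih =>
    rintro acc ⟨j, k, s', h1, h2, h4⟩
    rw [← Multiset.cons_coe] at h1
    unfold loopJ
    rcases Multiset.cons_eq_cons.1 h1 with ⟨rfl, hp⟩ | ⟨hne, cs, hcs1, hcs2⟩
    · rw [loopK_complete rec L (h + x) hrec post acc 0 ⟨k, s', hp, h2, Nat.zero_le _, h4⟩]
      rfl
    · rcases Multiset.cons_eq_cons.1 hcs2 with ⟨rfl, hp⟩ | ⟨hne2, cs2, hcs3, hcs4⟩
      · rw [loopK_complete rec L (h + k) hrec post acc 0
          ⟨j, s', by rw [hcs1, hp], by omega, Nat.zero_le _, h4⟩]
        rfl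
      · rw [ih (x :: acc) ⟨j, k, cs2, by rw [hcs1, hcs4], h2, ?_⟩]
        · simp
        · rw [coe_cons_add, ← hcs3]
          exact h4

theorem chk_complete (L : ℕ) : ∀ (f : ℕ) (l : List ℕ), TP L (l : Multiset ℕ) → chk L f l = true := by
  intro f
  induction f with
  | zero => intro l _; rfl
  | succ f ih =>
    intro l hl
    cases l with
    | nil => rfl
    | cons x rest =>
      rw [← Multiset.cons_coe] at hl
      obtain ⟨b, c, s', h1, h2, h3⟩ := TP_cons_inv L x _ hl
      exact loopJ_complete (chk L f) L x ih rest [] ⟨b, c, s', h1, h2, by simpa using h3⟩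


theorem packable_length (a : List ℚ) (h : IsInstance a) : Packable a a.length := by
  refine ⟨id, fun b => ?_⟩
  have : (univ.filter (fun i : Fin a.length => id i = b)) = {b} := by
    ext i
    simp
  rw [this, Finset.sum_singleton]
  exact (h _ (List.get_mem a b)).2

theorem OPT_packable (a : List ℚ) (h : IsInstance a) : Packable a (OPT a) :=
  Nat.sInf_mem (s := {k | Packable a k}) ⟨a.length, packable_length a h⟩

/-- If all sizes exceed `L/4`, and the `3t` smallest items do not split into `t` triples of
size at most `L`, then `j` bins with `2j + t ≤ n` do not suffice. -/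
theorem not_packable (L : ℕ) (hL : 0 < L) (sizes : List ℕ) (j t fuel : ℕ)
    (hsorted : sizes.Pairwise (· ≤ ·)) (h4 : ∀ s ∈ sizes, L < 4 * s)
    (hcount : 2 * j + t ≤ sizes.length)
    (hchk : chk L fuel (sizes.take (3 * t)).reverse = false) :
    ¬ Packable (toInst L sizes) j := by
  intro hp
  obtain ⟨bins, hlen, hsum, hb⟩ := packable_bins_nat L hL sizes j hp
  have hmem : ∀ b ∈ bins, ∀ x ∈ b, x ∈ sizes := by
    intro b hbb x hx
    have h1 : b ≤ bins.sum := List.single_le_sum (fun _ _ => Multiset.zero_le _) b hbb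
    have h2 : x ∈ bins.sum := Multiset.mem_of_le h1 hx
    rw [hsum] at h2
    exact Multiset.mem_coe.1 h2
  obtain ⟨s, hs1, hs2, hs3⟩ := extract L bins
    (fun b hbb => ⟨hb b hbb, fun x hx => h4 x (hmem b hbb x hx)⟩)
  rw [hsum] at hs2 hs3
  rw [Multiset.coe_card, hlen] at hs3
  obtain ⟨s', h1, h2, h3⟩ := TP_sub L s hs1 t (by omega)
  have h5 := TP_take L sizes hsorted s' (le_trans h1 hs2) h2
  rw [h3] at h5
  have h6 := chk_complete L fuel (sizes.take (3 * t)).reverse (by rw [Multiset.coe_reverse]; exact h5)
  rw [h6] at hchk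
  exact Bool.noConfusion hchk

/-- The certificate theorem for instances with all sizes above a quarter of the capacity. -/
theorem certificate (L : ℕ) (sizes : List ℕ) (K t fuel q : ℕ) (P : List (List ℕ × ℕ))
    (hL : 0 < L) (hsorted : sizes.Pairwise (· ≤ ·)) (h4 : ∀ s ∈ sizes, L < 4 * s)
    (h1 : ∀ s ∈ sizes, s ≤ L) (hcount : 2 * K + t ≤ sizes.length)
    (hchk : chk L fuel (sizes.take (3 * t)).reverse = false)
    (hq : 0 < q)
    (hc : ∀ p ∈ P, (∀ s ∈ p.1, s ∈ sizes) ∧ p.1.sum ≤ L)
    (hcov : ∀ s ∈ sizes, sizes.count s * q ≤ (P.map (fun p => p.1.count s * p.2)).sum) :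
    IsInstance (toInst L sizes) ∧ K + 1 ≤ OPT (toInst L sizes) ∧
      LP (toInst L sizes) ≤ (((P.map (fun p => p.2)).sum : ℕ) : ℝ) / (q : ℝ) := by
  have hinst : IsInstance (toInst L sizes) :=
    toInst_isInstance L sizes (fun s hs => by have := h4 s hs; omega) h1
  refine ⟨hinst, ?_, LP_le_nat L hL sizes P q hq hc hcov⟩
  by_contra hlt
  have hle : OPT (toInst L sizes) ≤ K := by omega
  exact not_packable L hL sizes _ t fuel hsorted h4 (by omega) hchk (OPT_packable _ hinst)

end Vale.Agent.Lib.P302
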