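import Vale.Agent.Lib.P302.ZNest

/-!
# A recursive family of offset instances (problem P302): definitions and the integral bounds
-/

namespace Vale.Agent.Lib.P302
open Multiset

/-- bound for the absolute values at level `k` -/
def Rk : ℕ → ℤ
  | 0 => 1
  | k + 1 => 17 * Rk k + 16

/-- half of the shift -/
def hk (k : ℕ) : ℤ := 4 * Rk k + 4

/-- the shift -/
def Tk (k : ℕ) : ℤ := 8 * Rk k + 8

/-- the largest item (the value carrying the slack of the fractional solution) -/
def dk : ℕ → ℤ
  | 0 => 1
  | k + 1 => dk k + Tk k

/-- the items of the typed problem of level `k` -/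
def itemsP : ℕ → Multiset ℤ
  | 0 => replicate 4 1
  | k + 1 => {-(hk k) - dk k} + itemsP k + ((itemsP k).map (fun x => x + Tk k) + {dk k + Tk k})

/-- the third members (negated bin capacities) of the typed problem of level `k` -/
def capsP : ℕ → Multiset ℤ
  | 0 => replicate 2 0
  | k + 1 => (capsP k).map (fun x => x - 2 * Tk k) + {-(hk k)} + capsP k

/-- the offsets of the instance of level `k` -/
def UU : ℕ → Multiset ℤ
  | 0 => replicate 5 1
  | k + 1 => (capsP k).map (fun x => x - 2 * Tk k) + replicate 2 (-(hk k) - dk k) + UU k
      + ((itemsP k).map (fun x => x + Tk k) + {dk k + Tk k})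

def qk : ℕ → ℕ
  | 0 => 2
  | k + 1 => 2 * qk k + 1

def tk : ℕ → ℕ
  | 0 => 0
  | k + 1 => qk k + tk k + 1

theorem qk_ge (k : ℕ) : 2 ≤ qk k := by
  induction k with
  | zero => simp [qk]
  | succ k ih => simp only [qk]; omega

theorem dk_bounds (k : ℕ) : 1 ≤ dk k ∧ dk k ≤ Rk k := by
  induction k with
  | zero => simp [dk, Rk]
  | succ k ih => simp only [dk, Rk, Tk]; omega

theorem itemsP_bounds (k : ℕ) : ∀ y ∈ itemsP k, -(Rk k) ≤ y ∧ y ≤ dk k := by
  induction k with
  | zero =>
    intro y hy
    simp only [itemsP, mem_replicate] at hy
    simp [hy.2, Rk, dk]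
  | succ k ih =>
    intro y hy
    have hd := dk_bounds k
    simp only [itemsP, mem_add, mem_singleton, mem_map] at hy
    simp only [dk, Rk, Tk, hk] at *
    rcases hy with (rfl | hy) | (⟨x, hx, rfl⟩ | rfl)
    · omega
    · have := ih y hy; omega
    · have := ih x hx; omega
    · omega

theorem capsP_bounds (k : ℕ) : ∀ y ∈ capsP k, -(Rk k) ≤ y ∧ y ≤ 0 := by
  induction k with
  | zero =>
    intro y hy
    simp only [capsP, mem_replicate] at hy
    simp [hy.2, Rk]
  | succ k ih =>
    intro y hy
    have hd := dk_bounds k
    simp only [capsP, mem_add, mem_singleton, mem_map] at hy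
    simp only [Rk, Tk, hk] at *
    rcases hy with (⟨x, hx, rfl⟩ | rfl) | hy
    · have := ih x hx; omega
    · omega
    · have := ih y hy; omega

theorem UU_bounds (k : ℕ) : ∀ y ∈ UU k, -(Rk k) ≤ y ∧ y ≤ dk k := by
  induction k with
  | zero =>
    intro y hy
    simp only [UU, mem_replicate] at hy
    simp [hy.2, Rk, dk]
  | succ k ih =>
    intro y hy
    have hd := dk_bounds k
    simp only [UU, mem_add, mem_singleton, mem_map, mem_replicate] at hy
    simp only [dk, Rk, Tk, hk] at *
    rcases hy with ((⟨x, hx, rfl⟩ | ⟨_, rfl⟩) | hy) | (⟨x, hx, rfl⟩ | rfl)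
    · have := capsP_bounds k x hx; omega
    · omega
    · have := ih y hy; omega
    · have := itemsP_bounds k x hx; omega
    · omega

theorem card_capsP (k : ℕ) : card (capsP k) = qk k := by
  induction k with
  | zero => simp [capsP, qk]
  | succ k ih => simp only [capsP, qk, card_add, card_map, card_singleton, ih]; omega

theorem card_itemsP (k : ℕ) : card (itemsP k) = 2 * qk k := by
  induction k with
  | zero => simp [itemsP, qk]
  | succ k ih => simp only [itemsP, qk, card_add, card_map, card_singleton, ih]; omega

theorem card_UU (k : ℕ) : card (UU k) = 3 * tk k + 5 := by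
  induction k with
  | zero => simp [UU, tk]
  | succ k ih =>
    simp only [UU, tk, card_add, card_map, card_singleton, card_replicate, ih, card_capsP,
      card_itemsP]
    omega

theorem DPZ_shift (T : ℤ) (s t : Multiset ℤ) (h : DPZ s t) :
    DPZ (s.map (fun x => x - T)) (t.map (fun x => x + 2 * T)) := by
  induction h with
  | zero => simpa using DPZ.zero
  | cons a b c s t habc _ ih =>
    simp only [map_cons]
    exact DPZ.cons _ _ _ _ _ (by omega) ih

theorem BBZ_shift (T : ℤ) (A C : Multiset ℤ) (N : ℕ) (h : BBZ A C N) :
    BBZ (A.map (fun x => x + T)) (C.map (fun x => x - 2 * T)) N := by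
  intro s hs t ht hd
  have h1 : s.map (fun x => x - T) ≤ A := by
    have := map_le_map (f := fun x : ℤ => x - T) hs
    rw [map_map] at this
    simpa using this
  have h2 : t.map (fun x => x + 2 * T) ≤ C := by
    have := map_le_map (f := fun x : ℤ => x + 2 * T) ht
    rw [map_map] at this
    simpa using this
  have := h _ h1 _ h2 (DPZ_shift T s t hd)
  simpa using this

theorem BBZ_zero (A C : Multiset ℤ) (hA : ∀ a ∈ A, 1 ≤ a) (hC : ∀ c ∈ C, 0 ≤ c) : BBZ A C 0 := by
  intro s hs t ht hd
  cases hd with
  | zero => simp
  | cons a b c s t habc _ =>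
    have h1 := hA a (mem_of_le hs (by simp))
    have h2 := hA b (mem_of_le hs (by simp))
    have h3 := hC c (mem_of_le ht (by simp))
    omega

theorem UBZ_zero (M : Multiset ℤ) (hM : ∀ a ∈ M, 1 ≤ a) : UBZ M 0 := by
  intro s hs hd
  cases hd with
  | zero => simp
  | cons a b c s habc _ =>
    have h1 := hM a (mem_of_le hs (by simp))
    have h2 := hM b (mem_of_le hs (by simp))
    have h3 := hM c (mem_of_le hs (by simp))
    omega

/-- the integral bound for the typed problems (with `d` additional copies of the largest item) -/
theorem BBZ_P (k : ℕ) : ∀ d : ℕ, BBZ (itemsP k + replicate d (dk k)) (capsP k) (qk k - 2) := by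
  induction k with
  | zero =>
    intro d
    apply BBZ_zero
    · intro a ha
      simp only [itemsP, dk, mem_add, mem_replicate] at ha
      rcases ha with ha | ha <;> omega
    · intro c hc
      simp only [capsP, mem_replicate] at hc
      omega
  | succ k ih =>
    intro d
    have hd := dk_bounds k
    have hq := qk_ge k
    have key := BBZ_nest (-(Rk k) - 1) (Tk k - Rk k - 1) (-(hk k) - 1) (-(Rk k) - 1)
      (-(hk k) - dk k) (by simp only [Tk]; omega) (by simp only [hk]; omega)
      (by simp only [Tk, hk]; omega) (by simp only [Tk, hk]; omega)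
      {-(hk k) - dk k} (itemsP k) ((itemsP k + replicate (d + 1) (dk k)).map (fun x => x + Tk k))
      ((capsP k).map (fun x => x - 2 * Tk k)) {-(hk k)} (capsP k) (qk k) 2 (qk k - 2)
      (by
        intro y hy
        rw [mem_singleton] at hy
        subst hy
        simp only [hk]; omega)
      (by
        intro y hy
        have := itemsP_bounds k y hy
        simp only [Tk]; omega)
      (by
        intro y hy
        simp only [mem_map, mem_add, mem_replicate] at hy
        obtain ⟨x, hx, rfl⟩ := hy
        rcases hx with hx | hx
        · have := itemsP_bounds k x hx; omega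
        · omega)
      (by
        intro y hy
        simp only [mem_map] at hy
        obtain ⟨x, hx, rfl⟩ := hy
        have := capsP_bounds k x hx
        simp only [Tk, hk]; omega)
      (by
        intro y hy
        rw [mem_singleton] at hy
        subst hy
        simp only [hk]; omega)
      (by
        intro y hy
        have := capsP_bounds k y hy
        omega)
      (by simp only [hk]; omega)
      (by rw [card_map, card_capsP]) (by simp) (by simp)
      (by rw [card_itemsP]; omega) hq
      (BBZ_shift (Tk k) _ _ _ (ih (d + 1))) (by simpa using ih 0)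
    have e1 : itemsP (k + 1) + replicate d (dk (k + 1))
        = {-(hk k) - dk k} + itemsP k
          + (itemsP k + replicate (d + 1) (dk k)).map (fun x => x + Tk k) := by
      have e0 : (replicate (d + 1) (dk k)).map (fun x => x + Tk k)
          = {dk k + Tk k} + replicate d (dk k + Tk k) := by
        rw [map_replicate, replicate_succ, singleton_add]
      rw [Multiset.map_add, e0]
      simp only [itemsP, dk, add_assoc]
    have e2 : qk (k + 1) - 2 = qk k + (qk k - 2) + 1 := by
      simp only [qk]; omega
    rw [e1, e2]
    exact key

/-- the integral bound: at most `tk k` disjoint triples -/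
theorem UBZ_U (k : ℕ) : UBZ (UU k) (tk k) := by
  induction k with
  | zero =>
    apply UBZ_zero
    intro a ha
    simp only [UU, mem_replicate] at ha
    omega
  | succ k ih =>
    have hd := dk_bounds k
    have hq := qk_ge k
    have key := UBZ_nest (-(hk k) - dk k - 1) (-(Rk k) - 1) (Tk k - Rk k - 1)
      (by simp only [hk]; omega) (by simp only [Tk]; omega)
      (by simp only [Tk, hk]; omega) (by simp only [Tk, hk]; omega)
      ((capsP k).map (fun x => x - 2 * Tk k)) (replicate 2 (-(hk k) - dk k)) (UU k)
      ((itemsP k + replicate 1 (dk k)).map (fun x => x + Tk k)) (qk k) 2 (tk k)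
      (by
        intro y hy
        simp only [mem_map] at hy
        obtain ⟨x, hx, rfl⟩ := hy
        have := capsP_bounds k x hx
        simp only [Tk, hk]; omega)
      (by
        intro y hy
        simp only [mem_replicate] at hy
        rw [hy.2]
        simp only [hk]; omega)
      (by
        intro y hy
        have := UU_bounds k y hy
        simp only [Tk]; omega)
      (by
        intro y hy
        simp only [mem_map, mem_add, mem_replicate] at hy
        obtain ⟨x, hx, rfl⟩ := hy
        rcases hx with hx | hx
        · have := itemsP_bounds k x hx; omega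
        · omega)
      (by rw [card_map, card_capsP]) (by simp) (by rw [card_UU]) hq
      (BBZ_shift (Tk k) _ _ _ (BBZ_P k 1)) ih
    have e1 : UU (k + 1) = (capsP k).map (fun x => x - 2 * Tk k) + replicate 2 (-(hk k) - dk k)
        + UU k + (itemsP k + replicate 1 (dk k)).map (fun x => x + Tk k) := by
      simp only [UU, Multiset.map_add, replicate_one, map_singleton]
    rw [e1]
    exact key

end Vale.Agent.Lib.P302
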