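import Vale.Agent.Lib.P302.ZFrac

/-!
# From offsets to bin packing instances; gaps tending to 4/3 (problem P302)
-/

namespace Vale.Agent.Lib.P302
open Multiset

theorem sum_use3 (S : Finset ℤ) (P : List ((ℤ × ℤ × ℤ) × ℝ))
    (h : ∀ p ∈ P, p.1.1 ∈ S ∧ p.1.2.1 ∈ S ∧ p.1.2.2 ∈ S) :
    ∑ v ∈ S, use3 P v = 3 * wt P := by
  induction P with
  | nil => simp [use3, wt]
  | cons p P ih =>
    have h0 := h p (by simp)
    have e : ∀ v, use3 (p :: P) v
        = (ind p.1.1 v + ind p.1.2.1 v + ind p.1.2.2 v) * p.2 + use3 P v := by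
      intro v; simp [use3]
    have i1 : ∀ a ∈ S, ∑ v ∈ S, ind a v = 1 := by
      intro a ha
      unfold ind
      rw [Finset.sum_ite_eq]
      simp [ha]
    simp only [e, Finset.sum_add_distrib, ← Finset.sum_mul]
    rw [ih (fun q hq => h q (by simp [hq])), i1 _ h0.1, i1 _ h0.2.1, i1 _ h0.2.2]
    simp only [wt, List.map_cons, List.sum_cons]
    ring

theorem cnt1 (g : ℤ → ℚ) (hinj : Function.Injective g) (a v : ℤ) :
    (if g v = g a then (1 : ℝ) else 0) = ind a v := by
  unfold ind
  by_cases h : a = v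
  · subst h; simp
  · rw [if_neg h, if_neg (fun h' => h (hinj h').symm)]

theorem cnt3 (g : ℤ → ℚ) (hinj : Function.Injective g) (a b c v : ℤ) :
    ((count (g v) ({g a, g b, g c} : Multiset ℚ) : ℕ) : ℝ) = ind a v + ind b v + ind c v := by
  simp only [insert_eq_cons, count_cons, count_singleton]
  push_cast
  rw [cnt1 g hinj a v, cnt1 g hinj b v, cnt1 g hinj c v]
  ring

theorem cnt2 (g : ℤ → ℚ) (hinj : Function.Injective g) (a v : ℤ) :
    ((count (g v) ({g a, g a} : Multiset ℚ) : ℕ) : ℝ) = 2 * ind a v := by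
  simp only [insert_eq_cons, count_cons, count_singleton]
  push_cast
  rw [cnt1 g hinj a v]
  ring

/-- A fractional family of triples gives a fractional cover by triples and pairs. -/
theorem LP_le_triples (l : List ℤ) (g : ℤ → ℚ) (hinj : Function.Injective g)
    (P : List ((ℤ × ℤ × ℤ) × ℝ))
    (hok : ∀ p ∈ P, 0 ≤ p.2 ∧ g p.1.1 + g p.1.2.1 + g p.1.2.2 ≤ 1 ∧
      p.1.1 ∈ l ∧ p.1.2.1 ∈ l ∧ p.1.2.2 ∈ l)
    (hpair : ∀ x ∈ l, g x + g x ≤ 1)
    (huse : ∀ v, use3 P v ≤ (l.count v : ℝ)) :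
    LP (l.map g) ≤ ((l.length : ℝ) - wt P) / 2 := by
  have key := LP_le_of_list (l.map g)
    (P.map (fun p => (({g p.1.1, g p.1.2.1, g p.1.2.2} : Multiset ℚ), p.2)) ++
      l.toFinset.toList.map
        (fun v => (({g v, g v} : Multiset ℚ), ((l.count v : ℝ) - use3 P v) / 2))) ?_ ?_ ?_
  · refine le_trans key (le_of_eq ?_)
    rw [List.map_append, List.sum_append, List.map_map, List.map_map]
    have e1 : (List.map ((fun p : Multiset ℚ × ℝ => p.2) ∘ fun p : (ℤ × ℤ × ℤ) × ℝ =>
        (({g p.1.1, g p.1.2.1, g p.1.2.2} : Multiset ℚ), p.2)) P).sum = wt P := rfl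
    have e2 : (List.map ((fun p : Multiset ℚ × ℝ => p.2) ∘ fun v : ℤ =>
        (({g v, g v} : Multiset ℚ), ((l.count v : ℝ) - use3 P v) / 2)) l.toFinset.toList).sum
        = ∑ v ∈ l.toFinset, ((l.count v : ℝ) - use3 P v) / 2 :=
      Finset.sum_map_toList _ _
    rw [e1, e2, ← Finset.sum_div, Finset.sum_sub_distrib,
      sum_use3 l.toFinset P (fun p hp => by
        obtain ⟨_, _, h3, h4, h5⟩ := hok p hp
        exact ⟨List.mem_toFinset.2 h3, List.mem_toFinset.2 h4, List.mem_toFinset.2 h5⟩)]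
    have e3 : ∑ v ∈ l.toFinset, (l.count v : ℝ) = (l.length : ℝ) := by
      have := List.sum_toFinset_count_eq_length l
      exact_mod_cast this
    rw [e3]
    ring
  · intro p hp
    rcases List.mem_append.1 hp with hp | hp
    · obtain ⟨p0, hp0, rfl⟩ := List.mem_map.1 hp
      exact (hok p0 hp0).1
    · obtain ⟨v, _, rfl⟩ := List.mem_map.1 hp
      have := huse v
      simp only
      linarith
  · intro p hp
    rcases List.mem_append.1 hp with hp | hp
    · obtain ⟨p0, hp0, rfl⟩ := List.mem_map.1 hp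
      obtain ⟨_, h2, h3, h4, h5⟩ := hok p0 hp0
      constructor
      · intro s hs
        simp only [insert_eq_cons, mem_cons, mem_singleton] at hs
        rcases hs with rfl | rfl | rfl
        · exact List.mem_map.2 ⟨_, h3, rfl⟩
        · exact List.mem_map.2 ⟨_, h4, rfl⟩
        · exact List.mem_map.2 ⟨_, h5, rfl⟩
      · simp only [insert_eq_cons, sum_cons, sum_singleton]
        linarith
    · obtain ⟨v, hv, rfl⟩ := List.mem_map.1 hp
      have hv' : v ∈ l := List.mem_toFinset.1 (Finset.mem_toList.1 hv)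
      constructor
      · intro s hs
        simp only [insert_eq_cons, mem_cons, mem_singleton] at hs
        rcases hs with rfl | rfl
        · exact List.mem_map.2 ⟨_, hv', rfl⟩
        · exact List.mem_map.2 ⟨_, hv', rfl⟩
      · simp only [insert_eq_cons, sum_cons, sum_singleton]
        exact hpair v hv'
  · intro s hs
    obtain ⟨v0, hv0, rfl⟩ := List.mem_map.1 hs
    rw [List.count_map_of_injective l g hinj v0, List.map_append, List.sum_append,
      List.map_map, List.map_map]
    have e1 : (List.map ((fun p : Multiset ℚ × ℝ => ((count (g v0) p.1 : ℕ) : ℝ) * p.2) ∘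
        fun p : (ℤ × ℤ × ℤ) × ℝ =>
        (({g p.1.1, g p.1.2.1, g p.1.2.2} : Multiset ℚ), p.2)) P).sum = use3 P v0 := by
      unfold use3
      congr 1
      apply List.map_congr_left
      intro p _
      simp only [Function.comp, cnt3 g hinj]
    have e2 : (List.map ((fun p : Multiset ℚ × ℝ => ((count (g v0) p.1 : ℕ) : ℝ) * p.2) ∘
        fun v : ℤ =>
        (({g v, g v} : Multiset ℚ), ((l.count v : ℝ) - use3 P v) / 2)) l.toFinset.toList).sum
        = (l.count v0 : ℝ) - use3 P v0 := by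
      rw [Finset.sum_map_toList]
      simp only [Function.comp, cnt2 g hinj]
      rw [Finset.sum_eq_single v0]
      · simp only [ind, if_true]; ring
      · intro b _ hb
        simp [ind, hb]
      · intro h
        exact absurd (List.mem_toFinset.2 hv0) h
    rw [e1, e2]
    linarith

theorem TPZ_of_TP (B : ℕ) (s : Multiset ℕ) (h : TP (3 * B) s) :
    TPZ (s.map (fun y : ℕ => (y : ℤ) - B)) := by
  induction h with
  | zero => simpa using TPZ.zero
  | cons a b c s habc _ ih =>
    simp only [map_cons]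
    exact TPZ.cons _ _ _ _ (by omega) ih

theorem UB_of_UBZ (B : ℕ) (M : Multiset ℤ) (τ : ℕ) (hM : ∀ x ∈ M, 0 ≤ (B : ℤ) + x)
    (h : UBZ M τ) : UB (3 * B) (M.map (fun x => ((B : ℤ) + x).toNat)) τ := by
  intro s hs hTP
  have h1 : s.map (fun y : ℕ => (y : ℤ) - B) ≤ M := by
    have h2 := map_le_map (f := fun y : ℕ => (y : ℤ) - B) hs
    rw [map_map] at h2
    have h3 : M.map ((fun y : ℕ => (y : ℤ) - B) ∘ fun x => ((B : ℤ) + x).toNat) = M := by
      conv_rhs => rw [← map_id' M]
      apply map_congr rfl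
      intro x hx
      have := hM x hx
      simp only [Function.comp]
      omega
    rwa [h3] at h2
  have := h _ h1 (TPZ_of_TP B s hTP)
  simpa using this

/-- the size with offset `x` when a third of the capacity is `B` -/
def szq (B : ℕ) (x : ℤ) : ℚ := ((B : ℚ) + x) / (3 * B)

theorem szq_injective (B : ℕ) (hB : 0 < B) : Function.Injective (szq B) := by
  intro x y hxy
  have hB' : (3 * (B : ℚ)) ≠ 0 := by positivity
  unfold szq at hxy
  rw [div_left_inj' hB'] at hxy
  have : (x : ℚ) = y := by linarith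
  exact_mod_cast this

/-- The general transfer: offsets `M` bounded by `R`, at most `τ` disjoint triples,
`card M = 3 τ + 5`, and a fractional family of triples of weight `W`. -/
theorem gap_of_offsets (M : Multiset ℤ) (R : ℕ) (τ : ℕ) (P : List ((ℤ × ℤ × ℤ) × ℝ))
    (hR : ∀ x ∈ M, -(R : ℤ) ≤ x ∧ x ≤ R) (hU : UBZ M τ) (hcard : card M = 3 * τ + 5)
    (hok : ∀ p ∈ P, 0 ≤ p.2 ∧ p.1.1 + p.1.2.1 + p.1.2.2 ≤ 0 ∧
      p.1.1 ∈ M ∧ p.1.2.1 ∈ M ∧ p.1.2.2 ∈ M)
    (huse : ∀ v, use3 P v ≤ (count v M : ℝ)) :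
    ∃ a : List ℚ, IsInstance a ∧ (1 / 2 + (wt P - τ) / 2 : ℝ) ≤ (OPT a : ℝ) - LP a := by
  set B : ℕ := 4 * R + 1 with hB
  set l : List ℤ := M.toList with hl
  have hlM : (l : Multiset ℤ) = M := coe_toList M
  have hmem : ∀ x, x ∈ l ↔ x ∈ M := fun x => mem_toList
  set sizes : List ℕ := l.map (fun x => ((B : ℤ) + x).toNat) with hsizes
  have hBpos : 0 < B := by omega
  have hL : 0 < 3 * B := by omega
  have ha : toInst (3 * B) sizes = l.map (szq B) := by
    rw [toInst, hsizes, List.map_map]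
    apply List.map_congr_left
    intro x hx
    have hx' := hR x ((hmem x).1 hx)
    simp only [Function.comp, sc, szq]
    have h0 : (0 : ℤ) ≤ (B : ℤ) + x := by omega
    have h1 : ((((B : ℤ) + x).toNat : ℕ) : ℚ) = (B : ℚ) + x := by
      have : ((((B : ℤ) + x).toNat : ℕ) : ℤ) = (B : ℤ) + x := Int.toNat_of_nonneg h0
      exact_mod_cast this
    rw [h1]
    push_cast
    ring
  have h4 : ∀ s ∈ sizes, 3 * B < 4 * s := by
    intro s hs
    obtain ⟨x, hx, rfl⟩ := List.mem_map.1 hs
    have hx' := hR x ((hmem x).1 hx)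
    omega
  have h1 : ∀ s ∈ sizes, s ≤ 3 * B := by
    intro s hs
    obtain ⟨x, hx, rfl⟩ := List.mem_map.1 hs
    have hx' := hR x ((hmem x).1 hx)
    omega
  have hinst : IsInstance (toInst (3 * B) sizes) :=
    toInst_isInstance (3 * B) sizes (fun s hs => by have := h4 s hs; omega) h1
  have hUB : UB (3 * B) (sizes : Multiset ℕ) τ := by
    have := UB_of_UBZ B M τ (fun x hx => by have := hR x hx; omega) hU
    rw [← hlM, map_coe] at this
    exact this
  have hlen : sizes.length = 3 * τ + 5 := by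
    rw [hsizes, List.length_map, hl, length_toList, hcard]
  have hopt : τ + 3 ≤ OPT (toInst (3 * B) sizes) := by
    by_contra hlt
    have hle : OPT (toInst (3 * B) sizes) ≤ τ + 2 := by omega
    exact not_packable_UB (3 * B) hL sizes _ τ h4 (by omega) hUB (OPT_packable _ hinst)
  have hBq : (0 : ℚ) < 3 * (B : ℚ) := by positivity
  have hlp : LP (l.map (szq B)) ≤ ((l.length : ℝ) - wt P) / 2 := by
    apply LP_le_triples l (szq B) (szq_injective B hBpos) P
    · intro p hp
      obtain ⟨g1, g2, g3, g4, g5⟩ := hok p hp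
      refine ⟨g1, ?_, (hmem _).2 g3, (hmem _).2 g4, (hmem _).2 g5⟩
      unfold szq
      rw [← add_div, ← add_div, div_le_one hBq]
      have : ((p.1.1 + p.1.2.1 + p.1.2.2 : ℤ) : ℚ) ≤ 0 := by exact_mod_cast g2
      push_cast at this
      linarith
    · intro x hx
      have hx' := hR x ((hmem x).1 hx)
      unfold szq
      rw [← add_div, div_le_one hBq]
      have : (2 * x : ℤ) ≤ (B : ℤ) := by omega
      have : ((2 * x : ℤ) : ℚ) ≤ ((B : ℤ) : ℚ) := by exact_mod_cast this
      push_cast at this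
      linarith
    · intro v
      have := huse v
      rw [← hlM, coe_count] at this
      exact this
  refine ⟨toInst (3 * B) sizes, hinst, ?_⟩
  rw [ha] at hopt ⊢
  have hlen' : (l.length : ℝ) = 3 * τ + 5 := by
    have : l.length = 3 * τ + 5 := by rw [hl, length_toList, hcard]
    rw [this]; push_cast; ring
  rw [hlen'] at hlp
  have hopt' : (τ : ℝ) + 3 ≤ (OPT (l.map (szq B)) : ℝ) := by exact_mod_cast hopt
  linarith

/-- the instance of level `k` has gap at least `4/3 - fk k / 6` -/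
theorem gap_level (k : ℕ) :
    ∃ a : List ℚ, IsInstance a ∧ (4 / 3 - fk k / 6 : ℝ) ≤ (OPT a : ℝ) - LP a := by
  have hRnn : 0 ≤ Rk k := by have := dk_bounds k; omega
  obtain ⟨a, h1, h2⟩ := gap_of_offsets (UU k) (Rk k).toNat (tk k) (solU k)
    (by
      intro x hx
      have h1 := UU_bounds k x hx
      have h2 := dk_bounds k
      rw [Int.toNat_of_nonneg hRnn]
      omega)
    (UBZ_U k) (card_UU k) (solU_ok k)
    (by
      intro v
      have h1 := solU_use k v
      have h2 := ind_nonneg (dk k) v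
      have h3 : 0 ≤ fk k := le_trans (ek_pos k).le (fk_bounds k).1
      nlinarith)
  refine ⟨a, h1, le_trans (le_of_eq ?_) h2⟩
  rw [solU_wt]
  ring

/-- **Gaps tending to 4/3.** -/
theorem gap_four_thirds (ε : ℝ) (hε : 0 < ε) :
    ∃ a : List ℚ, IsInstance a ∧ 4 / 3 - ε < (OPT a : ℝ) - LP a := by
  obtain ⟨k, hk⟩ := exists_pow_lt_of_lt_one (x := ε) (y := (3 / 4 : ℝ)) hε (by norm_num)
  obtain ⟨a, h1, h2⟩ := gap_level k
  refine ⟨a, h1, lt_of_lt_of_le ?_ h2⟩
  have := fk_le k
  linarith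

end Vale.Agent.Lib.P302
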