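import Vale.Agent.Lib.P302.ZFam

/-!
# The explicit fractional solutions for the recursive family (problem P302)
-/

namespace Vale.Agent.Lib.P302
open Multiset

/-- indicator of `a = v` -/
noncomputable def ind (a v : ℤ) : ℝ := if a = v then 1 else 0

theorem ind_nonneg (a v : ℤ) : 0 ≤ ind a v := by
  unfold ind; split_ifs <;> norm_num

theorem ind_add (a T v : ℤ) : ind (a + T) v = ind a (v - T) := by
  unfold ind
  by_cases h : a + T = v
  · rw [if_pos h, if_pos (by omega)]
  · rw [if_neg h, if_neg (by omega)]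

theorem ind_sub (a T v : ℤ) : ind (a - T) v = ind a (v + T) := by
  unfold ind
  by_cases h : a - T = v
  · rw [if_pos h, if_pos (by omega)]
  · rw [if_neg h, if_neg (by omega)]

/-- use of the value `v` as one of the first two members -/
noncomputable def useI (P : List ((ℤ × ℤ × ℤ) × ℝ)) (v : ℤ) : ℝ :=
  (P.map (fun p => (ind p.1.1 v + ind p.1.2.1 v) * p.2)).sum

/-- use of the value `v` as third member -/
noncomputable def useC (P : List ((ℤ × ℤ × ℤ) × ℝ)) (v : ℤ) : ℝ :=
  (P.map (fun p => ind p.1.2.2 v * p.2)).sum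

/-- total use of the value `v` -/
noncomputable def use3 (P : List ((ℤ × ℤ × ℤ) × ℝ)) (v : ℤ) : ℝ :=
  (P.map (fun p => (ind p.1.1 v + ind p.1.2.1 v + ind p.1.2.2 v) * p.2)).sum

/-- total weight -/
noncomputable def wt (P : List ((ℤ × ℤ × ℤ) × ℝ)) : ℝ := (P.map (fun p => p.2)).sum

/-- shifting a typed triple -/
def shP (T : ℤ) (p : (ℤ × ℤ × ℤ) × ℝ) : (ℤ × ℤ × ℤ) × ℝ :=
  ((p.1.1 + T, p.1.2.1 + T, p.1.2.2 - 2 * T), p.2)

theorem useI_append (P Q : List ((ℤ × ℤ × ℤ) × ℝ)) (v : ℤ) :
    useI (P ++ Q) v = useI P v + useI Q v := by simp [useI]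

theorem useC_append (P Q : List ((ℤ × ℤ × ℤ) × ℝ)) (v : ℤ) :
    useC (P ++ Q) v = useC P v + useC Q v := by simp [useC]

theorem use3_append (P Q : List ((ℤ × ℤ × ℤ) × ℝ)) (v : ℤ) :
    use3 (P ++ Q) v = use3 P v + use3 Q v := by simp [use3]

theorem wt_append (P Q : List ((ℤ × ℤ × ℤ) × ℝ)) : wt (P ++ Q) = wt P + wt Q := by simp [wt]

theorem use3_eq (P : List ((ℤ × ℤ × ℤ) × ℝ)) (v : ℤ) : use3 P v = useI P v + useC P v := by
  induction P with
  | nil => simp [use3, useI, useC]
  | cons p P ih =>
    simp only [use3, useI, useC, List.map_cons, List.sum_cons] at ih ⊢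
    rw [ih]; ring

theorem useI_shift (T : ℤ) (P : List ((ℤ × ℤ × ℤ) × ℝ)) (v : ℤ) :
    useI (P.map (shP T)) v = useI P (v - T) := by
  induction P with
  | nil => simp [useI]
  | cons p P ih =>
    simp only [useI, List.map_cons, List.sum_cons] at ih ⊢
    rw [ih]
    simp only [shP, ind_add]

theorem useC_shift (T : ℤ) (P : List ((ℤ × ℤ × ℤ) × ℝ)) (v : ℤ) :
    useC (P.map (shP T)) v = useC P (v + 2 * T) := by
  induction P with
  | nil => simp [useC]
  | cons p P ih =>
    simp only [useC, List.map_cons, List.sum_cons] at ih ⊢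
    rw [ih]
    simp only [shP, ind_sub]

theorem wt_shift (T : ℤ) (P : List ((ℤ × ℤ × ℤ) × ℝ)) : wt (P.map (shP T)) = wt P := by
  induction P with
  | nil => simp [wt]
  | cons p P ih =>
    simp only [wt, List.map_cons, List.sum_cons] at ih ⊢
    rw [ih]
    simp only [shP]

theorem count_shift_add (T v : ℤ) (M : Multiset ℤ) :
    count v (M.map (fun x => x + T)) = count (v - T) M := by
  have := count_map_eq_count' (fun x : ℤ => x + T) M (add_left_injective T) (v - T)
  simpa using this

theorem count_shift_sub (T v : ℤ) (M : Multiset ℤ) :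
    count v (M.map (fun x => x - T)) = count (v + T) M := by
  have := count_map_eq_count' (fun x : ℤ => x - T) M (sub_left_injective (b := T)) (v + T)
  simpa using this

theorem count_singleton_ind (a v : ℤ) : ((count v ({a} : Multiset ℤ) : ℕ) : ℝ) = ind a v := by
  rw [count_singleton]
  unfold ind
  by_cases h : v = a
  · rw [if_pos h, if_pos h.symm]; simp
  · rw [if_neg h, if_neg (fun h' => h h'.symm)]; simp

theorem count_replicate_ind (n : ℕ) (a v : ℤ) :
    ((count v (replicate n a) : ℕ) : ℝ) = ind a v * n := by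
  rw [count_replicate]
  unfold ind
  by_cases h : a = v
  · rw [if_pos h, if_pos h]; simp
  · rw [if_neg h, if_neg h]; simp

/-- the slack of the typed problems -/
noncomputable def ek (k : ℕ) : ℝ := 2 * (2 / 3) ^ k

/-- the slack of the instances -/
noncomputable def fk : ℕ → ℝ
  | 0 => 5
  | k + 1 => (3 * ek k + fk k) / 4

theorem ek_succ (k : ℕ) : ek (k + 1) = 2 / 3 * ek k := by
  unfold ek; rw [pow_succ]; ring

theorem ek_pos (k : ℕ) : 0 < ek k := by unfold ek; positivity

theorem ek_le (k : ℕ) : ek k ≤ 2 := by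
  induction k with
  | zero => simp [ek]
  | succ k ih => rw [ek_succ]; have := ek_pos k; linarith

theorem fk_bounds (k : ℕ) : ek k ≤ fk k ∧ fk k - ek k ≤ 3 := by
  induction k with
  | zero => simp only [ek, fk]; norm_num
  | succ k ih =>
    have h1 := ek_pos k
    have h2 := ek_le k
    rw [ek_succ]
    simp only [fk]
    constructor <;> linarith [ih.1, ih.2]

theorem fk_le (k : ℕ) : fk k ≤ 5 * (3 / 4) ^ k := by
  induction k with
  | zero => simp [fk]
  | succ k ih =>
    simp only [fk]
    have h1 : ek k ≤ 2 * (3 / 4) ^ k := by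
      unfold ek
      have : ((2 : ℝ) / 3) ^ k ≤ (3 / 4) ^ k := by
        apply pow_le_pow_left₀ <;> norm_num
      linarith
    rw [pow_succ]
    have h2 : (0 : ℝ) < (3 / 4) ^ k := by positivity
    linarith

/-- the fractional solution of the typed problem of level `k` -/
noncomputable def solP : ℕ → List ((ℤ × ℤ × ℤ) × ℝ)
  | 0 => []
  | k + 1 => (solP k).map (shP (Tk k)) ++ solP k ++
      [((dk k + Tk k, dk k, 0 - 2 * Tk k), ek k),
       ((dk k + Tk k, -(hk k) - dk k, -(hk k)), 1 - ek k / 3),
       ((dk k, dk k, -(hk k)), ek k / 3),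
       ((-(hk k) - dk k, dk k, 0), ek k / 3)]

/-- the fractional solution of the instance of level `k` -/
noncomputable def solU : ℕ → List ((ℤ × ℤ × ℤ) × ℝ)
  | 0 => []
  | k + 1 => (solP k).map (shP (Tk k)) ++ solU k ++
      [((dk k + Tk k, dk k, 0 - 2 * Tk k), ek k),
       ((dk k + Tk k, -(hk k) - dk k, -(hk k) - dk k), 1 - (fk k - ek k) / 4),
       ((dk k, dk k, -(hk k) - dk k), 2 * ((fk k - ek k) / 4))]

theorem solP_useI (k : ℕ) :
    ∀ v, useI (solP k) v + ind (dk k) v * (2 * ek k) ≤ (count v (itemsP k) : ℝ) := by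
  induction k with
  | zero =>
    intro v
    simp only [solP, itemsP, dk, count_replicate_ind, ek]
    simp [useI]
    have := ind_nonneg 1 v
    linarith
  | succ k ih =>
    intro v
    have h1 := ih v
    have h2 := ih (v - Tk k)
    simp only [solP, itemsP, dk, useI_append, useI_shift, count_add, count_shift_add,
      Nat.cast_add, count_singleton_ind, ek_succ]
    rw [← ind_add] at h2
    simp only [useI, List.map_cons, List.map_nil, List.sum_cons, List.sum_nil] at h1 h2 ⊢
    linarith

theorem solP_useC (k : ℕ) :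
    ∀ v, useC (solP k) v + ind 0 v * ek k ≤ (count v (capsP k) : ℝ) := by
  induction k with
  | zero =>
    intro v
    simp only [solP, capsP, count_replicate_ind, ek]
    simp [useC]
  | succ k ih =>
    intro v
    have h1 := ih v
    have h2 := ih (v + 2 * Tk k)
    simp only [solP, capsP, useC_append, useC_shift, count_add, count_shift_sub,
      Nat.cast_add, count_singleton_ind, ek_succ]
    rw [← ind_sub] at h2
    simp only [useC, List.map_cons, List.map_nil, List.sum_cons, List.sum_nil] at h1 h2 ⊢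
    linarith

theorem solP_wt (k : ℕ) : wt (solP k) = (qk k : ℝ) - ek k := by
  induction k with
  | zero => simp [solP, wt, qk, ek]
  | succ k ih =>
    simp only [solP, wt_append, wt_shift, ih, qk, ek_succ]
    simp only [wt, List.map_cons, List.map_nil, List.sum_cons, List.sum_nil]
    push_cast
    ring

theorem dk_mem (k : ℕ) : dk k ∈ itemsP k := by
  cases k with
  | zero => simp [dk, itemsP]
  | succ k => simp [dk, itemsP]

theorem zero_mem (k : ℕ) : (0 : ℤ) ∈ capsP k := by
  induction k with
  | zero => simp [capsP]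
  | succ k ih => simp only [capsP, mem_add]; exact Or.inr ih

theorem solP_ok (k : ℕ) : ∀ p ∈ solP k, 0 ≤ p.2 ∧ p.1.1 + p.1.2.1 + p.1.2.2 ≤ 0 ∧
    p.1.1 ∈ itemsP k ∧ p.1.2.1 ∈ itemsP k ∧ p.1.2.2 ∈ capsP k := by
  induction k with
  | zero => intro p hp; simp [solP] at hp
  | succ k ih =>
    intro p hp
    have hd := dk_bounds k
    have he := ek_pos k
    have he2 := ek_le k
    have hm := dk_mem k
    have hz := zero_mem k
    simp only [solP, List.mem_append, List.mem_map, List.mem_cons, List.not_mem_nil,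
      or_false] at hp
    rcases hp with (⟨p0, hp0, rfl⟩ | hp) | (rfl | rfl | rfl | rfl)
    · obtain ⟨g1, g2, g3, g4, g5⟩ := ih p0 hp0
      refine ⟨g1, by simp only [shP]; omega, ?_, ?_, ?_⟩
      · simp only [shP, itemsP, mem_add, mem_map]
        exact Or.inr (Or.inl ⟨_, g3, rfl⟩)
      · simp only [shP, itemsP, mem_add, mem_map]
        exact Or.inr (Or.inl ⟨_, g4, rfl⟩)
      · simp only [shP, capsP, mem_add, mem_map]
        exact Or.inl (Or.inl ⟨_, g5, rfl⟩)
    · obtain ⟨g1, g2, g3, g4, g5⟩ := ih p hp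
      refine ⟨g1, g2, ?_, ?_, ?_⟩
      · simp only [itemsP, mem_add]; exact Or.inl (Or.inr g3)
      · simp only [itemsP, mem_add]; exact Or.inl (Or.inr g4)
      · simp only [capsP, mem_add]; exact Or.inr g5
    · refine ⟨he.le, by simp only [Tk]; omega, ?_, ?_, ?_⟩
      · simp only [itemsP, mem_add, mem_singleton]; exact Or.inr (Or.inr trivial)
      · simp only [itemsP, mem_add]; exact Or.inl (Or.inr hm)
      · simp only [capsP, mem_add, mem_map]; exact Or.inl (Or.inl ⟨0, hz, rfl⟩)
    · refine ⟨by simp only; linarith, by simp only [Tk, hk]; omega, ?_, ?_, ?_⟩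
      · simp only [itemsP, mem_add, mem_singleton]; exact Or.inr (Or.inr trivial)
      · simp only [itemsP, mem_add, mem_singleton]; exact Or.inl (Or.inl trivial)
      · simp only [capsP, mem_add, mem_singleton]; exact Or.inl (Or.inr trivial)
    · refine ⟨by simp only; linarith, by simp only [hk]; omega, ?_, ?_, ?_⟩
      · simp only [itemsP, mem_add]; exact Or.inl (Or.inr hm)
      · simp only [itemsP, mem_add]; exact Or.inl (Or.inr hm)
      · simp only [capsP, mem_add, mem_singleton]; exact Or.inl (Or.inr trivial)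
    · refine ⟨by simp only; linarith, by simp only [hk]; omega, ?_, ?_, ?_⟩
      · simp only [itemsP, mem_add, mem_singleton]; exact Or.inl (Or.inl trivial)
      · simp only [itemsP, mem_add]; exact Or.inl (Or.inr hm)
      · simp only [capsP, mem_add]; exact Or.inr hz

theorem solU_use (k : ℕ) :
    ∀ v, use3 (solU k) v + ind (dk k) v * fk k ≤ (count v (UU k) : ℝ) := by
  induction k with
  | zero =>
    intro v
    simp only [solU, UU, dk, count_replicate_ind, fk]
    simp [use3]
  | succ k ih =>
    intro v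
    have h1 := ih v
    have h2 := solP_useI k (v - Tk k)
    have h3 := solP_useC k (v + 2 * Tk k)
    simp only [solU, UU, dk, use3_append, count_add, count_shift_add, count_shift_sub,
      Nat.cast_add, count_singleton_ind, count_replicate_ind, fk]
    rw [use3_eq ((solP k).map (shP (Tk k))), useI_shift, useC_shift]
    rw [← ind_add] at h2
    rw [← ind_sub] at h3
    simp only [use3, List.map_cons, List.map_nil, List.sum_cons, List.sum_nil] at h1 ⊢
    push_cast
    linarith

theorem solU_wt (k : ℕ) : wt (solU k) = (tk k : ℝ) + (5 - fk k) / 3 := by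
  induction k with
  | zero => simp [solU, wt, tk, fk]
  | succ k ih =>
    simp only [solU, wt_append, wt_shift, ih, solP_wt, tk, fk]
    simp only [wt, List.map_cons, List.map_nil, List.sum_cons, List.sum_nil]
    push_cast
    ring

theorem dk_mem_UU (k : ℕ) : dk k ∈ UU k := by
  cases k with
  | zero => simp [dk, UU]
  | succ k => simp [dk, UU]

theorem solU_ok (k : ℕ) : ∀ p ∈ solU k, 0 ≤ p.2 ∧ p.1.1 + p.1.2.1 + p.1.2.2 ≤ 0 ∧
    p.1.1 ∈ UU k ∧ p.1.2.1 ∈ UU k ∧ p.1.2.2 ∈ UU k := by
  induction k with
  | zero => intro p hp; simp [solU] at hp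
  | succ k ih =>
    intro p hp
    have hd := dk_bounds k
    have he := ek_pos k
    have hf := fk_bounds k
    have hm := dk_mem_UU k
    have hz := zero_mem k
    simp only [solU, List.mem_append, List.mem_map, List.mem_cons, List.not_mem_nil,
      or_false] at hp
    rcases hp with (⟨p0, hp0, rfl⟩ | hp) | (rfl | rfl | rfl)
    · obtain ⟨g1, g2, g3, g4, g5⟩ := solP_ok k p0 hp0
      refine ⟨g1, by simp only [shP]; omega, ?_, ?_, ?_⟩
      · simp only [shP, UU, mem_add, mem_map]
        exact Or.inr (Or.inl ⟨_, g3, rfl⟩)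
      · simp only [shP, UU, mem_add, mem_map]
        exact Or.inr (Or.inl ⟨_, g4, rfl⟩)
      · simp only [shP, UU, mem_add, mem_map]
        exact Or.inl (Or.inl (Or.inl ⟨_, g5, rfl⟩))
    · obtain ⟨g1, g2, g3, g4, g5⟩ := ih p hp
      refine ⟨g1, g2, ?_, ?_, ?_⟩
      · simp only [UU, mem_add]; exact Or.inl (Or.inr g3)
      · simp only [UU, mem_add]; exact Or.inl (Or.inr g4)
      · simp only [UU, mem_add]; exact Or.inl (Or.inr g5)
    · refine ⟨he.le, by simp only [Tk]; omega, ?_, ?_, ?_⟩
      · simp only [UU, mem_add, mem_singleton]; exact Or.inr (Or.inr trivial)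
      · simp only [UU, mem_add]; exact Or.inl (Or.inr hm)
      · simp only [UU, mem_add, mem_map]; exact Or.inl (Or.inl (Or.inl ⟨0, hz, rfl⟩))
    · refine ⟨by simp only; linarith [hf.2], by simp only [Tk, hk]; omega, ?_, ?_, ?_⟩
      · simp only [UU, mem_add, mem_singleton]; exact Or.inr (Or.inr trivial)
      · simp only [UU, mem_add, mem_replicate]; exact Or.inl (Or.inl (Or.inr ⟨by norm_num, trivial⟩))
      · simp only [UU, mem_add, mem_replicate]; exact Or.inl (Or.inl (Or.inr ⟨by norm_num, trivial⟩))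
    · refine ⟨by simp only; linarith [hf.1], by simp only [hk]; omega, ?_, ?_, ?_⟩
      · simp only [UU, mem_add]; exact Or.inl (Or.inr hm)
      · simp only [UU, mem_add]; exact Or.inl (Or.inr hm)
      · simp only [UU, mem_add, mem_replicate]; exact Or.inl (Or.inl (Or.inr ⟨by norm_num, trivial⟩))

end Vale.Agent.Lib.P302
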