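import Vale.Agent.Lib.P302.Cert

/-!
# The nesting lemmas for integer offsets (problem P302)

Items are integers (offsets from a third of the capacity); a triple fits iff its sum is `≤ 0`.
-/

namespace Vale.Agent.Lib.P302
open Multiset

/-- `TPZ s`: the multiset `s` of integers splits into triples, each of sum at most `0`. -/
inductive TPZ : Multiset ℤ → Prop
  | zero : TPZ 0
  | cons (a b c : ℤ) (s : Multiset ℤ) : a + b + c ≤ 0 → TPZ s → TPZ (a ::ₘ b ::ₘ c ::ₘ s)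

/-- at most `N` disjoint triples of sum at most `0` -/
def UBZ (M : Multiset ℤ) (N : ℕ) : Prop := ∀ s ≤ M, TPZ s → card s ≤ 3 * N

/-- `DPZ s t`: the items `s` are split in pairs, each pair matched with one element of `t`,
every such typed triple of sum at most `0`. -/
inductive DPZ : Multiset ℤ → Multiset ℤ → Prop
  | zero : DPZ 0 0
  | cons (a b c : ℤ) (s t : Multiset ℤ) :
      a + b + c ≤ 0 → DPZ s t → DPZ (a ::ₘ b ::ₘ s) (c ::ₘ t)

/-- at most `N` disjoint typed triples -/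
def BBZ (A C : Multiset ℤ) (N : ℕ) : Prop :=
  ∀ s ≤ A, ∀ t ≤ C, DPZ s t → card t ≤ N

section untyped

variable (c1 c2 c3 : ℤ)

/-- the book-keeping of a family of disjoint triples, by the classes
`C : y ≤ c1`, `H : c1 < y ≤ c2`, `S : c2 < y ≤ c3`, `A : c3 < y` -/
def LedgerZ (s : Multiset ℤ) : Prop :=
  ∃ (x v R1 R2 eC eH eS k2 sT : ℕ) (pa pc ps : Multiset ℤ),
    DPZ pa pc ∧ card pc = x ∧ TPZ ps ∧ card ps = 3 * v ∧
    pa ≤ s ∧ (∀ y ∈ pa, c3 < y) ∧ pc ≤ s ∧ (∀ y ∈ pc, y ≤ c1) ∧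
    ps ≤ s ∧ (∀ y ∈ ps, c2 < y ∧ y ≤ c3) ∧
    countP (fun y => y ≤ c1) s = x + R1 + eC ∧
    countP (fun y => c1 < y ∧ y ≤ c2) s = R2 + k2 + eH ∧
    countP (fun y => c2 < y ∧ y ≤ c3) s = 3 * v + eS + sT ∧
    2 * R2 ≤ sT + 2 * k2 ∧ R1 ≤ eC + eH + eS ∧ card s = 3 * (x + v + R1 + R2)

def iCZ (y : ℤ) : ℕ := if y ≤ c1 then 1 else 0
def iHZ (y : ℤ) : ℕ := if c1 < y ∧ y ≤ c2 then 1 else 0
def iSZ (y : ℤ) : ℕ := if c2 < y ∧ y ≤ c3 then 1 else 0

theorem clsZ (h12 : c1 ≤ c2) (h23 : c2 ≤ c3) (y : ℤ) :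
    (y ≤ c1 ∧ iCZ c1 y = 1 ∧ iHZ c1 c2 y = 0 ∧ iSZ c2 c3 y = 0) ∨
    (c1 < y ∧ y ≤ c2 ∧ iCZ c1 y = 0 ∧ iHZ c1 c2 y = 1 ∧ iSZ c2 c3 y = 0) ∨
    (c2 < y ∧ y ≤ c3 ∧ iCZ c1 y = 0 ∧ iHZ c1 c2 y = 0 ∧ iSZ c2 c3 y = 1) ∨
    (c3 < y ∧ iCZ c1 y = 0 ∧ iHZ c1 c2 y = 0 ∧ iSZ c2 c3 y = 0) := by
  unfold iCZ iHZ iSZ
  split_ifs <;> omega

theorem countP3Z (p : ℤ → Prop) [DecidablePred p] (a b c : ℤ) (s : Multiset ℤ) :
    countP p (a ::ₘ b ::ₘ c ::ₘ s) = countP p s + ((if p a then 1 else 0) + (if p b then 1 else 0)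
      + (if p c then 1 else 0)) := by
  rw [countP_cons, countP_cons, countP_cons]
  omega

theorem le_cons3Z (a b c : ℤ) (s : Multiset ℤ) : s ≤ a ::ₘ b ::ₘ c ::ₘ s :=
  le_trans (le_cons_self _ _) (le_trans (le_cons_self _ _) (le_cons_self _ _))

theorem step_genZ (a b c : ℤ) (s : Multiset ℤ) (led : LedgerZ c1 c2 c3 s)
    (hcond : (1 ≤ iCZ c1 a + iCZ c1 b + iCZ c1 c ∧
        2 ≤ (iCZ c1 a + iCZ c1 b + iCZ c1 c) + (iHZ c1 c2 a + iHZ c1 c2 b + iHZ c1 c2 c)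
          + (iSZ c2 c3 a + iSZ c2 c3 b + iSZ c2 c3 c)) ∨
      (iCZ c1 a + iCZ c1 b + iCZ c1 c = 0 ∧ 1 ≤ iHZ c1 c2 a + iHZ c1 c2 b + iHZ c1 c2 c ∧
        4 ≤ (iSZ c2 c3 a + iSZ c2 c3 b + iSZ c2 c3 c)
          + 2 * (iHZ c1 c2 a + iHZ c1 c2 b + iHZ c1 c2 c))) :
    LedgerZ c1 c2 c3 (a ::ₘ b ::ₘ c ::ₘ s) := by
  obtain ⟨x, v, R1, R2, eC, eH, eS, k2, sT, pa, pc, ps, g1, g2, g3, g4, g5, g6, g7, g8, g9, g10,
    g11, g12, g13, g14, g15, g16⟩ := led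
  have hC := countP3Z (fun y => y ≤ c1) a b c s
  have hH := countP3Z (fun y => c1 < y ∧ y ≤ c2) a b c s
  have hS := countP3Z (fun y => c2 < y ∧ y ≤ c3) a b c s
  have hle := le_cons3Z a b c s
  rcases hcond with ⟨k1, k3⟩ | ⟨k1, k3, k4⟩
  · refine ⟨x, v, R1 + 1, R2, eC + (iCZ c1 a + iCZ c1 b + iCZ c1 c - 1),
      eH + (iHZ c1 c2 a + iHZ c1 c2 b + iHZ c1 c2 c), eS + (iSZ c2 c3 a + iSZ c2 c3 b + iSZ c2 c3 c),
      k2, sT, pa, pc, ps, g1, g2, g3, g4, le_trans g5 hle, g6, le_trans g7 hle, g8,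
      le_trans g9 hle, g10, ?_, ?_, ?_, g14, ?_, ?_⟩
    · rw [hC, g11]; unfold iCZ at *; omega
    · rw [hH, g12]; unfold iHZ at *; omega
    · rw [hS, g13]; unfold iSZ at *; omega
    · omega
    · simp only [card_cons]; omega
  · refine ⟨x, v, R1, R2 + 1, eC, eH, eS,
      k2 + (iHZ c1 c2 a + iHZ c1 c2 b + iHZ c1 c2 c - 1),
      sT + (iSZ c2 c3 a + iSZ c2 c3 b + iSZ c2 c3 c), pa, pc, ps, g1, g2, g3, g4,
      le_trans g5 hle, g6, le_trans g7 hle, g8, le_trans g9 hle, g10, ?_, ?_, ?_, ?_, g15, ?_⟩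
    · rw [hC, g11]; unfold iCZ at *; omega
    · rw [hH, g12]; unfold iHZ at *; omega
    · rw [hS, g13]; unfold iSZ at *; omega
    · omega
    · simp only [card_cons]; omega

theorem step_CAAZ (h12 : c1 ≤ c2) (h23 : c2 ≤ c3) (a b c : ℤ) (s : Multiset ℤ)
    (led : LedgerZ c1 c2 c3 s)
    (ha : c3 < a) (hb : c3 < b) (hc : c ≤ c1) (habc : a + b + c ≤ 0) :
    LedgerZ c1 c2 c3 (a ::ₘ b ::ₘ c ::ₘ s) := by
  obtain ⟨x, v, R1, R2, eC, eH, eS, k2, sT, pa, pc, ps, g1, g2, g3, g4, g5, g6, g7, g8, g9, g10,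
    g11, g12, g13, g14, g15, g16⟩ := led
  have hC := countP3Z (fun y => y ≤ c1) a b c s
  have hH := countP3Z (fun y => c1 < y ∧ y ≤ c2) a b c s
  have hS := countP3Z (fun y => c2 < y ∧ y ≤ c3) a b c s
  have hle := le_cons3Z a b c s
  refine ⟨x + 1, v, R1, R2, eC, eH, eS, k2, sT, a ::ₘ b ::ₘ pa, c ::ₘ pc, ps,
    DPZ.cons a b c pa pc habc g1, by simp [g2], g3, g4, ?_, ?_, ?_, ?_, le_trans g9 hle, g10,
    ?_, ?_, ?_, g14, g15, ?_⟩
  · exact cons_le_cons a (cons_le_cons b (le_trans g5 (le_cons_self _ _)))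
  · intro y hy
    simp only [mem_cons] at hy
    rcases hy with rfl | rfl | hy
    · exact ha
    · exact hb
    · exact g6 y hy
  · have : a ::ₘ b ::ₘ c ::ₘ s = c ::ₘ a ::ₘ b ::ₘ s := by
      simp only [← singleton_add]
      abel
    rw [this]
    exact cons_le_cons c (le_trans g7 (le_trans (le_cons_self _ _) (le_cons_self _ _)))
  · intro y hy
    simp only [mem_cons] at hy
    rcases hy with rfl | hy
    · exact hc
    · exact g8 y hy
  · rw [hC, g11, if_neg (by omega), if_neg (by omega), if_pos hc]; omega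
  · rw [hH, g12, if_neg (by omega), if_neg (by omega), if_neg (by omega)]; omega
  · rw [hS, g13, if_neg (by omega), if_neg (by omega), if_neg (by omega)]; omega
  · simp only [card_cons]; omega

theorem step_SSSZ (h12 : c1 ≤ c2) (a b c : ℤ) (s : Multiset ℤ)
    (led : LedgerZ c1 c2 c3 s)
    (ha : c2 < a ∧ a ≤ c3) (hb : c2 < b ∧ b ≤ c3) (hc : c2 < c ∧ c ≤ c3) (habc : a + b + c ≤ 0) :
    LedgerZ c1 c2 c3 (a ::ₘ b ::ₘ c ::ₘ s) := by
  obtain ⟨x, v, R1, R2, eC, eH, eS, k2, sT, pa, pc, ps, g1, g2, g3, g4, g5, g6, g7, g8, g9, g10,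
    g11, g12, g13, g14, g15, g16⟩ := led
  have hC := countP3Z (fun y => y ≤ c1) a b c s
  have hH := countP3Z (fun y => c1 < y ∧ y ≤ c2) a b c s
  have hS := countP3Z (fun y => c2 < y ∧ y ≤ c3) a b c s
  have hle := le_cons3Z a b c s
  refine ⟨x, v + 1, R1, R2, eC, eH, eS, k2, sT, pa, pc, a ::ₘ b ::ₘ c ::ₘ ps,
    g1, g2, TPZ.cons a b c ps habc g3, by simp only [card_cons]; omega, le_trans g5 hle, g6,
    le_trans g7 hle, g8, ?_, ?_, ?_, ?_, ?_, g14, g15, ?_⟩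
  · exact cons_le_cons a (cons_le_cons b (cons_le_cons c g9))
  · intro y hy
    simp only [mem_cons] at hy
    rcases hy with rfl | rfl | rfl | hy
    · exact ha
    · exact hb
    · exact hc
    · exact g10 y hy
  · rw [hC, g11, if_neg (by omega), if_neg (by omega), if_neg (by omega)]; omega
  · rw [hH, g12, if_neg (by omega), if_neg (by omega), if_neg (by omega)]; omega
  · rw [hS, g13, if_pos ha, if_pos hb, if_pos hc]; omega
  · simp only [card_cons]; omega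

theorem ledgerZ (h12 : c1 ≤ c2) (h23 : c2 ≤ c3)
    (h1 : 0 < 2 * (c3 + 1) + (c1 + 1)) (h2 : 0 < (c3 + 1) + (c1 + 1) + (c2 + 1))
    (s : Multiset ℤ) (h : TPZ s) : LedgerZ c1 c2 c3 s := by
  induction h with
  | zero =>
    exact ⟨0, 0, 0, 0, 0, 0, 0, 0, 0, 0, 0, 0, DPZ.zero, by simp, TPZ.zero, by simp, le_refl _,
      by simp, le_refl _, by simp, le_refl _, by simp, by simp, by simp, by simp, by simp,
      by simp, by simp⟩
  | cons a b c s habc _ ih =>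
    by_cases t1 : c3 < a ∧ c3 < b ∧ c ≤ c1
    · exact step_CAAZ c1 c2 c3 h12 h23 a b c s ih t1.1 t1.2.1 t1.2.2 habc
    by_cases t2 : c3 < a ∧ b ≤ c1 ∧ c3 < c
    · have : a ::ₘ b ::ₘ c ::ₘ s = a ::ₘ c ::ₘ b ::ₘ s := by
        simp only [← singleton_add]
        abel
      rw [this]
      exact step_CAAZ c1 c2 c3 h12 h23 a c b s ih t2.1 t2.2.2 t2.2.1 (by omega)
    by_cases t3 : a ≤ c1 ∧ c3 < b ∧ c3 < c
    · have : a ::ₘ b ::ₘ c ::ₘ s = b ::ₘ c ::ₘ a ::ₘ s := by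
        simp only [← singleton_add]
        abel
      rw [this]
      exact step_CAAZ c1 c2 c3 h12 h23 b c a s ih t3.2.1 t3.2.2 t3.1 (by omega)
    by_cases t4 : (c2 < a ∧ a ≤ c3) ∧ (c2 < b ∧ b ≤ c3) ∧ (c2 < c ∧ c ≤ c3)
    · exact step_SSSZ c1 c2 c3 h12 a b c s ih t4.1 t4.2.1 t4.2.2 habc
    apply step_genZ c1 c2 c3 a b c s ih
    rcases clsZ c1 c2 c3 h12 h23 a with ⟨p1, p2, p3, p4⟩ | ⟨p0, p1, p2, p3, p4⟩ |
        ⟨p0, p1, p2, p3, p4⟩ | ⟨p1, p2, p3, p4⟩ <;>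
      rcases clsZ c1 c2 c3 h12 h23 b with ⟨q1, q2, q3, q4⟩ | ⟨q0, q1, q2, q3, q4⟩ |
        ⟨q0, q1, q2, q3, q4⟩ | ⟨q1, q2, q3, q4⟩ <;>
      rcases clsZ c1 c2 c3 h12 h23 c with ⟨r1, r2, r3, r4⟩ | ⟨r0, r1, r2, r3, r4⟩ |
        ⟨r0, r1, r2, r3, r4⟩ | ⟨r1, r2, r3, r4⟩ <;>
      rw [p2, p3, p4, q2, q3, q4, r2, r3, r4] <;> omega

theorem filter_fourZ (p : ℤ → Prop) [DecidablePred p] (X1 X2 X3 Y : Multiset ℤ)
    (h1 : ∀ y ∈ X1, ¬ p y) (h2 : ∀ y ∈ X2, ¬ p y) (h3 : ∀ y ∈ X3, ¬ p y) (hY : ∀ y ∈ Y, p y) :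
    filter p X1 = 0 ∧ filter p X2 = 0 ∧ filter p X3 = 0 ∧ filter p Y = Y :=
  ⟨filter_eq_nil.2 h1, filter_eq_nil.2 h2, filter_eq_nil.2 h3, filter_eq_self.2 hY⟩

/-- **Nesting lemma (untyped).**  Items of four classes: `Cs` (very small sizes), `Hs` (at most
two), `Ss` (the inner instance), `As` (large).  If at most `q - g` disjoint typed triples
`(A, A, C)` fit, the inner instance has at most `τ0` disjoint triples and at most
`3 τ0 + 3 + g` items, then the whole instance has at most `q + τ0 + 1` disjoint triples. -/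
theorem UBZ_nest (h12 : c1 ≤ c2) (h23 : c2 ≤ c3)
    (h1 : 0 < 2 * (c3 + 1) + (c1 + 1)) (h2 : 0 < (c3 + 1) + (c1 + 1) + (c2 + 1))
    (Cs Hs Ss As : Multiset ℤ) (q g τ0 : ℕ)
    (hC : ∀ y ∈ Cs, y ≤ c1) (hH : ∀ y ∈ Hs, c1 < y ∧ y ≤ c2)
    (hS : ∀ y ∈ Ss, c2 < y ∧ y ≤ c3) (hA : ∀ y ∈ As, c3 < y)
    (hq : card Cs = q) (hh : card Hs ≤ 2) (hn : card Ss ≤ 3 * τ0 + 3 + g) (hg : g ≤ q)
    (hB : BBZ As Cs (q - g)) (hU : UBZ Ss τ0) :
    UBZ (Cs + Hs + Ss + As) (q + τ0 + 1) := by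
  intro s hs hTP
  obtain ⟨x, v, R1, R2, eC, eH, eS, k2, sT, pa, pc, ps, g1, g2, g3, g4, g5, g6, g7, g8, g9, g10,
    g11, g12, g13, g14, g15, g16⟩ := ledgerZ c1 c2 c3 h12 h23 h1 h2 s hTP
  -- the class parts of the whole instance
  have fA : filter (fun y => c3 < y) (Cs + Hs + Ss + As) = As := by
    obtain ⟨e1, e2, e3, e4⟩ := filter_fourZ (fun y => c3 < y) Cs Hs Ss As
      (fun y hy => by have := hC y hy; omega) (fun y hy => by have := hH y hy; omega)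
      (fun y hy => by have := hS y hy; omega) hA
    rw [filter_add, filter_add, filter_add, e1, e2, e3, e4]; simp
  have fC : filter (fun y => y ≤ c1) (Cs + Hs + Ss + As) = Cs := by
    obtain ⟨e1, e2, e3, e4⟩ := filter_fourZ (fun y => y ≤ c1) Hs Ss As Cs
      (fun y hy => by have := hH y hy; omega) (fun y hy => by have := hS y hy; omega)
      (fun y hy => by have := hA y hy; omega) hC
    rw [filter_add, filter_add, filter_add, e1, e2, e3, e4]; simp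
  have fS : filter (fun y => c2 < y ∧ y ≤ c3) (Cs + Hs + Ss + As) = Ss := by
    obtain ⟨e1, e2, e3, e4⟩ := filter_fourZ (fun y => c2 < y ∧ y ≤ c3) Cs Hs As Ss
      (fun y hy => by have := hC y hy; omega) (fun y hy => by have := hH y hy; omega)
      (fun y hy => by have := hA y hy; omega) hS
    rw [filter_add, filter_add, filter_add, e1, e2, e3, e4]; simp
  have fH : filter (fun y => c1 < y ∧ y ≤ c2) (Cs + Hs + Ss + As) = Hs := by
    obtain ⟨e1, e2, e3, e4⟩ := filter_fourZ (fun y => c1 < y ∧ y ≤ c2) Cs Ss As Hs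
      (fun y hy => by have := hC y hy; omega) (fun y hy => by have := hS y hy; omega)
      (fun y hy => by have := hA y hy; omega) hH
    rw [filter_add, filter_add, filter_add, e1, e2, e3, e4]; simp
  have pa_le : pa ≤ As := by
    rw [← fA]; exact le_filter.2 ⟨le_trans g5 hs, g6⟩
  have pc_le : pc ≤ Cs := by
    rw [← fC]; exact le_filter.2 ⟨le_trans g7 hs, g8⟩
  have ps_le : ps ≤ Ss := by
    rw [← fS]; exact le_filter.2 ⟨le_trans g9 hs, g10⟩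
  have b1 := hB pa pa_le pc pc_le g1
  have b2 := hU ps ps_le g3
  have nC : countP (fun y => y ≤ c1) s ≤ q := by
    have := countP_le_of_le (fun y => y ≤ c1) hs
    rw [countP_eq_card_filter (fun y => y ≤ c1) (Cs + Hs + Ss + As), fC, hq] at this
    exact this
  have nH : countP (fun y => c1 < y ∧ y ≤ c2) s ≤ 2 := by
    have := countP_le_of_le (fun y => c1 < y ∧ y ≤ c2) hs
    rw [countP_eq_card_filter (fun y => c1 < y ∧ y ≤ c2) (Cs + Hs + Ss + As), fH] at this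
    omega
  have nS : countP (fun y => c2 < y ∧ y ≤ c3) s ≤ 3 * τ0 + 3 + g := by
    have := countP_le_of_le (fun y => c2 < y ∧ y ≤ c3) hs
    rw [countP_eq_card_filter (fun y => c2 < y ∧ y ≤ c3) (Cs + Hs + Ss + As), fS] at this
    omega
  rw [g16]
  omega

end untyped

section typed

variable (d1 d2 e1 e2 : ℤ)

/-- book-keeping for a family of disjoint typed triples.  Item classes:
`HA : y ≤ d1`, inner `d1 < y ≤ d2`, shell `d2 < y`; bin classes: shell `z ≤ e1`,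
`HC : e1 < z ≤ e2`, inner `e2 < z`. -/
def LedgerTZ (s t : Multiset ℤ) : Prop :=
  ∃ (x1 R1 eH1 eS1 NH hHC sHC x0 R0 hR0 sR0 : ℕ) (pa1 pc1 pa0 pc0 : Multiset ℤ),
    DPZ pa1 pc1 ∧ card pc1 = x1 ∧ DPZ pa0 pc0 ∧ card pc0 = x0 ∧
    pa1 ≤ s ∧ (∀ y ∈ pa1, d2 < y) ∧ pc1 ≤ t ∧ (∀ z ∈ pc1, z ≤ e1) ∧
    pa0 ≤ s ∧ (∀ y ∈ pa0, d1 < y ∧ y ≤ d2) ∧ pc0 ≤ t ∧ (∀ z ∈ pc0, e2 < z) ∧
    countP (fun z => z ≤ e1) t = x1 + R1 ∧
    countP (fun z => e1 < z ∧ z ≤ e2) t = NH ∧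
    card t = x1 + R1 + NH + x0 + R0 ∧
    countP (fun y => y ≤ d1) s = eH1 + hHC + hR0 ∧
    countP (fun y => d1 < y ∧ y ≤ d2) s = eS1 + sHC + 2 * x0 + sR0 ∧
    R1 ≤ eH1 + eS1 ∧ 2 * NH ≤ sHC + 2 * hHC ∧ R0 ≤ hR0 ∧ 3 * R0 ≤ sR0 + 2 * hR0

theorem countP2Z (p : ℤ → Prop) [DecidablePred p] (a b : ℤ) (s : Multiset ℤ) :
    countP p (a ::ₘ b ::ₘ s) = countP p s + ((if p a then 1 else 0) + (if p b then 1 else 0)) := by
  rw [countP_cons, countP_cons]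
  omega

theorem le_cons2Z (a b : ℤ) (s : Multiset ℤ) : s ≤ a ::ₘ b ::ₘ s :=
  le_trans (le_cons_self _ _) (le_cons_self _ _)

theorem stepT_genZ (h12 : d1 ≤ d2) (g12 : e1 ≤ e2) (a b c : ℤ) (s t : Multiset ℤ)
    (led : LedgerTZ d1 d2 e1 e2 s t)
    (hcond : (c ≤ e1 ∧ (a ≤ d2 ∨ b ≤ d2)) ∨
      ((e1 < c ∧ c ≤ e2) ∧ ((a ≤ d1 ∨ b ≤ d1) ∨ (a ≤ d2 ∧ b ≤ d2))) ∨
      (e2 < c ∧ ((a ≤ d1 ∧ b ≤ d2) ∨ (a ≤ d2 ∧ b ≤ d1)))) :
    LedgerTZ d1 d2 e1 e2 (a ::ₘ b ::ₘ s) (c ::ₘ t) := by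
  obtain ⟨x1, R1, eH1, eS1, NH, hHC, sHC, x0, R0, hR0, sR0, pa1, pc1, pa0, pc0, g1, g2, g3, g4,
    g5, g6, g7, g8, g9, g10, g11, g12', g13, g14, g15, g16, g17, g18, g19, g20, g21⟩ := led
  have hH := countP2Z (fun y => y ≤ d1) a b s
  have hS := countP2Z (fun y => d1 < y ∧ y ≤ d2) a b s
  have hB1 := countP_cons (fun z => z ≤ e1) c t
  have hB2 := countP_cons (fun z => e1 < z ∧ z ≤ e2) c t
  have hle := le_cons2Z a b s
  have hlt := le_cons_self t c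
  set jH : ℕ := (if a ≤ d1 then 1 else 0) + (if b ≤ d1 then 1 else 0) with hjH
  set jS : ℕ := (if d1 < a ∧ a ≤ d2 then 1 else 0) + (if d1 < b ∧ b ≤ d2 then 1 else 0) with hjS
  rcases hcond with ⟨k1, k2⟩ | ⟨k1, k2⟩ | ⟨k1, k2⟩
  · have hj : 1 ≤ jH + jS := by
      rw [hjH, hjS]; split_ifs <;> omega
    refine ⟨x1, R1 + 1, eH1 + jH, eS1 + jS, NH, hHC, sHC, x0, R0, hR0, sR0, pa1, pc1, pa0, pc0,
      g1, g2, g3, g4, le_trans g5 hle, g6, le_trans g7 hlt, g8, le_trans g9 hle, g10,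
      le_trans g11 hlt, g12', ?_, ?_, ?_, ?_, ?_, ?_, g19, g20, g21⟩
    · rw [hB1, g13, if_pos k1]; omega
    · rw [hB2, g14, if_neg (by omega)]; omega
    · rw [card_cons, g15]; omega
    · rw [hH, g16]; omega
    · rw [hS, g17]; omega
    · omega
  · have hj : 2 ≤ jS + 2 * jH := by
      rw [hjH, hjS]; split_ifs <;> omega
    refine ⟨x1, R1, eH1, eS1, NH + 1, hHC + jH, sHC + jS, x0, R0, hR0, sR0, pa1, pc1, pa0, pc0,
      g1, g2, g3, g4, le_trans g5 hle, g6, le_trans g7 hlt, g8, le_trans g9 hle, g10,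
      le_trans g11 hlt, g12', ?_, ?_, ?_, ?_, ?_, g18, ?_, g20, g21⟩
    · rw [hB1, g13, if_neg (by omega)]; omega
    · rw [hB2, g14, if_pos k1]
    · rw [card_cons, g15]; omega
    · rw [hH, g16]; omega
    · rw [hS, g17]; omega
    · omega
  · have hj : 1 ≤ jH ∧ 3 ≤ jS + 2 * jH := by
      rw [hjH, hjS]; split_ifs <;> omega
    refine ⟨x1, R1, eH1, eS1, NH, hHC, sHC, x0, R0 + 1, hR0 + jH, sR0 + jS, pa1, pc1, pa0, pc0,
      g1, g2, g3, g4, le_trans g5 hle, g6, le_trans g7 hlt, g8, le_trans g9 hle, g10,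
      le_trans g11 hlt, g12', ?_, ?_, ?_, ?_, ?_, g18, g19, ?_, ?_⟩
    · rw [hB1, g13, if_neg (by omega)]; omega
    · rw [hB2, g14, if_neg (by omega)]; omega
    · rw [card_cons, g15]; omega
    · rw [hH, g16]; omega
    · rw [hS, g17]; omega
    · omega
    · omega

theorem stepT_shellZ (h12 : d1 ≤ d2) (g12 : e1 ≤ e2) (a b c : ℤ) (s t : Multiset ℤ)
    (led : LedgerTZ d1 d2 e1 e2 s t) (ha : d2 < a) (hb : d2 < b) (hc : c ≤ e1)
    (habc : a + b + c ≤ 0) :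
    LedgerTZ d1 d2 e1 e2 (a ::ₘ b ::ₘ s) (c ::ₘ t) := by
  obtain ⟨x1, R1, eH1, eS1, NH, hHC, sHC, x0, R0, hR0, sR0, pa1, pc1, pa0, pc0, g1, g2, g3, g4,
    g5, g6, g7, g8, g9, g10, g11, g12', g13, g14, g15, g16, g17, g18, g19, g20, g21⟩ := led
  have hH := countP2Z (fun y => y ≤ d1) a b s
  have hS := countP2Z (fun y => d1 < y ∧ y ≤ d2) a b s
  have hB1 := countP_cons (fun z => z ≤ e1) c t
  have hB2 := countP_cons (fun z => e1 < z ∧ z ≤ e2) c t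
  have hle := le_cons2Z a b s
  have hlt := le_cons_self t c
  refine ⟨x1 + 1, R1, eH1, eS1, NH, hHC, sHC, x0, R0, hR0, sR0, a ::ₘ b ::ₘ pa1, c ::ₘ pc1,
    pa0, pc0, DPZ.cons a b c pa1 pc1 habc g1, by simp [g2], g3, g4,
    cons_le_cons a (cons_le_cons b g5), ?_, cons_le_cons c g7, ?_, le_trans g9 hle, g10,
    le_trans g11 hlt, g12', ?_, ?_, ?_, ?_, ?_, g18, g19, g20, g21⟩
  · intro y hy
    simp only [mem_cons] at hy
    rcases hy with rfl | rfl | hy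
    · exact ha
    · exact hb
    · exact g6 y hy
  · intro y hy
    simp only [mem_cons] at hy
    rcases hy with rfl | hy
    · exact hc
    · exact g8 y hy
  · rw [hB1, g13, if_pos hc]; omega
  · rw [hB2, g14, if_neg (by omega)]; omega
  · rw [card_cons, g15]; omega
  · rw [hH, g16, if_neg (by omega), if_neg (by omega)]; omega
  · rw [hS, g17, if_neg (by omega), if_neg (by omega)]; omega

theorem stepT_innerZ (h12 : d1 ≤ d2) (g12 : e1 ≤ e2) (a b c : ℤ) (s t : Multiset ℤ)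
    (led : LedgerTZ d1 d2 e1 e2 s t) (ha : d1 < a ∧ a ≤ d2) (hb : d1 < b ∧ b ≤ d2) (hc : e2 < c)
    (habc : a + b + c ≤ 0) :
    LedgerTZ d1 d2 e1 e2 (a ::ₘ b ::ₘ s) (c ::ₘ t) := by
  obtain ⟨x1, R1, eH1, eS1, NH, hHC, sHC, x0, R0, hR0, sR0, pa1, pc1, pa0, pc0, g1, g2, g3, g4,
    g5, g6, g7, g8, g9, g10, g11, g12', g13, g14, g15, g16, g17, g18, g19, g20, g21⟩ := led
  have hH := countP2Z (fun y => y ≤ d1) a b s
  have hS := countP2Z (fun y => d1 < y ∧ y ≤ d2) a b s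
  have hB1 := countP_cons (fun z => z ≤ e1) c t
  have hB2 := countP_cons (fun z => e1 < z ∧ z ≤ e2) c t
  have hle := le_cons2Z a b s
  have hlt := le_cons_self t c
  refine ⟨x1, R1, eH1, eS1, NH, hHC, sHC, x0 + 1, R0, hR0, sR0, pa1, pc1, a ::ₘ b ::ₘ pa0,
    c ::ₘ pc0, g1, g2, DPZ.cons a b c pa0 pc0 habc g3, by simp [g4], le_trans g5 hle, g6,
    le_trans g7 hlt, g8, cons_le_cons a (cons_le_cons b g9), ?_, cons_le_cons c g11, ?_,
    ?_, ?_, ?_, ?_, ?_, g18, g19, g20, g21⟩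
  · intro y hy
    simp only [mem_cons] at hy
    rcases hy with rfl | rfl | hy
    · exact ha
    · exact hb
    · exact g10 y hy
  · intro y hy
    simp only [mem_cons] at hy
    rcases hy with rfl | hy
    · exact hc
    · exact g12' y hy
  · rw [hB1, g13, if_neg (by omega)]; omega
  · rw [hB2, g14, if_neg (by omega)]; omega
  · rw [card_cons, g15]; omega
  · rw [hH, g16, if_neg (by omega), if_neg (by omega)]; omega
  · rw [hS, g17, if_pos ha, if_pos hb]; omega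

theorem ledgerTZ (lo : ℤ) (h12 : d1 ≤ d2) (g12 : e1 ≤ e2)
    (k1 : 0 < (d2 + 1) + lo + (e2 + 1)) (k2 : 0 < (d2 + 1) + (d1 + 1) + (e1 + 1))
    (s t : Multiset ℤ) (h : DPZ s t) (hlo : ∀ y ∈ s, lo ≤ y) : LedgerTZ d1 d2 e1 e2 s t := by
  induction h with
  | zero =>
    exact ⟨0, 0, 0, 0, 0, 0, 0, 0, 0, 0, 0, 0, 0, 0, 0, DPZ.zero, by simp, DPZ.zero, by simp,
      le_refl _, by simp, le_refl _, by simp, le_refl _, by simp, le_refl _, by simp, by simp,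
      by simp, by simp, by simp, by simp, by simp, by simp, by simp, by simp⟩
  | cons a b c s t habc _ ih =>
    have ih' := ih (fun y hy => hlo y (by simp [hy]))
    have la := hlo a (by simp)
    have lb := hlo b (by simp)
    by_cases t1 : d2 < a ∧ d2 < b ∧ c ≤ e1
    · exact stepT_shellZ d1 d2 e1 e2 h12 g12 a b c s t ih' t1.1 t1.2.1 t1.2.2 habc
    by_cases t2 : (d1 < a ∧ a ≤ d2) ∧ (d1 < b ∧ b ≤ d2) ∧ e2 < c
    · exact stepT_innerZ d1 d2 e1 e2 h12 g12 a b c s t ih' t2.1 t2.2.1 t2.2.2 habc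
    apply stepT_genZ d1 d2 e1 e2 h12 g12 a b c s t ih'
    omega

/-- **Nesting lemma (typed).** -/
theorem BBZ_nest (lo : ℤ) (h12 : d1 ≤ d2) (g12 : e1 ≤ e2)
    (k1 : 0 < (d2 + 1) + lo + (e2 + 1)) (k2 : 0 < (d2 + 1) + (d1 + 1) + (e1 + 1))
    (HAs A0 A1 C1 HCs C0 : Multiset ℤ) (q1 g1 p0 : ℕ)
    (hHA : ∀ y ∈ HAs, lo ≤ y ∧ y ≤ d1) (hA0 : ∀ y ∈ A0, d1 < y ∧ y ≤ d2) (hA1 : ∀ y ∈ A1, d2 < y)
    (hC1 : ∀ z ∈ C1, z ≤ e1) (hHC : ∀ z ∈ HCs, e1 < z ∧ z ≤ e2) (hC0 : ∀ z ∈ C0, e2 < z)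
    (hlo : lo ≤ d1)
    (hq : card C1 = q1) (hh : card HAs ≤ 1) (hhc : card HCs ≤ 1)
    (hn : card A0 ≤ 2 * p0 + 2 + g1) (hg : g1 ≤ q1)
    (hB1 : BBZ A1 C1 (q1 - g1)) (hB0 : BBZ A0 C0 p0) :
    BBZ (HAs + A0 + A1) (C1 + HCs + C0) (q1 + p0 + 1) := by
  intro s hs t ht hDP
  have hlo' : ∀ y ∈ s, lo ≤ y := by
    intro y hy
    have := mem_of_le hs hy
    simp only [mem_add] at this
    rcases this with (h | h) | h
    · exact (hHA y h).1
    · have := hA0 y h; omega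
    · have := hA1 y h; omega
  obtain ⟨x1, R1, eH1, eS1, NH, hHC', sHC, x0, R0, hR0, sR0, pa1, pc1, pa0, pc0, g1', g2, g3, g4,
    g5, g6, g7, g8, g9, g10, g11, g12', g13, g14, g15, g16, g17, g18, g19, g20, g21⟩ :=
    ledgerTZ d1 d2 e1 e2 lo h12 g12 k1 k2 s t hDP hlo'
  have fA1 : filter (fun y => d2 < y) (HAs + A0 + A1) = A1 := by
    rw [filter_add, filter_add, filter_eq_nil.2 (fun y hy => by have := hHA y hy; omega),
      filter_eq_nil.2 (fun y hy => by have := hA0 y hy; omega), filter_eq_self.2 hA1]; simp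
  have fA0 : filter (fun y => d1 < y ∧ y ≤ d2) (HAs + A0 + A1) = A0 := by
    rw [filter_add, filter_add, filter_eq_nil.2 (fun y hy => by have := hHA y hy; omega),
      filter_eq_self.2 hA0, filter_eq_nil.2 (fun y hy => by have := hA1 y hy; omega)]; simp
  have fHA : filter (fun y => y ≤ d1) (HAs + A0 + A1) = HAs := by
    rw [filter_add, filter_add, filter_eq_self.2 (fun y hy => (hHA y hy).2),
      filter_eq_nil.2 (fun y hy => by have := hA0 y hy; omega),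
      filter_eq_nil.2 (fun y hy => by have := hA1 y hy; omega)]; simp
  have fC1 : filter (fun z => z ≤ e1) (C1 + HCs + C0) = C1 := by
    rw [filter_add, filter_add, filter_eq_self.2 hC1,
      filter_eq_nil.2 (fun y hy => by have := hHC y hy; omega),
      filter_eq_nil.2 (fun y hy => by have := hC0 y hy; omega)]; simp
  have fHC : filter (fun z => e1 < z ∧ z ≤ e2) (C1 + HCs + C0) = HCs := by
    rw [filter_add, filter_add, filter_eq_nil.2 (fun y hy => by have := hC1 y hy; omega),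
      filter_eq_self.2 hHC, filter_eq_nil.2 (fun y hy => by have := hC0 y hy; omega)]; simp
  have fC0 : filter (fun z => e2 < z) (C1 + HCs + C0) = C0 := by
    rw [filter_add, filter_add, filter_eq_nil.2 (fun y hy => by have := hC1 y hy; omega),
      filter_eq_nil.2 (fun y hy => by have := hHC y hy; omega), filter_eq_self.2 hC0]; simp
  have b1 := hB1 pa1 (by rw [← fA1]; exact le_filter.2 ⟨le_trans g5 hs, g6⟩) pc1
    (by rw [← fC1]; exact le_filter.2 ⟨le_trans g7 ht, g8⟩) g1'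
  have b0 := hB0 pa0 (by rw [← fA0]; exact le_filter.2 ⟨le_trans g9 hs, g10⟩) pc0
    (by rw [← fC0]; exact le_filter.2 ⟨le_trans g11 ht, g12'⟩) g3
  have n1 : countP (fun z => z ≤ e1) t ≤ q1 := by
    have := countP_le_of_le (fun z => z ≤ e1) ht
    rw [countP_eq_card_filter (fun z => z ≤ e1) (C1 + HCs + C0), fC1, hq] at this
    exact this
  have n2 : countP (fun z => e1 < z ∧ z ≤ e2) t ≤ 1 := by
    have := countP_le_of_le (fun z => e1 < z ∧ z ≤ e2) ht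
    rw [countP_eq_card_filter (fun z => e1 < z ∧ z ≤ e2) (C1 + HCs + C0), fHC] at this
    omega
  have n3 : countP (fun y => y ≤ d1) s ≤ 1 := by
    have := countP_le_of_le (fun y => y ≤ d1) hs
    rw [countP_eq_card_filter (fun y => y ≤ d1) (HAs + A0 + A1), fHA] at this
    omega
  have n4 : countP (fun y => d1 < y ∧ y ≤ d2) s ≤ 2 * p0 + 2 + g1 := by
    have := countP_le_of_le (fun y => d1 < y ∧ y ≤ d2) hs
    rw [countP_eq_card_filter (fun y => d1 < y ∧ y ≤ d2) (HAs + A0 + A1), fA0] at this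
    omega
  rw [g15]
  omega

end typed

end Vale.Agent.Lib.P302
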